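import Vale.Agent.P073.H919.HookIn
import Vale.Agent.P073.H142.FaceData
import Vale.Agent.P073.H880.Hook3

/-!
# P073, block H919: [HOOK-FD], the face data of the drawn cells in the plates of ROUND P

The old map of the hook is `f = T true ∘ T false ∘ g`; the position of `f x` in a band of the target
is the position of `g x` in the flat of the level.
-/

open Set Metric Topology Filter MeasureTheory
open scoped ENNReal

set_option linter.unusedSectionVars false

namespace P073.H919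

open P073 P073.H936 P073.H936.K3 P073.H142 P073.H880 P073.H345 P073.H236 P073.H579 P073.H950
open Vale.Agent.P073.St (V)
open Vale.Agent.P073.AB (Idx squ)
open Vale.Agent.P073.H73 (Mesh)
open Vale.Agent.P073.H471 Vale.Agent.P073.H267
open P073.Net P073.PA691

theorem clp_one_ge {t : ℝ} (h : 1 ≤ t) : H880.clp 1 t = 1 := by
  unfold H880.clp
  rw [min_eq_right h, max_eq_right (by norm_num)]

theorem clp_one_le {t : ℝ} (h : t ≤ -1) : H880.clp 1 t = -1 := by
  unfold H880.clp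
  rw [min_eq_left (by linarith), max_eq_left h]

section fam

variable {γ : Type*} {Λ : Set V}

/-- **the position in the band of the target is the position in the flat** -/
theorem clp_σ (F : BFam 3 γ Λ) {b : γ} {k : ℕ} (hk : k < (F.B b).N) (t : ℝ) :
    H880.clp 1 ((F.σ b t - bc (F.B b).N (F.B b).al (F.B b).be k) /
      bw (F.B b).N (F.B b).al (F.B b).be (F.e b)) = H880.clp 1 ((t - (F.B b).a k) / (F.B b).c) := by
  have hc := (F.B b).lvs.c0
  have heo := F.heo b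
  have hbw : 0 < bw (F.B b).N (F.B b).al (F.B b).be (F.e b) := by
    unfold bw; linarith
  have hin : ∀ t, |t - (F.B b).a k| ≤ (F.B b).c →
      F.σ b t = bc (F.B b).N (F.B b).al (F.B b).be k +
        bw (F.B b).N (F.B b).al (F.B b).be (F.e b) * ((t - (F.B b).a k) / (F.B b).c) := by
    intro t ht
    have h1 : F.σ b t = _ := sm_flat (F.B b).lvs hk ht
    rw [h1]
    unfold bc bw BFam.om
    field_simp
    ring
  rcases le_or_gt |t - (F.B b).a k| (F.B b).c with h | h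
  · rw [hin t h, add_sub_cancel_left, mul_div_cancel_left₀ _ hbw.ne']
  · rcases le_or_gt ((F.B b).a k) t with h1 | h1
    · rw [abs_of_nonneg (by linarith)] at h
      have h2 := hin ((F.B b).a k + (F.B b).c) (by rw [add_sub_cancel_left, abs_of_pos hc])
      rw [add_sub_cancel_left, div_self hc.ne', mul_one] at h2
      have h3 : F.σ b ((F.B b).a k + (F.B b).c) ≤ F.σ b t :=
        (F.σ_strictMono b).monotone (by linarith)
      rw [clp_one_ge, clp_one_ge]
      · rw [le_div_iff₀ hc]; linarith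
      · rw [le_div_iff₀ hbw]; linarith
    · rw [abs_of_neg (by linarith)] at h
      have h2 := hin ((F.B b).a k - (F.B b).c) (by
        rw [show (F.B b).a k - (F.B b).c - (F.B b).a k = -(F.B b).c by ring, abs_neg,
          abs_of_pos hc])
      rw [show ((F.B b).a k - (F.B b).c - (F.B b).a k) / (F.B b).c = -1 by
        rw [show (F.B b).a k - (F.B b).c - (F.B b).a k = -(F.B b).c by ring, neg_div,
          div_self hc.ne']] at h2
      have h3 : F.σ b t ≤ F.σ b ((F.B b).a k - (F.B b).c) :=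
        (F.σ_strictMono b).monotone (by linarith)
      rw [clp_one_le, clp_one_le]
      · rw [div_le_iff₀ hc]; linarith
      · rw [div_le_iff₀ hbw]; linarith

end fam

/-- the bands with larger weights -/
theorem bandD_le_mul {L : Fin 3 → Finset ℝ} {lo hi om om' : Fin 3 → ℝ → ℝ} {ρ : ℝ}
    (hlt : ∀ j, ∀ a ∈ L j, lo j a < hi j a) (h : ∀ j, ∀ a ∈ L j, om j a ≤ ρ * om' j a) (y y' : V) :
    bandD L lo hi om y y' ≤ ρ * bandD L lo hi om' y y' := by
  unfold bandD
  rw [Finset.mul_sum]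
  refine Finset.sum_le_sum fun j _ => ?_
  rw [Finset.mul_sum]
  refine Finset.sum_le_sum fun a ha => ?_
  rw [← mul_assoc, ← mul_div_assoc]
  refine mul_le_mul_of_nonneg_right ?_ (abs_nonneg _)
  exact div_le_div_of_nonneg_right (h j a ha) (by linarith [hlt j a ha])

section plates

variable {Ω Λ : Set V} {v : V} {K : BoxCx Λ v} {S : Rad K} {W : Wid K S} {B : Boxes W}
  {G : Geo B} {L : PLev G} {γ : Type*} {φ : γ → K.S} {F : Bool → BFam 3 γ Λ}
  {T : Bool → ConHomeo Λ Λ}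

/-- **old levels = flats**: the clipped levels of the map `f` are the clipped positions of `g` in
the flats -/
theorem PSt.wlev_eq (P : PSt L φ F T) {g f : ConHomeo Ω Λ}
    (hf : ∀ x ∈ Ω, f.toFun x = (T true).toFun ((T false).toFun (g.toFun x))) {b : γ} {c d : ℝ}
    (hc : 7 / 8 ≤ c) (hc2 : c ≤ 2) (hd : d ≤ 1) {x : V} (hx : x ∈ Ω) (hfx : f.toFun x ∈ HB G c d (φ b))
    (i : PI L (φ b)) :
    wlev Sigma.fst (tg (φ b)) 1 (pcen L (φ b)) (pwid L (fun β => (F β).e b) (φ b)) f.toFun i x =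
      wlev Sigma.fst (tg (φ b)) 1 (fun i : PI L (φ b) => L.a (φ b) i.1 i.2)
        (fun i : PI L (φ b) => L.c (φ b) i.1) g.toFun i x := by
  have HP := P.prodOn b hc hc2 hd
  have hgx : g.toFun x ∈ HB G c d (φ b) := (HP.mem _ (g.mapsTo hx)).1 (by rw [← hf x hx]; exact hfx)
  obtain ⟨β, k⟩ := i
  have hB := P.B β b
  have e1 : f.toFun x (tg (φ b) β) = (F β).σ b (g.toFun x (tg (φ b) β)) := by
    rw [hf x hx]
    exact (HP.apply hgx _).trans (P.sgP_tg b β _)
  have h2 := clp_σ (F β) (b := b) (k := k) (by rw [hB.N]; exact k.2) (g.toFun x (tg (φ b) β))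
  rw [← e1, hB.N, hB.al, hB.be, hB.a, hB.c] at h2
  exact h2

/-- 142's relation between the flats and the levels of the plate -/
theorem levIn_flat (L : PLev G) (s : K.S) :
    LevIn (ι := PI L s) Sigma.fst (tg s) (fun i => L.a s i.1 i.2) (fun i => L.c s i.1) (L.lv s)
      (L.loP s) (L.hiP s) (fun i => L.a s i.1 i.2) where
  pos := fun i => (L.lvs s i.1).c0
  mem := fun i => by
    show L.a s i.1 i.2 ∈ L.lv s (tg s i.1)
    rw [PLev.lv_tg]
    exact (L.lvs s i.1).mem_L.2 ⟨i.2, i.2.2, rfl⟩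
  hlo := fun i => by
    show L.loP s (tg s i.1) (L.a s i.1 i.2) = _
    unfold PLev.loP
    rw [bt_tg]
    rfl
  hhi := fun i => by
    show L.hiP s (tg s i.1) (L.a s i.1 i.2) = _
    unfold PLev.hiP
    rw [bt_tg]
    rfl
  inj := by
    rintro ⟨β, k⟩ ⟨β', k'⟩ h1 h2
    have hβ : β = β' := by
      have h3 : tg s β = tg s β' := h1
      have h4 := congrArg (bt s) h3
      rwa [bt_tg, bt_tg] at h4
    subst hβ
    have h3 : L.a s β k = L.a s β k' := h2
    have h4 := (L.lvs s β).injOn (by simp) (by simp) h3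
    rw [Fin.ext h4]
  lt := fun j a ha => (L.ins1P s j).lt a ha

/-- **the old levels are controlled by the bands of the insertion** -/
theorem PSt.dsum_le (P : PSt L φ F T) {g f : ConHomeo Ω Λ}
    (hf : ∀ x ∈ Ω, f.toFun x = (T true).toFun ((T false).toFun (g.toFun x))) {b : γ} {c d : ℝ}
    (hc : 7 / 8 ≤ c) (hc2 : c ≤ 2) (hd : d ≤ 1) {om ρ : ℝ} (hom : 0 ≤ om)
    (hρ : ∀ β, om ≤ ρ * stp (L.N (φ b) β) (K.slo (φ b) (tg (φ b) β) + G.a (φ b))
      (K.shi (φ b) (tg (φ b) β) - G.a (φ b))) {x y : V} (hx : x ∈ Ω) (hy : y ∈ Ω)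
    (hfx : f.toFun x ∈ HB G c d (φ b)) (hfy : f.toFun y ∈ HB G c d (φ b)) :
    om * dsum (wlev (ι := PI L (φ b)) Sigma.fst (tg (φ b)) 1 (pcen L (φ b))
      (pwid L (fun β => (F β).e b) (φ b)) f.toFun) x y ≤
      2 * ρ * bandD (L.lv (φ b)) (L.loP (φ b)) (L.hiP (φ b)) (L.omP (φ b)) (g.toFun x)
        (g.toFun y) := by
  have H := levIn_flat L (φ b)
  have e1 : dsum (wlev (ι := PI L (φ b)) Sigma.fst (tg (φ b)) 1 (pcen L (φ b))
      (pwid L (fun β => (F β).e b) (φ b)) f.toFun) x y =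
      dsum (wlev (ι := PI L (φ b)) Sigma.fst (tg (φ b)) 1 (fun i => L.a (φ b) i.1 i.2)
        (fun i => L.c (φ b) i.1) g.toFun) x y := by
    unfold dsum
    refine Finset.sum_congr rfl fun i _ => ?_
    rw [P.wlev_eq hf hc hc2 hd hx hfx i, P.wlev_eq hf hc hc2 hd hy hfy i]
  rw [e1]
  refine (H.dsum_le hom g.toFun x y).trans ?_
  rw [mul_assoc]
  refine mul_le_mul_of_nonneg_left (bandD_le_mul H.lt (fun j a ha => ?_) _ _) zero_le_two
  by_cases hj : j = K.nrm (φ b)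
  · rw [hj, PLev.lv_nrm] at ha
    exact absurd ha (Finset.notMem_empty _)
  · obtain ⟨β, rfl⟩ : ∃ β, j = tg (φ b) β := ⟨bt (φ b) j, (tg_bt (φ b) hj).symm⟩
    rw [PLev.omP_tg]
    exact hρ β

/-- **[FACEDATA]** for the plates: finitely many closed pieces of the squares with cone estimates,
and paths, for the map `g` before the staircases -/
theorem PSt.faceData (P : PSt L φ F T) {g f : ConHomeo Ω Λ}
    (hf : ∀ x ∈ Ω, f.toFun x = (T true).toFun ((T false).toFun (g.toFun x))) {b : γ} {c d : ℝ}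
    (hc : 7 / 8 ≤ c) (hc2 : c ≤ 2) (hd : d ≤ 1) {om ρ : ℝ} (hom : 0 ≤ om) (hρ0 : 0 ≤ ρ)
    (hρ : ∀ β, om ≤ ρ * stp (L.N (φ b) β) (K.slo (φ b) (tg (φ b) β) + G.a (φ b))
      (K.shi (φ b) (tg (φ b) β) - G.a (φ b))) {Q : Type} {U : Set V} {lo hi : V}
    (D : BoxK (ι := PI L (φ b)) Sigma.fst (tg (φ b)) lo hi (pcen L (φ b))
      (pwid L (fun β => (F β).e b) (φ b)) U Q) (hD : D.h.toFun = f.toFun) (hU : U ⊆ Ω)
    (hUP : ∀ x ∈ U, f.toFun x ∈ HB G c d (φ b)) {u : V} {𝓢 : Finset (Idx × Fin 3)}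
    (h𝓢 : ∀ s ∈ 𝓢, squ u s ⊆ U) {n : Idx × Fin 3 → ℕ} {A : Idx × Fin 3 → ℝ}
    {R : ∀ s, Fin (n s) → Set V} {k : ∀ s, Fin (n s) → ℝ}
    (hS : ∀ s ∈ 𝓢, ∀ i, IsClosed (R s i)) (hcov : ∀ s ∈ 𝓢, squ u s ⊆ ⋃ i, R s i)
    (hA : ∀ s ∈ 𝓢, 0 ≤ A s)
    (hcone : ∀ s ∈ 𝓢, ∀ i, ∀ x ∈ R s i, x ∈ squ u s → ∀ y ∈ R s i, y ∈ squ u s →
      bandD (L.lv (φ b)) (L.loP (φ b)) (L.hiP (φ b)) (L.omP (φ b)) (g.toFun x) (g.toFun y) ≤
        k s i * ‖x - y‖)
    (hpath : ∀ s ∈ 𝓢, ∀ x ∈ squ u s, ∀ y ∈ squ u s, ∃ γ : ℝ → V, ContinuousOn γ (Icc 0 3) ∧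
      MapsTo γ (Icc 0 3) (squ u s) ∧ γ 0 = x ∧ γ 3 = y ∧ cvar (fun t t' => ENNReal.ofReal
        (bandD (L.lv (φ b)) (L.loP (φ b)) (L.hiP (φ b)) (L.omP (φ b)) (g.toFun (γ t))
          (g.toFun (γ t')))) 0 3 ≤ ENNReal.ofReal (A s)) :
    FaceData D u om 𝓢 (fun s x => 2 * ρ * pm (R s) (fun i _ => k s i) x)
      (fun s => 2 * ρ * A s) := by
  have h2ρ : 0 ≤ 2 * ρ := by positivity
  have key : ∀ x ∈ U, ∀ y ∈ U, om * dsum (old D) x y ≤
      2 * ρ * bandD (L.lv (φ b)) (L.loP (φ b)) (L.hiP (φ b)) (L.omP (φ b)) (g.toFun x)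
        (g.toFun y) := by
    intro x hx y hy
    have e : old D = wlev (ι := PI L (φ b)) Sigma.fst (tg (φ b)) 1 (pcen L (φ b))
        (pwid L (fun β => (F β).e b) (φ b)) f.toFun := by
      ext i z
      show wlev _ _ _ _ _ D.h.toFun i z = _
      rw [hD]
    rw [e]
    exact P.dsum_le hf hc hc2 hd hom hρ (hU hx) (hU hy) (hUP x hx) (hUP y hy)
  refine ⟨fun s hs => ?_, fun s _ x _ => mul_nonneg h2ρ (pm_nonneg x), fun s hs x hx => ?_,
    fun s hs => mul_nonneg h2ρ (hA s hs), fun s hs x hx y hy => ?_⟩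
  · have h1 : UpperSemicontinuous (pm (R s) (fun i (_ : V) => k s i)) :=
      upperSemicontinuous_pm (hS s hs) fun i => upperSemicontinuous_const.upperSemicontinuousOn _
    have hc : Continuous fun x : ℝ => 2 * ρ * x := by fun_prop
    exact (hc.comp_upperSemicontinuous h1 fun a b hab =>
      mul_le_mul_of_nonneg_left hab h2ρ).upperSemicontinuousOn _
  · have h1 := eventually_le_pm (A := squ u s) (G := fun i (_ : V) => k s i)
      (d := fun y => bandD (L.lv (φ b)) (L.loP (φ b)) (L.hiP (φ b)) (L.omP (φ b)) (g.toFun x)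
        (g.toFun y))
      (r := fun y => dist y x) (x := x) (hS s hs) (hcov s hs) (fun y => dist_nonneg) (by
        intro i hi
        filter_upwards [self_mem_nhdsWithin] with y hy
        rw [dist_eq_norm, norm_sub_rev]
        exact hcone s hs i x hi hx y hy.1 hy.2)
    filter_upwards [h1, self_mem_nhdsWithin] with y hy hys
    calc om * dsum (old D) x y ≤ 2 * ρ * bandD (L.lv (φ b)) (L.loP (φ b)) (L.hiP (φ b))
          (L.omP (φ b)) (g.toFun x) (g.toFun y) := key x (h𝓢 s hs hx) y (h𝓢 s hs hys)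
      _ ≤ 2 * ρ * (pm (R s) (fun i _ => k s i) x * dist y x) :=
          mul_le_mul_of_nonneg_left hy h2ρ
      _ = 2 * ρ * pm (R s) (fun i _ => k s i) x * dist y x := by ring
  · obtain ⟨γ, h1, h2, h3, h4, h5⟩ := hpath s hs x hx y hy
    refine ⟨γ, 0, 3, by norm_num, h1, h2, h3, h4, ?_⟩
    refine (cvar_mul_le (K := ENNReal.ofReal (2 * ρ)) (c' := fun t t' => ENNReal.ofReal
      (bandD (L.lv (φ b)) (L.loP (φ b)) (L.hiP (φ b)) (L.omP (φ b)) (g.toFun (γ t))
        (g.toFun (γ t')))) fun t ht t' ht' _ => ?_).trans ?_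
    · rw [← ENNReal.ofReal_mul h2ρ]
      exact ENNReal.ofReal_le_ofReal (key _ (h𝓢 s hs (h2 ht)) _ (h𝓢 s hs (h2 ht')))
    · rw [ENNReal.ofReal_mul h2ρ]
      gcongr

end plates

end P073.H919
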