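import Vale.Agent.P073.H919.HookFD
import Vale.Agent.P073.H142.Hull

/-!
# P073, block H919: [HOOK-P] generic form, and the band invariance of EVERY cell / face

* `bandInv_any`, `PSt.bandInv_any`: a set whose image is the preimage under the insertion map is
  invariant in the bands of the plates, in every box `HB G c d` with `7 / 8 ≤ c ≤ 2`, also if it
  crosses the sides of the box.
* `HkG`: the input of the hook for the plates `φ b`, any box `(c, d)`, any set `Zb b` of drawn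
  cells with images in the interior of the box.
* `HkGO`: the output.
-/

open Set Metric Topology Filter MeasureTheory
open scoped ENNReal

set_option linter.unusedSectionVars false

namespace P073.H919

open P073 P073.H936 P073.H936.K3 P073.H142 P073.H880 P073.H345 P073.H236 P073.H579 P073.H950
open Vale.Agent.P073.St (V)
open Vale.Agent.P073.AB (Idx squ)
open Vale.Agent.P073.H73 (Mesh)
open Vale.Agent.P073.H471 Vale.Agent.P073.H267
open P073.Net P073.PA691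

variable {Ω Λ : Set V} {v : V} {K : BoxCx Λ v} {S : Rad K} {W : Wid K S} {B : Boxes W}
  {G : Geo B} {L : PLev G} {γ : Type*} {φ : γ → K.S} {F : Bool → BFam 3 γ Λ}
  {T : Bool → ConHomeo Λ Λ}

/-- the insertion map on the boxes -/
theorem κ_eq_kP (hφ : Function.Injective φ) {κ₀ κ₁ : V → V}
    (h₀ : IsQ (fun b => L.bx false (φ b)) κ₀) (h₁ : IsQ (fun b => L.bx true (φ b)) κ₁) {b : γ}
    {c d : ℝ} (hc : 7 / 8 ≤ c) (hc2 : c ≤ 2) (hd : d ≤ 1) {y : V} (hy : y ∈ HB G c d (φ b)) :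
    κ₁ (κ₀ y) = prodK (L.kP (φ b)) y := by
  have H₀ := fullSet_φ (G := G) (L := L) hφ (β := false) b hc hc2 hd
  have H₁ := fullSet_φ (G := G) (L := L) hφ (β := true) b hc hc2 hd
  rw [H₁.eq h₁ ((H₀.mem_iff h₀).2 hy), H₀.eq h₀ hy]
  exact L.prodK_P (φ b) false y

/-- **every set of the mesh is invariant in the flats of the levels**, for the map after the
insertion -/
theorem bandInv_any (hφ : Function.Injective φ) {κ₀ κ₁ : V → V}
    (h₀ : IsQ (fun b => L.bx false (φ b)) κ₀) (h₁ : IsQ (fun b => L.bx true (φ b)) κ₁)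
    {b : γ} {h g : ConHomeo Ω Λ} {M U : Set V} (hMΩ : M ⊆ Ω)
    (hU : U ⊆ Ω) (hg : g.toFun '' M = Pre (κ₁ ∘ κ₀) Λ h M) {c d : ℝ} (hc : 7 / 8 ≤ c)
    (hc2 : c ≤ 2) (hd : d ≤ 1) (hUD : ∀ x ∈ U, g.toFun x ∈ HB G c d (φ b)) :
    BandInv (ι := PI L (φ b)) Sigma.fst (tg (φ b)) (fun i => L.a (φ b) i.1 i.2)
      (fun i => L.c (φ b) i.1) U g.toFun M := by
  rintro ⟨β, k⟩ x hx x' hx' h1 h2 h3 hxM
  change |g.toFun x (tg (φ b) β) - L.a (φ b) β k| ≤ L.c (φ b) β at h1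
  change |g.toFun x' (tg (φ b) β) - L.a (φ b) β k| ≤ L.c (φ b) β at h2
  change ∀ l, l ≠ tg (φ b) β → g.toFun x l = g.toFun x' l at h3
  have hL : L.a (φ b) β k ∈ L.lv (φ b) (tg (φ b) β) := by
    rw [PLev.lv_tg]
    exact (L.lvs (φ b) β).mem_L.2 ⟨k, k.2, rfl⟩
  have hlo : L.loP (φ b) (tg (φ b) β) (L.a (φ b) β k) = L.a (φ b) β k - L.c (φ b) β := by
    unfold PLev.loP
    rw [bt_tg]
    rfl
  have hhi : L.hiP (φ b) (tg (φ b) β) (L.a (φ b) β k) = L.a (φ b) β k + L.c (φ b) β := by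
    unfold PLev.hiP
    rw [bt_tg]
    rfl
  have hflat : ∀ t, |t - L.a (φ b) β k| ≤ L.c (φ b) β →
      L.kP (φ b) (tg (φ b) β) t = L.a (φ b) β k := by
    intro t ht
    obtain ⟨a1, a2⟩ := abs_le.1 ht
    exact ((L.ins1P (φ b) _).flat _ hL t).2 ⟨by linarith, by linarith⟩
  have h6 : prodK (L.kP (φ b)) (g.toFun x') = prodK (L.kP (φ b)) (g.toFun x) := by
    ext l
    by_cases hl : l = tg (φ b) β
    · subst hl
      show L.kP (φ b) _ (g.toFun x' _) = L.kP (φ b) _ (g.toFun x _)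
      rw [hflat _ h1, hflat _ h2]
    · show L.kP (φ b) l (g.toFun x' l) = L.kP (φ b) l (g.toFun x l)
      rw [h3 l hl]
  have h4 : g.toFun x ∈ Pre (κ₁ ∘ κ₀) Λ h M := by rw [← hg]; exact mem_image_of_mem _ hxM
  have h5 : (κ₁ ∘ κ₀) (g.toFun x') = (κ₁ ∘ κ₀) (g.toFun x) := by
    show κ₁ (κ₀ (g.toFun x')) = κ₁ (κ₀ (g.toFun x))
    rw [κ_eq_kP hφ h₀ h₁ hc hc2 hd (hUD x' hx'), κ_eq_kP hφ h₀ h₁ hc hc2 hd (hUD x hx), h6]
  have h10 : g.toFun x' ∈ g.toFun '' M := by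
    rw [hg]
    refine ⟨HB_sub hc hd _ (hUD x' hx'), ?_⟩
    show (κ₁ ∘ κ₀) (g.toFun x') ∈ h.toFun '' M
    rw [h5]
    exact h4.2
  obtain ⟨x'', hx'', he⟩ := h10
  rwa [← g.injOn (hMΩ hx'') (hU hx') he]

/-- **every set of the mesh is invariant in the bands**, for the map after the staircases: `M` may
cross the sides of the box -/
theorem PSt.bandInv_any (P : PSt L φ F T) {κ₀ κ₁ : V → V}
    (h₀ : IsQ (fun b => L.bx false (φ b)) κ₀) (h₁ : IsQ (fun b => L.bx true (φ b)) κ₁)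
    {b : γ} {h g f : ConHomeo Ω Λ}
    (hf : ∀ x ∈ Ω, f.toFun x = (T true).toFun ((T false).toFun (g.toFun x))) {M U : Set V}
    (hMΩ : M ⊆ Ω) (hU : U ⊆ Ω) {c d : ℝ} (hc : 7 / 8 ≤ c) (hc2 : c ≤ 2) (hd : d ≤ 1)
    (hUD : ∀ x ∈ U, f.toFun x ∈ HB G c d (φ b))
    (hg : g.toFun '' M = Pre (κ₁ ∘ κ₀) Λ h M) :
    BandInv (ι := PI L (φ b)) Sigma.fst (tg (φ b)) (pcen L (φ b))
      (pwid L (fun β => (F β).e b) (φ b)) U f.toFun M := by
  have HP := P.prodOn b hc hc2 hd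
  refine HP.bandInv hf hU hUD (fun i t ht => ?_)
    (P073.H919.bandInv_any P.inj h₀ h₁ hMΩ hU hg hc hc2 hd fun x hx =>
      (HP.mem _ (g.mapsTo (hU hx))).1 (by rw [← hf x (hU hx)]; exact hUD x hx))
  obtain ⟨β, k⟩ := i
  have e1 := P.sgP_tg b β t
  change |sgP F b (tg (φ b) β) t - pcen L (φ b) ⟨β, k⟩| ≤
    pwid L (fun β => (F β).e b) (φ b) ⟨β, k⟩ at ht
  rw [e1] at ht
  have hB := P.B β b
  have h2 := abs_σ_sub_le_iff (F β) (b := b) (k := k) (by rw [hB.N]; exact k.2) (t := t)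
  rw [hB.N, hB.al, hB.be, hB.a, hB.c] at h2
  exact h2.1 ht

/-- the position of the new map, from the position of the old one -/
theorem PSt.pos (P : PSt L φ F T) {κ₀ κ₁ : V → V}
    (h₀ : IsQ (fun b => L.bx false (φ b)) κ₀) (h₁ : IsQ (fun b => L.bx true (φ b)) κ₁)
    {b : γ} {h g f : ConHomeo Ω Λ}
    (hf : ∀ x ∈ Ω, f.toFun x = (T true).toFun ((T false).toFun (g.toFun x))) {M : Set V}
    (hMΩ : M ⊆ Ω) {c d : ℝ} (hc : 7 / 8 ≤ c) (hc2 : c ≤ 2) (hd : d ≤ 1)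
    (hg : g.toFun '' M = Pre (κ₁ ∘ κ₀) Λ h M) (hpos : ∀ y ∈ M, h.toFun y ∈ HB G c d (φ b)) :
    ∀ y ∈ M, f.toFun y ∈ HB G c d (φ b) := by
  have h5 : g.toFun '' M ⊆ HB G c d (φ b) :=
    pre_sub_of_image P.inj h₀ h₁ hg hc hc2 hd (by
      rintro _ ⟨y, hy, rfl⟩
      exact hpos y hy)
  intro y hy
  rw [hf y (hMΩ hy)]
  exact ((P.prodOn b hc hc2 hd).mem _ (g.mapsTo (hMΩ hy))).2 (h5 ⟨y, hy, rfl⟩)

/-- the position of the old map, from the position of the new one -/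
theorem PSt.pos' (P : PSt L φ F T) {κ₀ κ₁ : V → V}
    (h₀ : IsQ (fun b => L.bx false (φ b)) κ₀) (h₁ : IsQ (fun b => L.bx true (φ b)) κ₁)
    (hs : SurjOn (κ₁ ∘ κ₀) Λ Λ) {b : γ} {h g f : ConHomeo Ω Λ}
    (hf : ∀ x ∈ Ω, f.toFun x = (T true).toFun ((T false).toFun (g.toFun x))) {M : Set V}
    (hMΩ : M ⊆ Ω) {c d : ℝ} (hc : 7 / 8 ≤ c) (hc2 : c ≤ 2) (hd : d ≤ 1)
    (hg : g.toFun '' M = Pre (κ₁ ∘ κ₀) Λ h M) (hpos : ∀ y ∈ M, f.toFun y ∈ HB G c d (φ b)) :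
    ∀ y ∈ M, h.toFun y ∈ HB G c d (φ b) := by
  have h5 : g.toFun '' M ⊆ HB G c d (φ b) := by
    rintro _ ⟨y, hy, rfl⟩
    refine ((P.prodOn b hc hc2 hd).mem _ (g.mapsTo (hMΩ hy))).1 ?_
    show (T true).toFun ((T false).toFun (g.toFun y)) ∈ _
    rw [← hf y (hMΩ hy)]
    exact hpos y hy
  intro y hy
  exact image_sub_of_pre P.inj h₀ h₁ hs hMΩ hg hc hc2 hd h5 ⟨y, hy, rfl⟩

variable {M : Mesh Ω} {κ₀ κ₁ : V → V} {c d : ℝ} {Zb : γ → Set M.ι} {h2 h3 h4 : ConHomeo Ω Λ}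

/-- **the hypotheses of the hook in the plates**: `h2` before the insertion, `h3` after it, `h4`
after the staircases; `Zb b` are the cells drawn in the box `HB G c d (φ b)` -/
structure HkG (M : Mesh Ω) (L : PLev G) (φ : γ → K.S) (F : Bool → BFam 3 γ Λ)
    (T : Bool → ConHomeo Λ Λ) (κ₀ κ₁ : V → V) (c d : ℝ) (Zb : γ → Set M.ι)
    (h2 h3 h4 : ConHomeo Ω Λ) (u : V) : Prop where
  hΛ : IsOpen Λ
  P : PSt L φ F T
  q₀ : IsQ (fun b => L.bx false (φ b)) κ₀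
  q₁ : IsQ (fun b => L.bx true (φ b)) κ₁
  surj : SurjOn (κ₁ ∘ κ₀) Λ Λ
  map : ∀ x ∈ Ω, h4.toFun x = (T true).toFun ((T false).toFun (h3.toFun x))
  hc : 7 / 8 ≤ c
  hc2 : c ≤ 2
  hd0 : 0 < d
  hd : d ≤ 1
  /-- `img_face` of stage 3 -/
  face : ∀ b, ∀ i ∈ Zb b, ∀ k, M.F k ⊆ M.Q i → h3.toFun '' M.F k = Pre (κ₁ ∘ κ₀) Λ h2 (M.F k)
  cube : ∀ b, ∀ i ∈ Zb b, ∃ m z, M.Q i = dyc u m z
  int : ∀ b, ∀ i ∈ Zb b, h4.toFun '' M.Q i ⊆ interior (HB G c d (φ b))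

namespace HkG

variable {u : V} (H : HkG M L φ F T κ₀ κ₁ c d Zb h2 h3 h4 u)

include H

open Classical in
/-- the dyadic index of a drawn cell -/
noncomputable def idx (i : M.ι) : Idx :=
  if h : ∃ b, i ∈ Zb b then
    ((H.cube _ i h.choose_spec).choose, (H.cube _ i h.choose_spec).choose_spec.choose)
  else (0, 0)

theorem idx_spec {b : γ} {i : M.ι} (h : i ∈ Zb b) : M.Q i = dyc u (H.idx i).1 (H.idx i).2 := by
  have h' : ∃ b, i ∈ Zb b := ⟨b, h⟩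
  have h1 := (H.cube _ i h'.choose_spec).choose_spec.choose_spec
  have e : H.idx i = ((H.cube _ i h'.choose_spec).choose,
      (H.cube _ i h'.choose_spec).choose_spec.choose) := by
    unfold idx; rw [dif_pos h']
  rw [e]
  exact h1

/-- **[HOOK-P]** the input of the hook -/
noncomputable def hookIn (b : γ) : (phook M L φ F c d Zb b).In h4 :=
  H.P.phookIn H.q₀ H.q₁ H.surj H.map H.hc H.hc2 H.hd0 H.hd
    (fun i => H.idx i) (fun _ _ hi => H.idx_spec hi) H.int H.face b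

theorem hookIn_C (b : γ) (q : (phook M L φ F c d Zb b).Q) : (H.hookIn b).K.C q = M.Q q.1 :=
  (H.idx_spec q.2).symm

/-- the chart of a drawn cell -/
theorem hookIn_chart (b : γ) (q : (phook M L φ F c d Zb b).Q) :
    (H.hookIn b).K.chart q = (_root_.P073.H950.Chart.dya u (H.idx q.1)).cast rfl
      (P073.H142.frontier_dyc' u _ _).symm := rfl

theorem fin : ∀ z ∈ Λ, ∃ O ∈ 𝓝 z, {b | ((phook M L φ F c d Zb b).P ∩ O).Nonempty}.Finite :=
  phook_fin L H.P.inj H.hc H.hd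

theorem dis : ∀ b b', b ≠ b' →
    Disjoint (interior (phook M L φ F c d Zb b).P) (phook M L φ F c d Zb b').P :=
  phook_dis L H.P.inj H.hc H.hd

/-- **the hooked map** -/
theorem exists_h5 (hΩ : IsOpen Ω) (r : γ → ℝ) (r0 : ∀ b, 0 < r b) (r1 : ∀ b, r b < 1) :
    ∃ h5 : ConHomeo Ω Λ, Glued (phook M L φ F c d Zb) h4 h5 ∧
      ∀ b, ∃ g : ConHomeo ((phook M L φ F c d Zb b).U h4)
          (Icc (phook M L φ F c d Zb b).lo (phook M L φ F c d Zb b).hi),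
        ((H.hookIn b).boxK hΩ).Switched (r b) g ∧
        EqOn h5.toFun g.toFun ((phook M L φ F c d Zb b).U h4) ∧
        EqOn h5.invFun g.invFun (phook M L φ F c d Zb b).P :=
  exists_hook_switched hΩ H.hΛ h4 (phook M L φ F c d Zb) H.hookIn H.fin H.dis r r0 r1

/-- no point of a passive cell or of a face is in a drawn open cell -/
theorem off {Z : Set V} {b : γ} (hZ : (∃ i, i ∉ Zb b ∧ Z ⊆ M.Q i) ∨ ∃ k, Z ⊆ M.F k)
    (q : (phook M L φ F c d Zb b).Q) {x : V} (hx : x ∈ Z) :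
    x ∉ interior ((H.hookIn b).K.C q) := by
  rw [H.hookIn_C b q]
  rcases hZ with ⟨i, hi, hZi⟩ | ⟨k, hZk⟩
  · exact not_interior_of_cell M (fun e => hi (by rw [e]; exact q.2)) (hZi hx)
  · exact not_interior_of_face M _ (hZk hx)

theorem U_sub (b : γ) : (phook M L φ F c d Zb b).U h4 ⊆ Ω := HBox.U_sub (H.hookIn b)

theorem mem_U (b : γ) {x : V} (hx : x ∈ Ω) :
    x ∈ (phook M L φ F c d Zb b).U h4 ↔ h4.toFun x ∈ HB G c d (φ b) :=
  HBox.mem_U (H.hookIn b) hx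

/-- a drawn cell is in the domain of the box -/
theorem cell_sub_U {b : γ} {i : M.ι} (hi : i ∈ Zb b) :
    M.Q i ⊆ (phook M L φ F c d Zb b).U h4 := fun x hx =>
  (H.mem_U b (M.sub i hx)).2 (interior_subset (H.int b i hi ⟨x, hx, rfl⟩))

/-- **EVERY cell and face is band invariant in the box**, for the map `h4` before the hook -/
theorem bandInv (b : γ) {X : Set V} (hX : X ⊆ Ω)
    (hg : h3.toFun '' X = Pre (κ₁ ∘ κ₀) Λ h2 X) :
    BandInv (ι := PI L (φ b)) Sigma.fst (tg (φ b)) (pcen L (φ b))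
      (pwid L (fun β => (F β).e b) (φ b)) ((phook M L φ F c d Zb b).U h4) h4.toFun X :=
  H.P.bandInv_any H.q₀ H.q₁ H.map hX (H.U_sub b) H.hc H.hc2 H.hd
    (fun x hx => (H.mem_U b (H.U_sub b hx)).1 hx) hg

/-- **the face data of a drawn cell**, from the band clauses of `h3` on the squares `𝓢` of its
boundary -/
theorem faceData (hΩ : IsOpen Ω) {b : γ} {i : M.ι} (hi : i ∈ Zb b) {om ρ : ℝ}
    (hom : 0 ≤ om) (hρ0 : 0 ≤ ρ)
    (hρ : ∀ β, om ≤ ρ * stp (L.N (φ b) β) (K.slo (φ b) (tg (φ b) β) + G.a (φ b))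
      (K.shi (φ b) (tg (φ b) β) - G.a (φ b))) {𝓢 : Finset (Idx × Fin 3)}
    (h𝓢 : ∀ t ∈ 𝓢, squ u t ⊆ M.Q i) {n : Idx × Fin 3 → ℕ}
    {A : Idx × Fin 3 → ℝ} {R : ∀ t, Fin (n t) → Set V} {k : ∀ t, Fin (n t) → ℝ}
    (hS : ∀ t ∈ 𝓢, ∀ i, IsClosed (R t i))
    (hcov : ∀ t ∈ 𝓢, squ u t ⊆ ⋃ i, R t i) (hA : ∀ t ∈ 𝓢, 0 ≤ A t)
    (hcone : ∀ t ∈ 𝓢, ∀ i, ∀ x ∈ R t i, x ∈ squ u t → ∀ y ∈ R t i,
      y ∈ squ u t →
      bandD (L.lv (φ b)) (L.loP (φ b)) (L.hiP (φ b)) (L.omP (φ b)) (h3.toFun x) (h3.toFun y) ≤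
        k t i * ‖x - y‖)
    (hpath : ∀ t ∈ 𝓢, ∀ x ∈ squ u t, ∀ y ∈ squ u t,
      ∃ γ : ℝ → V, ContinuousOn γ (Icc 0 3) ∧ MapsTo γ (Icc 0 3) (squ u t) ∧
      γ 0 = x ∧ γ 3 = y ∧ cvar (fun a a' => ENNReal.ofReal (bandD (L.lv (φ b)) (L.loP (φ b))
        (L.hiP (φ b)) (L.omP (φ b)) (h3.toFun (γ a)) (h3.toFun (γ a')))) 0 3 ≤
        ENNReal.ofReal (A t)) :
    FaceData ((H.hookIn b).boxK hΩ) u om 𝓢
      (fun t x => 2 * ρ * pm (R t) (fun i _ => k t i) x) (fun t => 2 * ρ * A t) :=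
  H.P.faceData H.map (b := b) H.hc H.hc2 H.hd hom hρ0 hρ ((H.hookIn b).boxK hΩ) rfl (H.U_sub b)
    (fun x hx => (H.mem_U b (H.U_sub b hx)).1 hx)
    (fun t ht => (h𝓢 t ht).trans (H.cell_sub_U hi)) hS hcov hA hcone hpath

/-- the levels of `h4` in the box of the hook are the positions of `h3` in the flats -/
theorem old_le (hΩ : IsOpen Ω) (b : γ) {om ρ : ℝ} (hom : 0 ≤ om)
    (hρ : ∀ β, om ≤ ρ * stp (L.N (φ b) β) (K.slo (φ b) (tg (φ b) β) + G.a (φ b))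
      (K.shi (φ b) (tg (φ b) β) - G.a (φ b))) {x y : V}
    (hx : x ∈ (phook M L φ F c d Zb b).U h4)
    (hy : y ∈ (phook M L φ F c d Zb b).U h4) :
    om * dsum (old ((H.hookIn b).boxK hΩ)) x y ≤
      2 * ρ * bandD (L.lv (φ b)) (L.loP (φ b)) (L.hiP (φ b)) (L.omP (φ b)) (h3.toFun x)
        (h3.toFun y) :=
  H.P.dsum_le H.map (b := b) H.hc H.hc2 H.hd hom hρ (H.U_sub b hx) (H.U_sub b hy)
    ((H.mem_U b (H.U_sub b hx)).1 hx) ((H.mem_U b (H.U_sub b hy)).1 hy)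

end HkG

/-- **the output of the hook** -/
structure HkGO {u : V} (H : HkG M L φ F T κ₀ κ₁ c d Zb h2 h3 h4 u) (hΩ : IsOpen Ω) (r : γ → ℝ)
    (h5 : ConHomeo Ω Λ) : Prop where
  glued : Glued (phook M L φ F c d Zb) h4 h5
  sw : ∀ b, ∃ g : ConHomeo ((phook M L φ F c d Zb b).U h4)
      (Icc (phook M L φ F c d Zb b).lo (phook M L φ F c d Zb b).hi),
    ((H.hookIn b).boxK hΩ).Switched (r b) g ∧
    EqOn h5.toFun g.toFun ((phook M L φ F c d Zb b).U h4) ∧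
    EqOn h5.invFun g.invFun (phook M L φ F c d Zb b).P

/-- **[HOOK-P]** the hooked map exists -/
theorem HkG.exists_out {u : V} (H : HkG M L φ F T κ₀ κ₁ c d Zb h2 h3 h4 u) (hΩ : IsOpen Ω)
    (r : γ → ℝ) (r0 : ∀ b, 0 < r b) (r1 : ∀ b, r b < 1) : ∃ h5, HkGO H hΩ r h5 := by
  obtain ⟨h5, h1, h2⟩ := H.exists_h5 hΩ r r0 r1
  exact ⟨h5, h1, h2⟩

namespace HkGO

variable {u : V} {H : HkG M L φ F T κ₀ κ₁ c d Zb h2 h3 h4 u} {hΩ : IsOpen Ω} {r : γ → ℝ}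
  {h5 : ConHomeo Ω Λ} (O : HkGO H hΩ r h5)

include O

theorem mem (b : γ) {x : V} (hx : x ∈ Ω) :
    h5.toFun x ∈ HB G c d (φ b) ↔ h4.toFun x ∈ HB G c d (φ b) :=
  O.glued.mem b x hx

theorem off {x : V} (hx : x ∈ Ω) (h : ∀ b : γ, h4.toFun x ∉ interior (HB G c d (φ b))) :
    h5.toFun x = h4.toFun x := O.glued.off x hx h

/-- larger sets which contain the boxes they meet are preserved -/
theorem mem_iff {A : Set V} (hA : ∀ b : γ, (A ∩ HB G c d (φ b)).Nonempty → HB G c d (φ b) ⊆ A)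
    {x : V} (hx : x ∈ Ω) : h5.toFun x ∈ A ↔ h4.toFun x ∈ A := by
  by_cases h : ∃ b : γ, h4.toFun x ∈ HB G c d (φ b)
  · obtain ⟨s, hs⟩ := h
    have hs' := (O.mem s hx).2 hs
    exact ⟨fun h => hA s ⟨_, h, hs'⟩ hs, fun h => hA s ⟨_, h, hs⟩ hs'⟩
  · push Not at h
    rw [O.off hx fun s hs => h s (interior_subset hs)]

/-- the images of the drawn cells -/
theorem cell {b : γ} {i : M.ι} (hi : i ∈ Zb b) {x : V} (hx : x ∈ M.Q i) :
    h5.toFun x ∈ HB G c d (φ b) :=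
  (O.mem b (M.sub i hx)).2 (interior_subset (H.int b i hi ⟨x, hx, rfl⟩))

/-- **the new levels** are locally controlled by the levels of the drawn sheets: input of
`Loc.rest`, `Loc.rest_cvar`, `Loc.cell`, `Loc.cellp_sup` -/
theorem loc (b : γ) (r0 : 0 < r b) (r1 : r b < 1) :
    Loc ((H.hookIn b).boxK hΩ) (wlev (ι := PI L (φ b)) Sigma.fst (tg (φ b)) (r b)
      (pcen L (φ b)) (pwid L (fun β => (F β).e b) (φ b)) h5.toFun) := by
  obtain ⟨g, hg, h6, -⟩ := O.sw b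
  intro x hx
  filter_upwards [Loc.of_switched hg r0 r1 x hx, self_mem_nhdsWithin] with y h7 hy
  refine le_trans (le_of_eq ?_) h7
  unfold dsum
  refine Finset.sum_congr rfl fun i _ => ?_
  show |cl _ _ _ i (h5.toFun y _) - cl _ _ _ i (h5.toFun x _)| = _
  rw [h6 hx, h6 hy]
  rfl

end HkGO

end P073.H919
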