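import Vale.Agent.P073.H919.SlotBX
import Vale.Agent.P073.H345.PBox

/-!
# P073, block H919: [ZONE2], two families of boxes: the composition on the common full zone
-/

open Set Metric Topology Filter

set_option linter.unusedSectionVars false

namespace P073.H919

open P073 P073.H345 P073.H236 P073.H579
open Vale.Agent.P073.St (V)

/-! ### subfamilies -/

theorem Fam.comp {γ γ' : Type*} {Λ : Set (Fin 3 → ℝ)} {B : γ → BX 3} (H : Fam Λ B) {σ : γ' → γ}
    (hσ : Function.Injective σ) : Fam Λ fun g => B (σ g) where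
  op := H.op
  sub := fun g => H.sub (σ g)
  dis := fun g g' hg => H.dis _ _ fun e => hg (hσ e)
  lf := fun z hz => by
    obtain ⟨U, hU, hfin⟩ := H.lf z hz
    exact ⟨U, hU, (hfin.preimage (f := σ) hσ.injOn).subset fun g hg => hg⟩

/-! ### one family -/

section one

variable {γ : Type*} {B : γ → BX 3} {κ : (Fin 3 → ℝ) → Fin 3 → ℝ}

/-- `D` is in the full zone of the box `g`, invariant under its map, and misses the other boxes -/
structure FullSet (B : γ → BX 3) (g : γ) (D : Set (Fin 3 → ℝ)) : Prop where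
  full : ∀ y ∈ D, (B g).Full y
  inv : ∀ y, prodK (kQ (B g)) y ∈ D ↔ y ∈ D
  off : ∀ g', g' ≠ g → ∀ y ∈ D, y ∉ (B g').K

theorem full_cyl {B : BX 3} {y : Fin 3 → ℝ} (hy : B.Full y) : y ∈ cyl B := fun i hi => by
  have h1 := hy i hi
  have h2 := B.hr i
  constructor <;> linarith [h1.1, h1.2]

theorem prodK_kQ_eq_self {B : BX 3} {y : Fin 3 → ℝ} (hy : B.Full y) (hK : y ∉ B.K) :
    prodK (kQ B) y = y := by
  have h1 : y B.j ≤ B.al ∨ B.be ≤ y B.j := by
    by_contra hcon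
    push Not at hcon
    exact hK ((mem_K B).2 ⟨⟨hcon.1.le, hcon.2.le⟩, full_cyl hy⟩)
  rw [prodK_Q, B.lvs.qm_out h1, Function.update_eq_self]

theorem FullSet.eq (hκ : IsQ B κ) {g : γ} {D : Set (Fin 3 → ℝ)} (H : FullSet B g D)
    {y : Fin 3 → ℝ} (hy : y ∈ D) : κ y = prodK (kQ (B g)) y := by
  by_cases h : y ∈ (B g).K
  · rw [hκ.on g y h, Q_eq_prodK (H.full y hy)]
  · rw [prodK_kQ_eq_self (H.full y hy) h]
    refine hκ.off y fun g' => ?_
    by_cases hg : g' = g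
    · rw [hg]; exact h
    · exact H.off g' hg y hy

theorem FullSet.mem_iff (hκ : IsQ B κ) {g : γ} {D : Set (Fin 3 → ℝ)} (H : FullSet B g D)
    {y : Fin 3 → ℝ} : κ y ∈ D ↔ y ∈ D := by
  constructor
  · intro h
    by_cases h1 : ∃ g', y ∈ (B g').K
    · obtain ⟨g', hg'⟩ := h1
      by_cases hg : g' = g
      · subst hg
        have h2 := hκ.on g' y hg'
        have h3 : (B g').Full y := fun i hi => by
          have h4 := H.full _ h i hi
          rwa [h2, (B g').Q_ne hi] at h4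
        rw [h2, Q_eq_prodK h3, H.inv] at h
        exact h
      · exact absurd (hκ.mapsK hg') (H.off g' hg _ h)
    · push Not at h1
      rwa [hκ.off y h1] at h
  · intro h
    rw [H.eq hκ h, H.inv]
    exact h

end one

/-! ### two families -/

/-- the maps of one variable of two boxes -/
noncomputable def k2 (B₀ B₁ : BX 3) (l : Fin 3) : ℝ → ℝ := if l = B₀.j then kQ B₀ l else kQ B₁ l

/-- the levels -/
noncomputable def L2 (B₀ B₁ : BX 3) (l : Fin 3) : Finset ℝ := if l = B₀.j then LQ B₀ l else LQ B₁ l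

/-- lower ends -/
noncomputable def lo2 (B₀ B₁ : BX 3) (l : Fin 3) : ℝ → ℝ := if l = B₀.j then loQ B₀ l else loQ B₁ l

/-- upper ends -/
noncomputable def hi2 (B₀ B₁ : BX 3) (l : Fin 3) : ℝ → ℝ := if l = B₀.j then hiQ B₀ l else hiQ B₁ l

/-- weights -/
noncomputable def om2 (B₀ B₁ : BX 3) (l : Fin 3) : ℝ → ℝ := if l = B₀.j then omQ B₀ l else omQ B₁ l

theorem ins1_2 (B₀ B₁ : BX 3) (l : Fin 3) :
    Ins1 (k2 B₀ B₁ l) (L2 B₀ B₁ l : Set ℝ) (lo2 B₀ B₁ l) (hi2 B₀ B₁ l) := by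
  unfold k2 L2 lo2 hi2
  split_ifs
  · exact ins1_Q _ _
  · exact ins1_Q _ _

theorem om2_pos (B₀ B₁ : BX 3) (l : Fin 3) (t : ℝ) : 0 < om2 B₀ B₁ l t := by
  unfold om2
  split_ifs
  · exact omQ_pos _ _
  · exact omQ_pos _ _

theorem prodK_2 {B₀ B₁ : BX 3} (hne : B₀.j ≠ B₁.j) (y : Fin 3 → ℝ) :
    prodK (kQ B₁) (prodK (kQ B₀) y) = prodK (k2 B₀ B₁) y := by
  ext l
  show kQ B₁ l (kQ B₀ l (y l)) = k2 B₀ B₁ l (y l)
  unfold k2
  by_cases h : l = B₀.j
  · rw [if_pos h, kQ_ne B₁ (by rw [h]; exact hne)]; rfl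
  · rw [if_neg h, kQ_ne B₀ h]; rfl

section two

variable {γ γ' : Type*} {B₀ : γ → BX 3} {B₁ : γ' → BX 3} {κ₀ κ₁ : V → V} {Ω Λ : Set V}

/-- **[ZONE2]**: on a common full set the composition is the product map -/
theorem zone_two (h₀ : IsQ B₀ κ₀) (h₁ : IsQ B₁ κ₁) {g : γ} {g' : γ'} {D : Set V}
    (hne : (B₀ g).j ≠ (B₁ g').j) (H₀ : FullSet B₀ g D) (H₁ : FullSet B₁ g' D) (hD : D ⊆ Λ)
    {h : ConHomeo Ω Λ} {C : Set V} (hC : h.toFun '' C ⊆ D) :
    Zone (fun y => κ₁ (κ₀ y)) Λ h (k2 (B₀ g) (B₁ g')) C where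
  z1 := fun y hy => by
    have h1 := hC hy
    rw [← prodK_2 hne, H₁.inv, H₀.inv] at h1
    refine ⟨hD h1, ?_⟩
    show κ₁ (κ₀ y) = _
    rw [H₁.eq h₁ ((H₀.mem_iff h₀).2 h1), H₀.eq h₀ h1, prodK_2 hne]
  z2 := fun y _ hy => by
    have h1 : κ₀ y ∈ D := (H₁.mem_iff h₁).1 (hC hy)
    have h2 : y ∈ D := (H₀.mem_iff h₀).1 h1
    show κ₁ (κ₀ y) = _
    rw [H₁.eq h₁ h1, H₀.eq h₀ h2, prodK_2 hne]

/-- the composition is an insertion map -/
theorem insMap_two (h₀ : InsMap κ₀ Λ Λ) (h₁ : InsMap κ₁ Λ Λ) :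
    InsMap (fun y => κ₁ (κ₀ y)) Λ Λ := Slots.insMap_comp h₁ h₀

/-- preimages in two steps -/
theorem pre_two (h₀ : InsMap κ₀ Λ Λ) {h Φ : ConHomeo Ω Λ} {X : Set V}
    (hX : Φ.toFun '' X = Pre κ₁ Λ h X) : Pre κ₀ Λ Φ X = Pre (fun y => κ₁ (κ₀ y)) Λ h X := by
  ext y
  constructor
  · rintro ⟨h1, h2⟩
    have h3 : κ₀ y ∈ Φ.toFun '' X := h2
    rw [hX] at h3
    exact ⟨h1, h3.2⟩
  · rintro ⟨h1, h2⟩
    refine ⟨h1, ?_⟩
    show κ₀ y ∈ Φ.toFun '' X
    rw [hX]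
    exact ⟨h₀.maps h1, h2⟩

/-- preimages in two steps, local form -/
theorem preimage_two {Φ : V → V} {X A : Set V} (hX : Φ '' X = κ₁ ⁻¹' A) :
    κ₀ ⁻¹' (Φ '' X) = (fun y => κ₁ (κ₀ y)) ⁻¹' A := by
  rw [hX]; rfl

end two

/-! ### full sets which are coordinate boxes -/

/-- a coordinate box which contains the window and is in the full zone -/
theorem fullSet_box {γ : Type*} {B : γ → BX 3} {g : γ} {dlo dhi : Fin 3 → ℝ}
    (hw : dlo (B g).j ≤ (B g).al ∧ (B g).be ≤ dhi (B g).j)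
    (hf : ∀ i, i ≠ (B g).j → (B g).lo i ≤ dlo i ∧ dhi i ≤ (B g).hi i)
    (hoff : ∀ g', g' ≠ g → ∀ y, (∀ i, dlo i ≤ y i ∧ y i ≤ dhi i) → y ∉ (B g').K) :
    FullSet B g {y | ∀ i, dlo i ≤ y i ∧ y i ≤ dhi i} where
  full := fun y hy i hi => ⟨(hf i hi).1.trans (hy i).1, (hy i).2.trans (hf i hi).2⟩
  inv := fun y => by
    have hm := qm_monotone (B g).lvs.c0.le (B g).lvs.sepd
    have h1 : ∀ i, i ≠ (B g).j → prodK (kQ (B g)) y i = y i := fun i hi => by
      show kQ (B g) i _ = _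
      rw [kQ_ne _ hi]; rfl
    have h2 : prodK (kQ (B g)) y (B g).j = qm (B g).lvs.L (B g).c (y (B g).j) := by
      show kQ (B g) (B g).j _ = _
      rw [kQ_self]
    have hlo : dlo (B g).j ≤ qm (B g).lvs.L (B g).c (y (B g).j) ↔ dlo (B g).j ≤ y (B g).j := by
      constructor
      · intro h
        by_contra hcon
        push Not at hcon
        rw [(B g).lvs.qm_out (Or.inl (hcon.le.trans hw.1))] at h
        linarith
      · intro h
        have h3 := hm h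
        rwa [(B g).lvs.qm_out (Or.inl hw.1)] at h3
    have hhi : qm (B g).lvs.L (B g).c (y (B g).j) ≤ dhi (B g).j ↔ y (B g).j ≤ dhi (B g).j := by
      constructor
      · intro h
        by_contra hcon
        push Not at hcon
        rw [(B g).lvs.qm_out (Or.inr (hw.2.trans hcon.le))] at h
        linarith
      · intro h
        have h3 := hm h
        rwa [(B g).lvs.qm_out (Or.inr hw.2)] at h3
    refine forall_congr' fun i => ?_
    by_cases hi : i = (B g).j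
    · subst hi
      rw [h2, hlo, hhi]
    · rw [h1 i hi]
  off := fun g' hg y hy => hoff g' hg y hy

end P073.H919

/-! ### the plates of H345, a subfamily -/

namespace P073.H345.PLev

open P073 P073.H345 P073.H236 P073.H579 P073.H919
open _root_.P073.Net _root_.P073.PA691
open Vale.Agent.P073.St (V)
open Vale.Agent.P073.H471 Vale.Agent.P073.H267

variable {Ω Λ : Set V} {v : V} {K : BoxCx Λ v} {S : Rad K} {W : Wid K S} {B : Boxes W}
  {G : Geo B} {L : PLev G}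

/-- the plates of a set of squares -/
theorem fam_sub (L : PLev G) (hΛ : IsOpen Λ) (β : Bool) (S₀ : Set K.S) :
    Fam Λ fun s : S₀ => L.bx β s.1 :=
  Fam.comp (L.fam hΛ β) Subtype.val_injective

theorem fullSet_sub {β : Bool} {S₀ : Set K.S} (s : S₀) :
    FullSet (fun s : S₀ => L.bx β s.1) s (G.PB (7 / 8) s.1) where
  full := fun y hy => PB_full hy
  inv := fun y => prodQ_mem_PB (by norm_num)
  off := fun s' hs y hy hK => hs (Subtype.ext
    (PK_unique (mem_bxK.1 hK).1 (PB_sub_PK (by norm_num) s.1 hy)))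

/-- **the zone of a plate**, for the subfamily of the processed plates -/
theorem zone_sub {κ₀ κ₁ : V → V} {β : Bool} {S₀ : Set K.S}
    (h₀ : IsQ (fun s : S₀ => L.bx β s.1) κ₀) (h₁ : IsQ (fun s : S₀ => L.bx (!β) s.1) κ₁) (s : S₀)
    {h : ConHomeo Ω Λ} {C : Set V} (hC : h.toFun '' C ⊆ G.PB (7 / 8) s.1) :
    Zone (κ₁ ∘ κ₀) Λ h (L.kP s.1) C := by
  have H₀ := fullSet_sub (L := L) (β := β) s
  have H₁ := fullSet_sub (L := L) (β := !β) s
  have hD : G.PB (7 / 8) s.1 ⊆ Λ := fun y hy =>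
    ss_subset (W := W) s.1 (PK_sub_ss s.1 (PB_sub_PK (by norm_num) s.1 hy))
  refine ⟨fun y hy => ?_, fun y _ hy => ?_⟩
  · have h2 : y ∈ G.PB (7 / 8) s.1 := (prodK_mem_PB (by norm_num)).1 (hC hy)
    refine ⟨hD h2, ?_⟩
    show κ₁ (κ₀ y) = _
    rw [H₁.eq h₁ ((H₀.mem_iff h₀).2 h2), H₀.eq h₀ h2, prodK_P]
  · have h1 : κ₀ y ∈ G.PB (7 / 8) s.1 := (H₁.mem_iff h₁).1 (hC hy)
    have h2 : y ∈ G.PB (7 / 8) s.1 := (H₀.mem_iff h₀).1 h1
    show κ₁ (κ₀ y) = _
    rw [H₁.eq h₁ h1, H₀.eq h₀ h2, prodK_P]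

end P073.H345.PLev
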