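import Vale.Agent.P073.H919.HookF3
import Vale.Agent.P073.H196.ThetaQ

/-!
# P073, block H919: **[P-EX]**, the existence of the layer of the plates

* `HkGO.loc_le`: the local inequality for the levels clipped at any smaller number.
* `sfam F ρ`: the family of the second staircases, `e' = stp / 2 - ρ (stp / 2 - e)`.
* `exists_player`: the hook with fibres, then the second staircases; their slopes off the bands are
  small against the Lipschitz constants of the hooked map.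
-/

open Set Metric Topology Filter MeasureTheory
open scoped ENNReal

set_option linter.unusedSectionVars false

namespace P073.H919

open P073 P073.H936 P073.H936.K3 P073.H142 P073.H880 P073.H345 P073.H236 P073.H579 P073.H950
  P073.H228
open Vale.Agent.P073.St (V)
open Vale.Agent.P073.H73 (Mesh)
open Vale.Agent.P073.H471 Vale.Agent.P073.H267
open P073.Net P073.PA691

/-! ### clipping at a smaller level -/

theorem clp_clp {r r' : ℝ} (h0 : 0 ≤ r') (h : r' ≤ r) (t : ℝ) :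
    H880.clp r' (H880.clp r t) = H880.clp r' t := by
  unfold H880.clp
  rcases le_total t r with h1 | h1
  · rw [min_eq_left h1]
    rcases le_total (-r) t with h2 | h2
    · rw [max_eq_right h2]
    · rw [max_eq_left h2, min_eq_left (by linarith : -r ≤ r'), min_eq_left (by linarith : t ≤ r'),
        max_eq_left (by linarith : -r ≤ -r'), max_eq_left (by linarith : t ≤ -r')]
  · rw [min_eq_right h1, max_eq_right (by linarith : -r ≤ r), min_eq_right h,
      min_eq_right (by linarith : r' ≤ t)]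

theorem abs_clp_le_abs (r s t : ℝ) : |H880.clp r s - H880.clp r t| ≤ |s - t| := by
  unfold H880.clp
  have h1 := abs_max_sub_max_le_max (-r) (min s r) (-r) (min t r)
  have h2 := abs_min_sub_min_le_max s r t r
  rw [sub_self, abs_zero] at h1 h2
  have e1 : max 0 |min s r - min t r| = |min s r - min t r| := max_eq_right (abs_nonneg _)
  have e2 : max |s - t| 0 = |s - t| := max_eq_left (abs_nonneg _)
  rw [e1] at h1
  rw [e2] at h2
  exact h1.trans h2

theorem abs_clp_mono {r r' : ℝ} (h0 : 0 ≤ r') (h : r' ≤ r) (s t : ℝ) :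
    |H880.clp r' s - H880.clp r' t| ≤ |H880.clp r s - H880.clp r t| := by
  rw [← clp_clp h0 h s, ← clp_clp h0 h t]
  exact abs_clp_le_abs _ _ _

theorem dsum_wlev_mono {ι : Type*} [Fintype ι] {side : ι → Bool} {ax : Bool → Fin 3} {r r' : ℝ}
    (h0 : 0 ≤ r') (h : r' ≤ r) {c w : ι → ℝ} (g : V → V) (x y : V) :
    dsum (wlev side ax r' c w g) x y ≤ dsum (wlev side ax r c w g) x y :=
  Finset.sum_le_sum fun _ _ => abs_clp_mono h0 h _ _

variable {Ω Λ : Set V} {v : V} {K : BoxCx Λ v} {S : Rad K} {W : Wid K S} {B : Boxes W}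
  {G : Geo B} {L : PLev G} {γ : Type*} {φ : γ → K.S} {M : Mesh Ω} {κ₀ κ₁ : V → V} {c d : ℝ}
  {h2 h3 h4 : ConHomeo Ω Λ} {u : V}

/-- **the local inequality for the levels clipped at a smaller number** -/
theorem HkGO.loc_le {F : Bool → BFam 3 γ Λ} {T : Bool → ConHomeo Λ Λ} {Zb : γ → Set M.ι}
    {H : HkG M L φ F T κ₀ κ₁ c d Zb h2 h3 h4 u} {hΩ : IsOpen Ω} {r : γ → ℝ}
    {h5 : ConHomeo Ω Λ} (O : HkGO H hΩ r h5) (b : γ) (r1 : r b < 1) {r' : ℝ} (h0 : 0 < r')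
    (h : r' ≤ r b) :
    Loc ((H.hookIn b).boxK hΩ) (wlev (ι := PI L (φ b)) Sigma.fst (tg (φ b)) r'
      (pcen L (φ b)) (pwid L (fun β => (F β).e b) (φ b)) h5.toFun) := by
  intro x hx
  filter_upwards [O.loc b (h0.trans_le h) r1 x hx] with y hy
  exact (dsum_wlev_mono h0.le h _ _ _).trans hy

/-! ### the family of the second staircases -/

section fam

/-- the same boxes, other half gaps -/
noncomputable def reE (F : BFam 3 γ Λ) (e' : γ → ℝ) (h0 : ∀ b, 0 < e' b)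
    (h1 : ∀ b, 2 * e' b < stp (F.B b).N (F.B b).al (F.B b).be) : BFam 3 γ Λ where
  B := F.B
  e := e'
  D := fun b => (F.B b).be - (F.B b).al
  he := h0
  heo := h1
  hD := fun b t => by
    have hT : Tgt (F.B b).N (F.B b).al (F.B b).be (F.B b).al
        (stp (F.B b).N (F.B b).al (F.B b).be) (e' b) :=
      Tgt.full (F.B b).lvs.pos (h0 b) (h1 b)
    have hm := (sm_strictMono (F.B b).lvs hT).monotone
    have hal : (F.B b).al ≤ (F.B b).be := by
      have h2 := (F.B b).lvs.first_le (F.B b).lvs.pos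
      have h3 := (F.B b).lvs.le_last (F.B b).lvs.pos
      have h4 := (F.B b).lvs.c0
      linarith
    by_cases ht : t ≤ (F.B b).al ∨ (F.B b).be ≤ t
    · rw [sm_out (F.B b).lvs ht, sub_self, abs_zero]
      linarith
    · push Not at ht
      have h2 := hm ht.1.le
      have h3 := hm ht.2.le
      rw [sm_out (F.B b).lvs (Or.inl le_rfl)] at h2
      rw [sm_out (F.B b).lvs (Or.inr le_rfl)] at h3
      rw [abs_le]
      constructor <;> linarith
  sub := F.sub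
  lf := F.lf
  dis := F.dis

/-- the half gaps of the second staircases -/
noncomputable def esg (F : BFam 3 γ Λ) (ρ : γ → ℝ) (b : γ) : ℝ :=
  stp (F.B b).N (F.B b).al (F.B b).be / 2 -
    ρ b * bw (F.B b).N (F.B b).al (F.B b).be (F.e b)

variable {F : BFam 3 γ Λ} {ρ : γ → ℝ}

theorem bw_pos (F : BFam 3 γ Λ) (b : γ) :
    0 < bw (F.B b).N (F.B b).al (F.B b).be (F.e b) := by
  have := F.heo b
  unfold bw
  linarith

theorem bw_le (F : BFam 3 γ Λ) (b : γ) :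
    bw (F.B b).N (F.B b).al (F.B b).be (F.e b) ≤ stp (F.B b).N (F.B b).al (F.B b).be / 2 := by
  have := F.he b
  unfold bw
  linarith

theorem esg_pos (h0 : ∀ b, 0 < ρ b) (h1 : ∀ b, ρ b < 1) (b : γ) : 0 < esg F ρ b := by
  have h2 := bw_pos F b
  have h3 := bw_le F b
  have h4 := h0 b
  have h5 := h1 b
  unfold esg
  nlinarith

theorem esg_lt (h0 : ∀ b, 0 < ρ b) (b : γ) :
    2 * esg F ρ b < stp (F.B b).N (F.B b).al (F.B b).be := by
  have h2 := bw_pos F b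
  have h4 := mul_pos (h0 b) h2
  unfold esg
  linarith

/-- `e' ≤ e + (1 - ρ) stp / 2` -/
theorem esg_le (h1 : ∀ b, ρ b < 1) (b : γ) :
    esg F ρ b ≤ F.e b + (1 - ρ b) * (stp (F.B b).N (F.B b).al (F.B b).be / 2) := by
  have h3 := F.he b
  have h4 := h1 b
  have e : esg F ρ b = F.e b + (1 - ρ b) * bw (F.B b).N (F.B b).al (F.B b).be (F.e b) := by
    unfold esg bw
    ring
  rw [e]
  have := mul_le_mul_of_nonneg_left (bw_le F b) (by linarith : 0 ≤ 1 - ρ b)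
  linarith

/-- `e ≤ e'` -/
theorem e_le_esg (h1 : ∀ b, ρ b < 1) (b : γ) : F.e b ≤ esg F ρ b := by
  have h2 := bw_pos F b
  have h4 := h1 b
  have e : esg F ρ b = F.e b + (1 - ρ b) * bw (F.B b).N (F.B b).al (F.B b).be (F.e b) := by
    unfold esg bw
    ring
  rw [e]
  nlinarith

/-- **the family of the second staircases** -/
noncomputable def sfam (F : BFam 3 γ Λ) (ρ : γ → ℝ) (h0 : ∀ b, 0 < ρ b) (h1 : ∀ b, ρ b < 1) :
    BFam 3 γ Λ := reE F (esg F ρ) (esg_pos h0 h1) (esg_lt h0)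

variable {h0 : ∀ b, 0 < ρ b} {h1 : ∀ b, ρ b < 1} {ς : γ → ℝ}

/-- the slope on the bands, times the half width of the bands -/
theorem slAK_sfam_mul (hς : ∀ b, 0 ≤ ς b) (b : γ) :
    slAK (sfam F ρ h0 h1) ς b * bw (F.B b).N (F.B b).al (F.B b).be (F.e b) ≤
      stp (F.B b).N (F.B b).al (F.B b).be / 2 / ρ b := by
  have h2 := bw_pos F b
  have h3 := h0 b
  have h5 := esg_pos (F := F) h0 h1 b
  set w := bw (F.B b).N (F.B b).al (F.B b).be (F.e b) with hw
  set st := stp (F.B b).N (F.B b).al (F.B b).be with hst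
  have e1 : slAK (sfam F ρ h0 h1) ς b = (st - 2 * (ς b * esg F ρ b)) / (2 * (ρ b * w)) := by
    show (st - 2 * (ς b * esg F ρ b)) / (st - 2 * esg F ρ b) = _
    congr 1
    unfold esg
    rw [← hw, ← hst]
    ring
  rw [e1, div_mul_eq_mul_div, div_le_div_iff₀ (by positivity) h3]
  have h6 : 0 ≤ ς b * esg F ρ b := mul_nonneg (hς b) h5.le
  have h7 : 0 ≤ ς b * esg F ρ b * w * ρ b := by positivity
  nlinarith

/-- the slope on the bands -/
theorem slAK_sfam_le (hς : ∀ b, 0 ≤ ς b) {μ : ℝ} (b : γ)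
    (hμ : stp (F.B b).N (F.B b).al (F.B b).be / 2 ≤
      μ * (ρ b * bw (F.B b).N (F.B b).al (F.B b).be (F.e b))) :
    slAK (sfam F ρ h0 h1) ς b ≤ μ := by
  have h2 := bw_pos F b
  have h3 := h0 b
  have h4 := slAK_sfam_mul (F := F) (h0 := h0) (h1 := h1) hς b
  rw [le_div_iff₀ h3] at h4
  by_contra hcon
  push Not at hcon
  have h5 : μ * (ρ b * bw (F.B b).N (F.B b).al (F.B b).be (F.e b)) <
      slAK (sfam F ρ h0 h1) ς b * (ρ b * bw (F.B b).N (F.B b).al (F.B b).be (F.e b)) :=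
    mul_lt_mul_of_pos_right hcon (by positivity)
  have h6 : slAK (sfam F ρ h0 h1) ς b * (ρ b * bw (F.B b).N (F.B b).al (F.B b).be (F.e b)) =
      slAK (sfam F ρ h0 h1) ς b * bw (F.B b).N (F.B b).al (F.B b).be (F.e b) * ρ b := by ring
  linarith

end fam

/-- the half gaps of the second staircases: hypothesis `he` of `Sg3.lip` -/
theorem sfam_e {F : Bool → BFam 3 γ Λ} {T : Bool → ConHomeo Λ Λ} (P : PSt L φ F T) {ρ : γ → ℝ}
    (h0 : ∀ b, 0 < ρ b) (h1 : ∀ b, ρ b < 1) (β : Bool) (b : γ) :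
    (sfam (F β) ρ h0 h1).e b = stp (L.N (φ b) β) (K.slo (φ b) (tg (φ b) β) + G.a (φ b))
      (K.shi (φ b) (tg (φ b) β) - G.a (φ b)) / 2 - ρ b * bw (L.N (φ b) β)
        (K.slo (φ b) (tg (φ b) β) + G.a (φ b)) (K.shi (φ b) (tg (φ b) β) - G.a (φ b))
        ((F β).e b) := by
  have hB := P.B β b
  show esg (F β) ρ b = _
  unfold esg
  rw [hB.N, hB.al, hB.be]
  rfl

/-- the bands of the plates have positive half width -/
theorem bw_pos' {F : Bool → BFam 3 γ Λ} {T : Bool → ConHomeo Λ Λ} (P : PSt L φ F T) (β : Bool)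
    (b : γ) : 0 < bw (L.N (φ b) β) (K.slo (φ b) (tg (φ b) β) + G.a (φ b))
      (K.shi (φ b) (tg (φ b) β) - G.a (φ b)) ((F β).e b) := by
  have hB := P.B β b
  have := bw_pos (F β) b
  rw [hB.N, hB.al, hB.be] at this
  exact this

/-- the bands of the second staircases: hypothesis `he` of `HkGF.keepσ` -/
theorem pwid_sfam {F : Bool → BFam 3 γ Λ} {T : Bool → ConHomeo Λ Λ} (P : PSt L φ F T) {ρ : γ → ℝ}
    (h0 : ∀ b, 0 < ρ b) (h1 : ∀ b, ρ b < 1) (b : γ) (i : PI L (φ b)) :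
    pwid L (fun β => (sfam (F β) ρ h0 h1).e b) (φ b) i =
      ρ b * pwid L (fun β => (F β).e b) (φ b) i := by
  obtain ⟨β, k⟩ := i
  show stp (L.N (φ b) β) (K.slo (φ b) (tg (φ b) β) + G.a (φ b))
    (K.shi (φ b) (tg (φ b) β) - G.a (φ b)) / 2 - (sfam (F β) ρ h0 h1).e b = _
  rw [sfam_e P h0 h1 β b]
  show _ = ρ b * bw (L.N (φ b) β) (K.slo (φ b) (tg (φ b) β) + G.a (φ b))
    (K.shi (φ b) (tg (φ b) β) - G.a (φ b)) ((F β).e b)
  ring

/-- the slope of the second staircases: hypothesis `hA` of `Sg3.lip` -/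
theorem slAK_sfam_plate {F : Bool → BFam 3 γ Λ} {T : Bool → ConHomeo Λ Λ} (P : PSt L φ F T)
    {ρ : γ → ℝ} (h0 : ∀ b, 0 < ρ b) (h1 : ∀ b, ρ b < 1) {ς : γ → ℝ} (hς : ∀ b, 0 ≤ ς b)
    (β : Bool) (b : γ) : slAK (sfam (F β) ρ h0 h1) ς b *
      bw (L.N (φ b) β) (K.slo (φ b) (tg (φ b) β) + G.a (φ b))
      (K.shi (φ b) (tg (φ b) β) - G.a (φ b)) ((F β).e b) ≤
      stp (L.N (φ b) β) (K.slo (φ b) (tg (φ b) β) + G.a (φ b))
      (K.shi (φ b) (tg (φ b) β) - G.a (φ b)) / 2 / ρ b := by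
  have hB := P.B β b
  have := slAK_sfam_mul (F := F β) (h0 := h0) (h1 := h1) hς b
  rw [hB.N, hB.al, hB.be] at this
  exact this

/-! ### the layer of the plates -/

/-- local Lipschitz constants over a compact set of the target -/
theorem exists_lip_over (hΩ : IsOpen Ω) (f : ConHomeo Ω Λ) {C : Set V} (hC : IsCompact C)
    (hCΛ : C ⊆ Λ) : ∃ L : ℝ, 0 < L ∧ ∀ x ∈ Ω, f.toFun x ∈ C →
      ∀ᶠ y in 𝓝 x, ‖f.toFun y - f.toFun x‖ ≤ L * ‖y - x‖ := by
  have hD : IsCompact (f.invFun '' C) := hC.image_of_continuousOn (f.cont_inv.mono hCΛ)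
  have hDΩ : f.invFun '' C ⊆ Ω := by
    rintro _ ⟨y, hy, rfl⟩
    exact f.mapsTo_inv (hCΛ hy)
  have h1 : ∀ x ∈ f.invFun '' C, ∃ δ > 0, ∃ M : NNReal, LipschitzOnWith M f.toFun (ball x δ) :=
    fun x hx =>
      let ⟨δ, hδ, _, M, hM⟩ := exists_lipschitz_near hΩ f.conical f.cont (hDΩ hx)
      ⟨δ, hδ, M, hM⟩
  choose! δ hδ L hL using h1
  obtain ⟨T, hT, hcov⟩ := hD.elim_nhds_subcover (fun x => ball x (δ x))
    fun x hx => ball_mem_nhds x (hδ x hx)
  refine ⟨∑ x ∈ T, (L x : ℝ) + 1, by positivity, fun x hx hxC => ?_⟩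
  have hxD : x ∈ f.invFun '' C := ⟨_, hxC, f.left_inv hx⟩
  obtain ⟨z, hz, hxz⟩ := mem_iUnion₂.1 (hcov hxD)
  filter_upwards [isOpen_ball.mem_nhds hxz] with y hy
  have h2 := (hL z (hT z hz)).dist_le_mul y hy x hxz
  rw [dist_eq_norm, dist_eq_norm] at h2
  refine h2.trans (mul_le_mul_of_nonneg_right ?_ (norm_nonneg _))
  have h3 : (L z : ℝ) ≤ ∑ x ∈ T, (L x : ℝ) :=
    Finset.single_le_sum (f := fun x => (L x : ℝ)) (fun _ _ => NNReal.coe_nonneg _) hz
  linarith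

theorem isCompact_PK (G : Geo B) (s : K.S) : IsCompact (PK G s) := by
  refine isCompact_Icc.of_isClosed_subset (P073.H196.isClosed_PK G s)
    (s := Icc (fun j => if j = K.nrm s then K.slo s j - 3 / 2 * B.τ s else
      K.slo s j + 3 / 4 * G.p s) (fun j => if j = K.nrm s then K.slo s j + 3 / 2 * B.τ s else
      K.shi s j - 3 / 4 * G.p s)) ?_
  rintro y ⟨h1, h2⟩
  rw [abs_le] at h2
  refine ⟨fun j => ?_, fun j => ?_⟩
  · by_cases hj : j = K.nrm s
    · subst hj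
      simp only [if_true]
      linarith
    · simp only [if_neg hj]
      exact (h1 j hj).1
  · by_cases hj : j = K.nrm s
    · subst hj
      simp only [if_true]
      linarith
    · simp only [if_neg hj]
      exact (h1 j hj).2

/-- **[P-EX] the existence of the layer of the plates**: the hook, then the second staircases -/
theorem exists_player {S₀ : Set K.S} {F : Bool → BFam 3 S₀ Λ} {T : Bool → ConHomeo Λ Λ}
    {Zb : S₀ → Set M.ι} (hΩ : IsOpen Ω)
    (H : HkG M L (Subtype.val : S₀ → K.S) F T κ₀ κ₁ c d Zb h2 h3 h4 u) {r q : S₀ → ℝ}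
    (r0 : ∀ s, 0 < r s) (r1 : ∀ s, r s < 1) (q0 : ∀ s, 0 < q s) (q1 : ∀ s, q s < 1) :
    ∃ h5 : ConHomeo Ω Λ, HkGF H hΩ r q h5 ∧ HkGO H hΩ r h5 ∧
    ∃ K₂ : S₀ → ℝ, (∀ s, 0 < K₂ s) ∧
      (∀ s : S₀, ∀ x ∈ Ω, h5.toFun x ∈ PK G s.1 →
        ∀ᶠ y in 𝓝 x, ‖h5.toFun y - h5.toFun x‖ ≤ K₂ s * ‖y - x‖) ∧
    ∃ (p0 : ∀ s, 0 < q s * r s) (p1 : ∀ s, q s * r s < 1),
    ∀ ε : S₀ → ℝ, (∀ s, 0 < ε s) →
    ∃ ς : Bool → S₀ → ℝ, (∀ β s, 0 < ς β s) ∧ (∀ β s, ς β s ≤ 1) ∧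
      (∀ β s, ς β s * K₂ s ≤ ε s) ∧ (∀ β s, ς β s ≤ ε s) ∧
    ∃ Tσ : Bool → ConHomeo Λ Λ,
      RP.Sg3 L S₀ (fun β => sfam (F β) (fun s => q s * r s) p0 p1) ς Tσ ∧
    ∃ f5 : ConHomeo Ω Λ, ∀ x ∈ Ω, f5.toFun x = PS.map Tσ (h5.toFun x) := by
  obtain ⟨h5, O⟩ := H.exists_outF hΩ r q r0 r1 q0 q1
  have hL : ∀ s : S₀, ∃ L : ℝ, 0 < L ∧ ∀ x ∈ Ω, h5.toFun x ∈ PK G s.1 →
      ∀ᶠ y in 𝓝 x, ‖h5.toFun y - h5.toFun x‖ ≤ L * ‖y - x‖ := fun s =>
    exists_lip_over hΩ h5 (isCompact_PK G s.1) (P073.H196.PK_sub_Λ G s.1)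
  choose K₂ hK0 hK using hL
  have p0 : ∀ s, 0 < q s * r s := fun s => mul_pos (q0 s) (r0 s)
  have p1 : ∀ s, q s * r s < 1 := fun s => by nlinarith [q0 s, q1 s, r0 s, r1 s]
  refine ⟨h5, O, O.out, K₂, hK0, hK, p0, p1, fun ε hε => ?_⟩
  have hpos : ∀ s, 0 < min 1 (min (ε s) (ε s / K₂ s)) := fun s =>
    lt_min one_pos (lt_min (hε s) (div_pos (hε s) (hK0 s)))
  refine ⟨fun _ s => min 1 (min (ε s) (ε s / K₂ s)), fun _ s => hpos s,
    fun _ s => min_le_left _ _, fun _ s => ?_,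
    fun _ s => (min_le_right _ _).trans (min_le_left _ _), ?_⟩
  · have h2 := hK0 s
    have h3 : min 1 (min (ε s) (ε s / K₂ s)) ≤ ε s / K₂ s :=
      (min_le_right _ _).trans (min_le_right _ _)
    calc min 1 (min (ε s) (ε s / K₂ s)) * K₂ s ≤ ε s / K₂ s * K₂ s :=
          mul_le_mul_of_nonneg_right h3 h2.le
      _ = ε s := div_mul_cancel₀ _ h2.ne'
  · have hS : ∀ β, ∃ S', IsSg (sfam (F β) (fun s => q s * r s) p0 p1)
        (fun s => min 1 (min (ε s) (ε s / K₂ s))) S' := fun β =>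
      exists_isSg H.hΛ _ hpos fun s => min_le_left _ _
    choose Tσ hTσ using hS
    refine ⟨Tσ, ⟨fun β s => H.P.B β s, hTσ⟩, (h5.trans (Tσ false)).trans (Tσ true),
      fun x _ => rfl⟩

end P073.H919
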