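import Vale.Agent.P073.H919.HookFD
import Vale.Agent.P073.H880.RP0
import Vale.Agent.P073.H142.Hull

/-!
# P073, block H919: [HOOK-P], the hook of ROUND P for `K3C`

`HkS s`: the drawn cells with a face which is peeled by the plate `s`.  The box of the hook is
`HB G (29 / 32) (3 / 4) s`; the maps are `h1` (before the exchange), `h2` (after), `h3` (after the
insertion), `h4 = T true ∘ T false ∘ h3` (after the staircases), `h5` (after the hook).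
-/

open Set Metric Topology Filter

set_option linter.unusedSectionVars false

namespace P073.H880.RP

open _root_.P073 _root_.P073.Net _root_.P073.PA691 _root_.P073.H236 _root_.P073.H579
  _root_.P073.H345 _root_.P073.H880 _root_.P073.H919 _root_.P073.H936 _root_.P073.H936.K3
open Vale.Agent.P073.St (V)
open Vale.Agent.P073.AB (Idx)
open Vale.Agent.P073.H471 Vale.Agent.P073.H267 Vale.Agent.P073.H267.Geo
open Vale.Agent.P073.H73 (Mesh)
open Vale.Agent.P073.H193 (Edges)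

variable {Ω Λ : Set V} {v : V} {K : BoxCx Λ v} {S : Rad K} {W : Wid K S} {B : Boxes W}
  {G : Geo B} {M : Mesh Ω} {E : Edges M}

/-- the cells which are redrawn by the hook in the plate `s` -/
def Dat.HkS (D : Dat K M) (G : Geo B) (h : ConHomeo Ω Λ) (s : K.S) : Set M.ι :=
  {i | i ∈ D.Zd ∧ i ∉ D.Pr ∧ ∃ k, M.F k ⊆ M.Q i ∧ D.PkS G h s k}

variable {D : Dat K M} {h1 h2 h3 h4 : ConHomeo Ω Λ}

theorem Dat.mem_Hk {i : M.ι} : i ∈ D.Hk G h1 ↔ ∃ s, i ∈ D.HkS G h1 s := by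
  constructor
  · rintro ⟨a, b, k, hk, s, hs⟩
    exact ⟨s, a, b, k, hk, hs⟩
  · rintro ⟨s, a, b, k, hk, hs⟩
    exact ⟨a, b, k, hk, s, hs⟩

/-- a set with boundary values in a box -/
theorem image_sub_box {n : ℕ} {Ω : Set V} {Λ : Set (Fin n → ℝ)} (hΛ : IsOpen Λ)
    (g : ConHomeo Ω Λ) {Q : Set V} (hQ : IsCompact Q) (hQΩ : Q ⊆ Ω) {lo hi : Fin n → ℝ}
    (h : ∀ x ∈ frontier Q, g.toFun x ∈ Icc lo hi) : ∀ x ∈ Q, g.toFun x ∈ Icc lo hi := by
  intro x hx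
  refine ⟨fun j => ?_, fun j => ?_⟩
  · obtain ⟨a, ha, h1⟩ := P073.H142.exists_frontier_le hΛ g hQ hQΩ j hx
    exact ((h a ha).1 j).trans h1
  · obtain ⟨a, ha, h1⟩ := P073.H142.exists_frontier_ge hΛ g hQ hQΩ j hx
    exact h1.trans ((h a ha).2 j)

/-- the box of the exchange is in the plate -/
theorem Dat.PE_sub {s : K.S} (hht : ∀ β, D.ht s β ≤ B.τ s / 2) : D.PE G s ⊆ G.PB 1 s := by
  rintro y ⟨h1, h2, h3⟩
  have hτ := B.τ_pos s
  have h4 := hht true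
  have h5 := hht false
  refine Geo.mem_PB.2 ⟨fun k hk => by have := h1 k hk; constructor <;> linarith [this.1, this.2], ?_⟩
  rw [abs_le]
  constructor <;> linarith

/-- **position of the cells to be redrawn**, after the exchange -/
theorem h2_pos (hΛ : IsOpen Λ) {L : K.S → Fin 3 → Finset ℝ} {ι : Type} {F : ι → Set V}
    (R : ROut3 G E D h1 h2 L F) (hht : ∀ s ∈ D.S₀, ∀ β, D.ht s β ≤ B.τ s / 2) {s : K.S}
    {i : M.ι} (hi : i ∈ D.HkS G h1 s)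
    (hpos : ∀ y ∈ M.Q i, h1.toFun y ∈ HB G (15 / 16) (1 / 2) s) :
    ∀ y ∈ M.Q i, h2.toFun y ∈ HB G (15 / 16) (1 / 2) s := by
  obtain ⟨hZ, hP, k₀, hk₀, hs, -⟩ := hi
  refine image_sub_box hΛ h2 (M.poly i).cpt (M.sub i) fun y hy => ?_
  obtain ⟨k, hyk, hk⟩ := M.bd i y hy
  by_cases hpk : D.PkS G h1 s k
  · obtain ⟨-, a2, a3⟩ := R.near s k hpk y hyk
    refine (mem_HB_iff (by norm_num)).2 ⟨a2, ?_⟩
    linarith
  · have heq : h2.toFun y = h1.toFun y := by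
      by_cases hPF : ∃ j ∈ D.Pr, M.F k ⊆ M.Q j
      · obtain ⟨j, hj, hkj⟩ := hPF
        exact R.prot j hj (hkj hyk)
      · push Not at hPF
        refine R.off y (M.sub i (hk hyk)) fun s' hs' hint => ?_
        have hin : h1.toFun y ∈ G.PB 1 s' := Dat.PE_sub (hht s' hs') (interior_subset hint)
        by_cases hss : s' = s
        · subst hss
          exact hpk ⟨hs, ⟨⟨i, hZ, hk⟩, hPF⟩, y, hyk, hin⟩
        · have h5 : h1.toFun y ∈ G.PB (15 / 16) s := HB_PB le_rfl (by norm_num) s (hpos y (hk hyk))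
          exact Set.disjoint_left.1 (Geo.disjoint_PB (G := G) (c := 15 / 16) (by norm_num) hss)
            (PB_mono (by norm_num) s' hin) h5
    rw [heq]
    exact hpos y (hk hyk)

variable {L : PLev G} {F : Bool → BFam 3 D.S₀ Λ} {T : Bool → ConHomeo Λ Λ} {κ₀ κ₁ : V → V}

/-- **position of the cells to be redrawn**, before the hook -/
theorem h4_pos (P : PSt L (Subtype.val : D.S₀ → K.S) F T)
    (q₀ : IsQ (fun s : D.S₀ => L.bx false s.1) κ₀) (q₁ : IsQ (fun s : D.S₀ => L.bx true s.1) κ₁)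
    (hf : ∀ x ∈ Ω, h4.toFun x = (T true).toFun ((T false).toFun (h3.toFun x))) {s : D.S₀}
    {X : Set V} (hX : X ⊆ Ω) (himg : h3.toFun '' X = Pre (κ₁ ∘ κ₀) Λ h2 X) {c d : ℝ}
    (hc : 7 / 8 ≤ c) (hc2 : c ≤ 2) (hd : d ≤ 1) (hpos : ∀ y ∈ X, h2.toFun y ∈ HB G c d s.1) :
    h4.toFun '' X ⊆ HB G c d s.1 := by
  have h5 : h3.toFun '' X ⊆ HB G c d s.1 :=
    pre_sub_of_image (φ := Subtype.val) (b := s) Subtype.val_injective q₀ q₁ himg hc hc2 hd (by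
      rintro _ ⟨y, hy, rfl⟩
      exact hpos y hy)
  rintro _ ⟨y, hy, rfl⟩
  rw [hf y (hX hy)]
  exact ((P.prodOn s hc hc2 hd).mem _ (h3.mapsTo (hX hy))).2 (h5 ⟨y, hy, rfl⟩)

/-- the box of the hook of the plate `s` -/
noncomputable abbrev hookX (D : Dat K M) (L : PLev G) (F : Bool → BFam 3 D.S₀ Λ)
    (h1 : ConHomeo Ω Λ) (s : D.S₀) : HBox :=
  phook M L (Subtype.val : D.S₀ → K.S) F (29 / 32) (3 / 4) (fun s => D.HkS G h1 s.1) s

/-- **the hypotheses of the hook of ROUND P** -/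
structure HkIn (E : Edges M) (D : Dat K M) (L : PLev G) (F : Bool → BFam 3 D.S₀ Λ)
    (T : Bool → ConHomeo Λ Λ) (κ₀ κ₁ : V → V) (h1 h2 h3 h4 : ConHomeo Ω Λ) (u : V) : Prop where
  hΛ : IsOpen Λ
  P : PSt L (Subtype.val : D.S₀ → K.S) F T
  q₀ : IsQ (fun s : D.S₀ => L.bx false s.1) κ₀
  q₁ : IsQ (fun s : D.S₀ => L.bx true s.1) κ₁
  surj : SurjOn (κ₁ ∘ κ₀) Λ Λ
  map : ∀ x ∈ Ω, h4.toFun x = (T true).toFun ((T false).toFun (h3.toFun x))
  /-- `img_face`, `img_cell` of stage 3 -/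
  face : ∀ k, h3.toFun '' M.F k = Pre (κ₁ ∘ κ₀) Λ h2 (M.F k)
  cell : ∀ i, h3.toFun '' M.Q i = Pre (κ₁ ∘ κ₀) Λ h2 (M.Q i)
  cube : ∀ i ∈ D.Zd, i ∉ D.Pr → ∃ m z, M.Q i = dyc u m z
  pos : ∀ s : D.S₀, ∀ i ∈ D.HkS G h1 s.1, ∀ y ∈ M.Q i, h2.toFun y ∈ HB G (15 / 16) (1 / 2) s.1

namespace HkIn

variable {u : V} (H : HkIn E D L F T κ₀ κ₁ h1 h2 h3 h4 u)

include H

theorem h4_sub {s : D.S₀} {i : M.ι} (hi : i ∈ D.HkS G h1 s.1) :
    h4.toFun '' M.Q i ⊆ HB G (15 / 16) (1 / 2) s.1 :=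
  h4_pos H.P H.q₀ H.q₁ H.map (M.sub i) (H.cell i) (by norm_num) (by norm_num) (by norm_num)
    (H.pos s i hi)

theorem int {s : D.S₀} {i : M.ι} (hi : i ∈ D.HkS G h1 s.1) :
    h4.toFun '' M.Q i ⊆ interior (HB G (29 / 32) (3 / 4) s.1) :=
  (H.h4_sub hi).trans (HB_interior (by norm_num) (by norm_num) s.1)

open Classical in
/-- the dyadic index of a drawn cell -/
noncomputable def idx (i : M.ι) : Idx :=
  if h : i ∈ D.Zd ∧ i ∉ D.Pr then
    ((H.cube i h.1 h.2).choose, (H.cube i h.1 h.2).choose_spec.choose)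
  else (0, 0)

theorem idx_spec {i : M.ι} (h : i ∈ D.Zd ∧ i ∉ D.Pr) :
    M.Q i = dyc u (H.idx i).1 (H.idx i).2 := by
  have h1 := (H.cube i h.1 h.2).choose_spec.choose_spec
  have e : H.idx i = ((H.cube i h.1 h.2).choose, (H.cube i h.1 h.2).choose_spec.choose) := by
    unfold idx; rw [dif_pos h]
  rw [e]
  exact h1

/-- **[HOOK-P]** the input of the hook -/
noncomputable def hookIn (s : D.S₀) : (hookX D L F h1 s).In h4 :=
  H.P.phookIn H.q₀ H.q₁ H.surj H.map (by norm_num) (by norm_num) (by norm_num) (by norm_num)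
    (fun i => H.idx i) (fun _ _ hi => H.idx_spec ⟨hi.1, hi.2.1⟩) (fun _ _ hi => H.int hi)
    (fun _ _ _ k _ => H.face k) s

theorem hookIn_C (s : D.S₀) (q : (hookX D L F h1 s).Q) : (H.hookIn s).K.C q = M.Q q.1 := by
  have h1 : M.Q q.1 = dyc u (H.idx q.1).1 (H.idx q.1).2 := H.idx_spec ⟨q.2.1, q.2.2.1⟩
  exact h1.symm

/-- the chart of a drawn cell -/
theorem hookIn_chart (s : D.S₀) (q : (hookX D L F h1 s).Q) :
    (H.hookIn s).K.chart q = (_root_.P073.H950.Chart.dya u (H.idx q.1)).cast rfl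
      (P073.H142.frontier_dyc' u _ _).symm := rfl

omit H in
theorem hook_fin (D : Dat K M) (L : PLev G) (F : Bool → BFam 3 D.S₀ Λ) (h1 : ConHomeo Ω Λ) :
    ∀ z ∈ Λ, ∃ O ∈ 𝓝 z, {s | ((hookX D L F h1 s).P ∩ O).Nonempty}.Finite :=
  phook_fin L Subtype.val_injective (by norm_num) (by norm_num)

omit H in
theorem hook_dis (D : Dat K M) (L : PLev G) (F : Bool → BFam 3 D.S₀ Λ) (h1 : ConHomeo Ω Λ) :
    ∀ s s', s ≠ s' → Disjoint (interior (hookX D L F h1 s).P) (hookX D L F h1 s').P :=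
  phook_dis L Subtype.val_injective (by norm_num) (by norm_num)

/-- **the hooked map** -/
theorem exists_h5 (hΩ : IsOpen Ω) (r : D.S₀ → ℝ) (r0 : ∀ s, 0 < r s) (r1 : ∀ s, r s < 1) :
    ∃ h5 : ConHomeo Ω Λ, Glued (hookX D L F h1) h4 h5 ∧
      ∀ s, ∃ g : ConHomeo ((hookX D L F h1 s).U h4)
          (Icc (hookX D L F h1 s).lo (hookX D L F h1 s).hi),
        ((H.hookIn s).boxK hΩ).Switched (r s) g ∧
        EqOn h5.toFun g.toFun ((hookX D L F h1 s).U h4) ∧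
        EqOn h5.invFun g.invFun (hookX D L F h1 s).P :=
  exists_hook_switched hΩ H.hΛ h4 (hookX D L F h1) H.hookIn (hook_fin D L F h1)
    (hook_dis D L F h1) r r0 r1

/-- no point of a passive cell or of a face is in a drawn open cell -/
theorem off {Z : Set V} {s : D.S₀}
    (hZ : (∃ i, i ∉ D.HkS G h1 s.1 ∧ Z ⊆ M.Q i) ∨ ∃ k, Z ⊆ M.F k)
    (q : (hookX D L F h1 s).Q) {x : V} (hx : x ∈ Z) : x ∉ interior ((H.hookIn s).K.C q) := by
  rw [H.hookIn_C s q]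
  rcases hZ with ⟨i, hi, hZi⟩ | ⟨k, hZk⟩
  · exact not_interior_of_cell M (fun e => hi (by rw [e]; exact q.2)) (hZi hx)
  · exact not_interior_of_face M _ (hZk hx)

theorem U_sub (s : D.S₀) : (hookX D L F h1 s).U h4 ⊆ Ω := HBox.U_sub (H.hookIn s)

theorem mem_U (s : D.S₀) {x : V} (hx : x ∈ Ω) :
    x ∈ (hookX D L F h1 s).U h4 ↔ h4.toFun x ∈ HB G (29 / 32) (3 / 4) s.1 :=
  HBox.mem_U (H.hookIn s) hx

/-- a drawn cell is in the domain of the box -/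
theorem cell_sub_U {s : D.S₀} {i : M.ι} (hi : i ∈ D.HkS G h1 s.1) :
    M.Q i ⊆ (hookX D L F h1 s).U h4 := fun x hx =>
  (H.mem_U s (M.sub i hx)).2 (interior_subset (H.int hi ⟨x, hx, rfl⟩))

/-- **the face data of a drawn cell**, from the band clauses of `h3` on the squares `𝓢` of its
boundary -/
theorem faceData (hΩ : IsOpen Ω) (s : D.S₀) {i : M.ι} (hi : i ∈ D.HkS G h1 s.1) {om ρ : ℝ}
    (hom : 0 ≤ om) (hρ0 : 0 ≤ ρ)
    (hρ : ∀ β, om ≤ ρ * stp (L.N s.1 β) (K.slo s.1 (tg s.1 β) + G.a s.1)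
      (K.shi s.1 (tg s.1 β) - G.a s.1)) {𝓢 : Finset (Idx × Fin 3)}
    (h𝓢 : ∀ t ∈ 𝓢, Vale.Agent.P073.AB.squ u t ⊆ M.Q i) {n : Idx × Fin 3 → ℕ}
    {A : Idx × Fin 3 → ℝ} {R : ∀ t, Fin (n t) → Set V} {k : ∀ t, Fin (n t) → ℝ}
    (hS : ∀ t ∈ 𝓢, ∀ i, IsClosed (R t i))
    (hcov : ∀ t ∈ 𝓢, Vale.Agent.P073.AB.squ u t ⊆ ⋃ i, R t i) (hA : ∀ t ∈ 𝓢, 0 ≤ A t)
    (hcone : ∀ t ∈ 𝓢, ∀ i, ∀ x ∈ R t i, x ∈ Vale.Agent.P073.AB.squ u t → ∀ y ∈ R t i,
      y ∈ Vale.Agent.P073.AB.squ u t →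
      bandD (L.lv s.1) (L.loP s.1) (L.hiP s.1) (L.omP s.1) (h3.toFun x) (h3.toFun y) ≤
        k t i * ‖x - y‖)
    (hpath : ∀ t ∈ 𝓢, ∀ x ∈ Vale.Agent.P073.AB.squ u t, ∀ y ∈ Vale.Agent.P073.AB.squ u t,
      ∃ γ : ℝ → V, ContinuousOn γ (Icc 0 3) ∧ MapsTo γ (Icc 0 3) (Vale.Agent.P073.AB.squ u t) ∧
      γ 0 = x ∧ γ 3 = y ∧ cvar (fun a b => ENNReal.ofReal (bandD (L.lv s.1) (L.loP s.1)
        (L.hiP s.1) (L.omP s.1) (h3.toFun (γ a)) (h3.toFun (γ b)))) 0 3 ≤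
        ENNReal.ofReal (A t)) :
    P073.H142.FaceData ((H.hookIn s).boxK hΩ) u om 𝓢
      (fun t x => 2 * ρ * P073.H950.pm (R t) (fun i _ => k t i) x) (fun t => 2 * ρ * A t) :=
  H.P.faceData H.map (b := s) (c := 29 / 32) (d := 3 / 4) (by norm_num) (by norm_num)
    (by norm_num) hom hρ0 hρ ((H.hookIn s).boxK hΩ) rfl (H.U_sub s)
    (fun x hx => (H.mem_U s (H.U_sub s hx)).1 hx)
    (fun t ht => (h𝓢 t ht).trans (H.cell_sub_U hi)) hS hcov hA hcone hpath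

/-- the levels of `h4` in the box of the hook are the positions of `h3` in the flats -/
theorem old_le (hΩ : IsOpen Ω) (s : D.S₀) {om ρ : ℝ} (hom : 0 ≤ om)
    (hρ : ∀ β, om ≤ ρ * stp (L.N s.1 β) (K.slo s.1 (tg s.1 β) + G.a s.1)
      (K.shi s.1 (tg s.1 β) - G.a s.1)) {x y : V} (hx : x ∈ (hookX D L F h1 s).U h4)
    (hy : y ∈ (hookX D L F h1 s).U h4) :
    om * dsum (P073.H142.old ((H.hookIn s).boxK hΩ)) x y ≤
      2 * ρ * bandD (L.lv s.1) (L.loP s.1) (L.hiP s.1) (L.omP s.1) (h3.toFun x)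
        (h3.toFun y) :=
  H.P.dsum_le H.map (b := s) (c := 29 / 32) (d := 3 / 4) (by norm_num) (by norm_num)
    (by norm_num) hom hρ (H.U_sub s hx) (H.U_sub s hy) ((H.mem_U s (H.U_sub s hx)).1 hx)
    ((H.mem_U s (H.U_sub s hy)).1 hy)

end HkIn

/-- **the output of the hook of ROUND P** -/
structure HkOut {u : V} (H : HkIn E D L F T κ₀ κ₁ h1 h2 h3 h4 u) (hΩ : IsOpen Ω) (r : D.S₀ → ℝ)
    (h5 : ConHomeo Ω Λ) : Prop where
  glued : Glued (hookX D L F h1) h4 h5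
  sw : ∀ s, ∃ g : ConHomeo ((hookX D L F h1 s).U h4)
      (Icc (hookX D L F h1 s).lo (hookX D L F h1 s).hi),
    ((H.hookIn s).boxK hΩ).Switched (r s) g ∧
    EqOn h5.toFun g.toFun ((hookX D L F h1 s).U h4) ∧
    EqOn h5.invFun g.invFun (hookX D L F h1 s).P

namespace HkOut

variable {u : V} {H : HkIn E D L F T κ₀ κ₁ h1 h2 h3 h4 u} {hΩ : IsOpen Ω} {r : D.S₀ → ℝ}
  {h5 : ConHomeo Ω Λ} (O : HkOut H hΩ r h5)

include O

theorem mem (s : D.S₀) {x : V} (hx : x ∈ Ω) :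
    h5.toFun x ∈ HB G (29 / 32) (3 / 4) s.1 ↔ h4.toFun x ∈ HB G (29 / 32) (3 / 4) s.1 :=
  O.glued.mem s x hx

theorem off {x : V} (hx : x ∈ Ω)
    (h : ∀ s : D.S₀, h4.toFun x ∉ interior (HB G (29 / 32) (3 / 4) s.1)) :
    h5.toFun x = h4.toFun x := O.glued.off x hx h

/-- larger sets which contain the boxes they meet are preserved -/
theorem mem_iff {A : Set V} (hA : ∀ s : D.S₀, (A ∩ HB G (29 / 32) (3 / 4) s.1).Nonempty →
    HB G (29 / 32) (3 / 4) s.1 ⊆ A) {x : V} (hx : x ∈ Ω) : h5.toFun x ∈ A ↔ h4.toFun x ∈ A := by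
  by_cases h : ∃ s : D.S₀, h4.toFun x ∈ HB G (29 / 32) (3 / 4) s.1
  · obtain ⟨s, hs⟩ := h
    have hs' := (O.mem s hx).2 hs
    exact ⟨fun h => hA s ⟨_, h, hs'⟩ hs, fun h => hA s ⟨_, h, hs⟩ hs'⟩
  · push Not at h
    rw [O.off hx fun s hs => h s (interior_subset hs)]

/-- the images of the drawn cells -/
theorem cell {s : D.S₀} {i : M.ι} (hi : i ∈ D.HkS G h1 s.1) {x : V} (hx : x ∈ M.Q i) :
    h5.toFun x ∈ HB G (29 / 32) (3 / 4) s.1 :=
  (O.mem s (M.sub i hx)).2 (interior_subset (H.int hi ⟨x, hx, rfl⟩))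

/-- **the new levels** are locally controlled by the levels of the drawn sheets: input of
`Loc.rest`, `Loc.rest_cvar`, `Loc.cell`, `Loc.cellp_sup` -/
theorem loc (s : D.S₀) (r0 : 0 < r s) (r1 : r s < 1) :
    P073.H142.Loc ((H.hookIn s).boxK hΩ) (wlev (ι := PI L s.1) Sigma.fst (tg s.1) (r s)
      (pcen L s.1) (pwid L (fun β => (F β).e s) s.1) h5.toFun) := by
  obtain ⟨g, hg, h6, -⟩ := O.sw s
  intro x hx
  filter_upwards [P073.H142.Loc.of_switched hg r0 r1 x hx, self_mem_nhdsWithin] with y h7 hy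
  refine le_trans (le_of_eq ?_) h7
  unfold dsum
  refine Finset.sum_congr rfl fun i _ => ?_
  show |cl _ _ _ i (h5.toFun y _) - cl _ _ _ i (h5.toFun x _)| = _
  rw [h6 hx, h6 hy]
  rfl

end HkOut

theorem exists_hkOut {u : V} (H : HkIn E D L F T κ₀ κ₁ h1 h2 h3 h4 u) (hΩ : IsOpen Ω)
    (r : D.S₀ → ℝ) (r0 : ∀ s, 0 < r s) (r1 : ∀ s, r s < 1) : ∃ h5, HkOut H hΩ r h5 := by
  obtain ⟨h5, h6, h7⟩ := H.exists_h5 hΩ r r0 r1
  exact ⟨h5, h6, h7⟩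

end P073.H880.RP
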