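import Vale.Agent.P073.H919.HookF
import Vale.Agent.P073.H880.RP2

/-!
# P073, block H919: [P-HOOK-F], the mesh sets after the second staircases

`Sg3.prodOn`: the second staircases of ROUND P are product maps on the boxes of the plates;
`HkGF.keepσ`: the mesh sets stay band invariant near the side walls for the map after the second
staircases.
-/

open Set Metric Topology Filter MeasureTheory
open scoped ENNReal

set_option linter.unusedSectionVars false

namespace P073.H919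

open P073 P073.H936 P073.H936.K3 P073.H142 P073.H880 P073.H345 P073.H236 P073.H579 P073.H950
open Vale.Agent.P073.St (V)
open Vale.Agent.P073.H73 (Mesh)
open Vale.Agent.P073.H471 Vale.Agent.P073.H267
open P073.Net P073.PA691

section fam

variable {γ : Type*} {Λ : Set V} {F : BFam 3 γ Λ} {ς : γ → ℝ} {T : ConHomeo Λ Λ}

/-- the factors of one second staircase -/
noncomputable def sgσ (F : BFam 3 γ Λ) (ς : γ → ℝ) (b : γ) (l : Fin 3) : ℝ → ℝ :=
  if l = (F.B b).j then H228.sg (F.B b).N (F.B b).al (F.B b).be (F.e b) (ς b) else fun t => t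

theorem prodK_sgσ (F : BFam 3 γ Λ) (ς : γ → ℝ) (b : γ) (y : V) :
    prodK (sgσ F ς b) y = Function.update y (F.B b).j
      (H228.sg (F.B b).N (F.B b).al (F.B b).be (F.e b) (ς b) (y (F.B b).j)) := by
  ext l
  by_cases hl : l = (F.B b).j
  · subst hl
    rw [Function.update_self]
    show sgσ F ς b (F.B b).j _ = _
    rw [sgσ, if_pos rfl]
  · rw [Function.update_of_ne hl]
    show sgσ F ς b l _ = _
    rw [sgσ, if_neg hl]

/-- **the second staircase on a box `D`** which contains the window, is in the full zone and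
misses the other boxes -/
theorem prodOn_of_isSg (hT : H228.IsSg F ς T) {b : γ} {dlo dhi : V} (hD : Icc dlo dhi ⊆ Λ)
    (hw : dlo (F.B b).j ≤ (F.B b).al ∧ (F.B b).be ≤ dhi (F.B b).j)
    (hf : ∀ i, i ≠ (F.B b).j → (F.B b).lo i ≤ dlo i ∧ dhi i ≤ (F.B b).hi i)
    (hoff : ∀ b', b' ≠ b → ∀ y ∈ Icc dlo dhi, y ∉ (F.B b').K) :
    ProdOn Λ T.toFun (sgσ F ς b) (Icc dlo dhi) := by
  have hok := hT.ok b
  have hfull : ∀ y ∈ Icc dlo dhi, (F.B b).Full y := fun y hy i hi =>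
    ⟨(hf i hi).1.trans (hy.1 i), (hy.2 i).trans (hf i hi).2⟩
  have hout : ∀ y ∈ Icc dlo dhi, ¬ ((F.B b).al ≤ y (F.B b).j ∧ y (F.B b).j ≤ (F.B b).be) →
      ∀ b', y ∉ (F.B b').K := by
    intro y hy hn b' hb'
    by_cases hbb : b' = b
    · subst hbb
      exact hn hb'.1
    · exact hoff b' hbb y hy hb'
  have hupd : ∀ y ∈ Icc dlo dhi, ∀ t ∈ Icc (F.B b).al (F.B b).be,
      Function.update y (F.B b).j t ∈ Icc dlo dhi := by
    intro y hy t ht
    refine ⟨fun i => ?_, fun i => ?_⟩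
    · by_cases hi : i = (F.B b).j
      · subst hi; rw [Function.update_self]; exact hw.1.trans ht.1
      · rw [Function.update_of_ne hi]; exact hy.1 i
    · by_cases hi : i = (F.B b).j
      · subst hi; rw [Function.update_self]; exact ht.2.trans hw.2
      · rw [Function.update_of_ne hi]; exact hy.2 i
  have hon : ∀ y ∈ Icc dlo dhi, T.toFun y = prodK (sgσ F ς b) y := by
    intro y hy
    rw [prodK_sgσ]
    by_cases hwin : (F.B b).al ≤ y (F.B b).j ∧ y (F.B b).j ≤ (F.B b).be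
    · exact hT.full ⟨hwin, hfull y hy⟩
    · rw [hT.off y (hout y hy hwin), hok.out, Function.update_eq_self]
      by_contra hcon
      push Not at hcon
      exact hwin ⟨hcon.1.le, hcon.2.le⟩
  refine ⟨hD, hon, fun y hy => ⟨fun h => ?_, fun h => ?_⟩, fun l => ?_⟩
  · rw [← T.left_inv hy]
    set z := T.toFun y
    by_cases hwin : (F.B b).al ≤ z (F.B b).j ∧ z (F.B b).j ≤ (F.B b).be
    · rw [hT.full' ⟨hwin, hfull z h⟩]
      exact hupd z h _ (hok.win' hwin)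
    · rw [hT.off' z (hout z h hwin)]
      exact h
  · by_cases hwin : (F.B b).al ≤ y (F.B b).j ∧ y (F.B b).j ≤ (F.B b).be
    · rw [hT.full ⟨hwin, hfull y h⟩]
      exact hupd y h _ (hok.win hwin)
    · rw [hT.off y (hout y h hwin)]
      exact h
  · unfold sgσ
    split_ifs
    · exact hok.strictMono
    · exact strictMono_id

end fam

variable {Ω Λ : Set V} {v : V} {K : BoxCx Λ v} {S : Rad K} {W : Wid K S} {B : Boxes W}
  {G : Geo B} {L : PLev G} {S₀ : Set K.S}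

section sg3

variable {F : Bool → BFam 3 S₀ Λ} {ς : Bool → S₀ → ℝ} {T : Bool → ConHomeo Λ Λ}

/-- the factors of the composition of the second staircases in the plate `s` -/
noncomputable def sgPσ (F : Bool → BFam 3 S₀ Λ) (ς : Bool → S₀ → ℝ) (s : S₀) (l : Fin 3)
    (t : ℝ) : ℝ := sgσ (F true) (ς true) s l (sgσ (F false) (ς false) s l t)

theorem Sg3_prodOn_one (P : RP.Sg3 L S₀ F ς T) (β : Bool) (s : S₀) {c d : ℝ} (hc : 7 / 8 ≤ c)
    (hc2 : c ≤ 2) (hd : d ≤ 1) : ProdOn Λ (T β).toFun (sgσ (F β) (ς β) s) (HB G c d s.1) := by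
  have hp := Geo.p_pos (G := G) s.1
  have hpa := Geo.p_a (G := G) s.1
  have hcp : c * G.p s.1 ≤ 2 * G.p s.1 := mul_le_mul_of_nonneg_right hc2 hp.le
  have hcp' : 7 / 8 * G.p s.1 ≤ c * G.p s.1 := mul_le_mul_of_nonneg_right hc hp.le
  have hdτ : d * B.τ s.1 ≤ 1 * B.τ s.1 := mul_le_mul_of_nonneg_right hd (B.τ_pos s.1).le
  have hB := P.B β s
  refine prodOn_of_isSg (P.isS β) (HB_sub hc hd s.1) ?_ ?_ ?_
  · rw [hB.j, hB.al, hB.be]
    have hn := tg_ne s.1 β
    constructor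
    · show hlo G c d s.1 (tg s.1 β) ≤ K.slo s.1 (tg s.1 β) + G.a s.1
      unfold hlo
      rw [if_neg hn]
      linarith
    · show K.shi s.1 (tg s.1 β) - G.a s.1 ≤ hhi G c d s.1 (tg s.1 β)
      unfold hhi
      rw [if_neg hn]
      linarith
  · rw [hB.lo, hB.hi]
    intro i _
    show (if i = K.nrm s.1 then K.slo s.1 i - B.τ s.1 else
        K.slo s.1 i + 7 / 8 * G.p s.1) ≤ hlo G c d s.1 i ∧ hhi G c d s.1 i ≤
      (if i = K.nrm s.1 then K.slo s.1 i + B.τ s.1 else K.shi s.1 i - 7 / 8 * G.p s.1)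
    unfold hlo hhi
    by_cases hi : i = K.nrm s.1
    · simp only [if_pos hi]
      constructor <;> linarith
    · simp only [if_neg hi]
      constructor <;> linarith
  · intro b' hb y hy hK
    exact hb (Subtype.ext (PK_unique (PLev.mem_bxK.1 ((P.B β b').sub_K hK)).1
      (PB_sub_PK (by linarith) s.1 (HB_PB le_rfl hd _ hy))))

/-- **the second staircases in a plate are a product map** -/
theorem Sg3_prodOn (P : RP.Sg3 L S₀ F ς T) (s : S₀) {c d : ℝ} (hc : 7 / 8 ≤ c) (hc2 : c ≤ 2)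
    (hd : d ≤ 1) : ProdOn Λ (PS.map T) (sgPσ F ς s) (HB G c d s.1) :=
  (Sg3_prodOn_one P true s hc hc2 hd).comp (Sg3_prodOn_one P false s hc hc2 hd) (T false).mapsTo

theorem Sg3_sgPσ_tg (P : RP.Sg3 L S₀ F ς T) (s : S₀) (β : Bool) (t : ℝ) :
    sgPσ F ς s (tg s.1 β) t = RP.Sg3.fn F ς β s t := by
  have e : ∀ β', ((F β').B s).j = tg s.1 β' := fun β' => (P.B β' s).j
  unfold sgPσ
  cases β
  · have h1 : sgσ (F false) (ς false) s (tg s.1 false) = RP.Sg3.fn F ς false s := by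
      unfold sgσ
      rw [if_pos (e false).symm]
      rfl
    have h2 : sgσ (F true) (ς true) s (tg s.1 false) = fun t => t := by
      unfold sgσ
      rw [if_neg (by rw [e]; exact tg_ne_not s.1 false)]
    rw [h1, h2]
  · have h1 : sgσ (F true) (ς true) s (tg s.1 true) = RP.Sg3.fn F ς true s := by
      unfold sgσ
      rw [if_pos (e true).symm]
      rfl
    have h2 : sgσ (F false) (ς false) s (tg s.1 true) = fun t => t := by
      unfold sgσ
      rw [if_neg (by rw [e]; exact tg_ne_not s.1 true)]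
    rw [h1, h2]

theorem Sg3_sgPσ_nrm (P : RP.Sg3 L S₀ F ς T) (s : S₀) (t : ℝ) :
    sgPσ F ς s (K.nrm s.1) t = t := by
  have e : ∀ β', ((F β').B s).j = tg s.1 β' := fun β' => (P.B β' s).j
  have h : ∀ β', sgσ (F β') (ς β') s (K.nrm s.1) = fun t => t := fun β' => by
    unfold sgσ
    rw [if_neg (by rw [e]; exact (tg_ne s.1 β').symm)]
  unfold sgPσ
  rw [h, h]

/-- the bands after the second staircase -/
noncomputable def pwσ (L : PLev G) (F : Bool → BFam 3 S₀ Λ) (ς : Bool → S₀ → ℝ) (s : S₀)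
    (i : PI L s.1) : ℝ := pwid L (fun β => ς β s * (F β).e s) s.1 i

/-- the band of the target is the image of the band `pwid e` -/
theorem Sg3_band (P : RP.Sg3 L S₀ F ς T) (s : S₀) (i : PI L s.1) (t : ℝ) :
    |sgPσ F ς s (tg s.1 i.1) t - pcen L s.1 i| ≤ pwσ L F ς s i ↔
      |t - pcen L s.1 i| ≤ pwid L (fun β => (F β).e s) s.1 i := by
  obtain ⟨β, k⟩ := i
  have hB := P.B β s
  have h1 := ((P.isS β).ok s).mem_bnd (k := k) (by rw [hB.N]; exact k.2) (t := t)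
  rw [Sg3_sgPσ_tg P s β t]
  show |RP.Sg3.fn F ς β s t - bc (L.N s.1 β) (K.slo s.1 (tg s.1 β) + G.a s.1)
      (K.shi s.1 (tg s.1 β) - G.a s.1) k| ≤ bw (L.N s.1 β) (K.slo s.1 (tg s.1 β) + G.a s.1)
      (K.shi s.1 (tg s.1 β) - G.a s.1) (ς β s * (F β).e s) ↔
    |t - bc (L.N s.1 β) (K.slo s.1 (tg s.1 β) + G.a s.1) (K.shi s.1 (tg s.1 β) - G.a s.1) k| ≤
      bw (L.N s.1 β) (K.slo s.1 (tg s.1 β) + G.a s.1) (K.shi s.1 (tg s.1 β) - G.a s.1)
        ((F β).e s)
  rw [← mem_bnd_iff, ← mem_bnd_iff]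
  unfold RP.Sg3.fn
  rw [hB.N, hB.al, hB.be] at h1 ⊢
  exact h1

end sg3

variable {φ : Set K.S} {F Fσ : Bool → BFam 3 S₀ Λ} {ς : Bool → S₀ → ℝ}
  {T Tσ : Bool → ConHomeo Λ Λ} {M : Mesh Ω} {κ₀ κ₁ : V → V} {c d : ℝ} {Zb : S₀ → Set M.ι}
  {h2 h3 h4 : ConHomeo Ω Λ} {u : V}

/-- **[KEEP] after the second staircases**: `f5 = S_σ ∘ h5`, for the bands with half width
`stp / 2 - ς e'` -/
theorem HkGF.keepσ {H : HkG M L (Subtype.val : S₀ → K.S) F T κ₀ κ₁ c d Zb h2 h3 h4 u}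
    {hΩ : IsOpen Ω} {r q : S₀ → ℝ} {h5 f5 : ConHomeo Ω Λ} (O : HkGF H hΩ r q h5)
    (P : RP.Sg3 L S₀ Fσ ς Tσ) (hf5 : ∀ x ∈ Ω, f5.toFun x = PS.map Tσ (h5.toFun x)) (s : S₀)
    (r0 : 0 ≤ r s) (r1 : r s < 1) (q1 : q s ≤ 1) {X : Bool}
    (he : ∀ k, pwid L (fun β => (Fσ β).e s) s.1 ⟨X, k⟩ ≤
      q s * r s * pwid L (fun β => (F β).e s) s.1 ⟨X, k⟩)
    {T' : Set (Fin 3 → ℝ)} (hN : ((H.hookIn s).boxK hΩ).Near X T') {Z : Set V} (hZ : Z ⊆ Ω)
    (hZV : ∀ i ∈ Zb s, Disjoint Z (interior (M.Q i)))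
    (hg : h3.toFun '' Z = Pre (κ₁ ∘ κ₀) Λ h2 Z) :
    BandInv (fun i : {i : PI L s.1 // i.1 = X} => i.1.1) (tg s.1)
      (fun i => pcen L s.1 i.1) (fun i => pwσ L Fσ ς s i.1)
      ((phook M L (Subtype.val : S₀ → K.S) F c d Zb s).U h4) f5.toFun
      {x | x ∈ Z ∧ h4.toFun x ∈ T'} := by
  have HP := Sg3_prodOn P s H.hc H.hc2 H.hd
  have hU := H.U_sub s
  refine HP.bandInv hf5 hU (fun x hx => ?_) (fun i t ht => ?_)
    (O.keep s r0 r1 q1 hN hZ hZV hg)
  · rw [hf5 x (hU hx), HP.mem _ (h5.mapsTo (hU hx)), O.mem_box s (hU hx)]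
    exact (H.mem_U s (hU hx)).1 hx
  · have h1 := (Sg3_band P s i.1 t).1 ht
    refine h1.trans ?_
    obtain ⟨⟨β, k⟩, hi⟩ := i
    have hβ : β = X := hi
    subst hβ
    exact he k

end P073.H919
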