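import Vale.Agent.P073.H919.P45

/-!
# P073, block H919: ROUND P with other staircases outside of the hook boxes

`exists_p45w`: as `exists_p45`, but `h4 = PS.map T₂ ∘ h3` with staircases `T₂` which agree with the
maps `T` of `PS3` near the hook boxes only. With `h3' = (PS.map T)⁻¹ ∘ h4` everything behind `h4`
is the landed theory: `h4 = PS.map T ∘ h3'`, and `h3' = h3` where `h4` is in a hook box.
-/

open Set Metric Topology Filter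
open scoped ENNReal

set_option linter.unusedSectionVars false

namespace P073.H919

open P073 P073.Net P073.PA691 P073.H936 P073.H936.K3 P073.H142 P073.H880 P073.H880.RP P073.H345
  P073.H236 P073.H579 P073.H950 P073.H228
open Vale.Agent.P073.St (V)
open Vale.Agent.P073.H73 (Mesh)
open Vale.Agent.P073.H471 Vale.Agent.P073.H267
open Vale.Agent.P073.H193 (Edges)

variable {Ω Λ : Set V} {v : V} {K : BoxCx Λ v} {S : Rad K} {W : Wid K S} {B : Boxes W}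
  {G : Geo B} {L : PLev G} {M : Mesh Ω} {E : Edges M} {D : Dat K M} {h1 h2 h3 : ConHomeo Ω Λ}
  {u : V}

/-- `h3' = (PS.map T)⁻¹ ∘ h4` -/
noncomputable def h3w (T : Bool → ConHomeo Λ Λ) (h4 : ConHomeo Ω Λ) : ConHomeo Ω Λ :=
  h4.trans ((T false).trans (T true)).symm

theorem h3w_map (T : Bool → ConHomeo Λ Λ) (h4 : ConHomeo Ω Λ) {x : V} (hx : x ∈ Ω) :
    h4.toFun x = PS.map T ((h3w T h4).toFun x) :=
  (((T false).trans (T true)).right_inv (h4.mapsTo hx)).symm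

theorem h3w_eq {T T₂ : Bool → ConHomeo Λ Λ} {h3 h4 : ConHomeo Ω Λ}
    (hh4 : ∀ x ∈ Ω, h4.toFun x = PS.map T₂ (h3.toFun x)) {x : V} (hx : x ∈ Ω)
    (h : PS.map T (h3.toFun x) = PS.map T₂ (h3.toFun x)) :
    (h3w T h4).toFun x = h3.toFun x := by
  show ((T false).trans (T true)).invFun (h4.toFun x) = h3.toFun x
  rw [hh4 x hx, ← h]
  exact ((T false).trans (T true)).left_inv (h3.mapsTo hx)

/-- **ROUND P after the insertion, with the staircases `T₂`** -/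
theorem exists_p45w (hΩ : IsOpen Ω) {hΛ : IsOpen Λ} {c : K.S → Bool → ℝ} {c0 : ∀ s β, 0 < c s β}
    {c1 : ∀ s β, c s β ≤ L.c s β} {κ : Bool → V → V} {Θ : Bool → ConHomeo Λ Λ}
    {GE : E.ε → (V → V) → Prop} {GF : M.κ → (V → V) → Prop}
    (I : PIns G E D L hΛ h1 h2 c c0 c1 κ Θ GE GF h3)
    {F : Bool → BFam 3 D.S₀ Λ} {T : Bool → ConHomeo Λ Λ} (P : PS3 (thinL L c c0 c1) D.S₀ F T)
    {T₂ : Bool → ConHomeo Λ Λ}
    (hT : ∀ s ∈ D.S₀, ∀ y ∈ Λ, PS.map T₂ y ∈ HB G (29 / 32) (3 / 4) s → PS.map T y = PS.map T₂ y)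
    (hcube : ∀ i ∈ D.Zd, i ∉ D.Pr → ∃ m z, M.Q i = dyc u m z) {r q : D.S₀ → ℝ}
    (r0 : ∀ s, 0 < r s) (r1 : ∀ s, r s < 1) (q0 : ∀ s, 0 < q s) (q1 : ∀ s, q s < 1) :
    ∃ h4 : ConHomeo Ω Λ, (∀ x ∈ Ω, h4.toFun x = PS.map T₂ (h3.toFun x)) ∧
    ∃ h3' : ConHomeo Ω Λ, (∀ x ∈ Ω, h4.toFun x = PS.map T (h3'.toFun x)) ∧
      (∀ x ∈ Ω, PS.map T (h3.toFun x) = PS.map T₂ (h3.toFun x) → h3'.toFun x = h3.toFun x) ∧
      (∀ s ∈ D.S₀, ∀ x ∈ Ω, h4.toFun x ∈ HB G (29 / 32) (3 / 4) s →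
        h3'.toFun x = h3.toFun x) ∧
    ∃ H : HkG M (thinL L c c0 c1) (Subtype.val : D.S₀ → K.S) F T (κ false) (κ true) (29 / 32)
      (3 / 4) (ZbP G D h4) h2 h3' h4 u,
    ∃ h5 : ConHomeo Ω Λ, HkGF H hΩ r q h5 ∧ HkGO H hΩ r h5 ∧
    ∃ K₂ : D.S₀ → ℝ, (∀ s, 0 < K₂ s) ∧
      (∀ s : D.S₀, ∀ x ∈ Ω, h5.toFun x ∈ PK G s.1 →
        ∀ᶠ y in 𝓝 x, ‖h5.toFun y - h5.toFun x‖ ≤ K₂ s * ‖y - x‖) ∧
    ∃ (p0 : ∀ s, 0 < q s * r s) (p1 : ∀ s, q s * r s < 1),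
    ∀ ε : D.S₀ → ℝ, (∀ s, 0 < ε s) →
    ∃ ς : Bool → D.S₀ → ℝ, (∀ β s, 0 < ς β s) ∧ (∀ β s, ς β s ≤ 1) ∧
      (∀ β s, ς β s * K₂ s ≤ ε s) ∧ (∀ β s, ς β s ≤ ε s) ∧
    ∃ Tσ : Bool → ConHomeo Λ Λ,
      RP.Sg3 (thinL L c c0 c1) D.S₀ (fun β => sfam (F β) (fun s => q s * r s) p0 p1) ς Tσ ∧
    ∃ f5 : ConHomeo Ω Λ, ∀ x ∈ Ω, f5.toFun x = PS.map Tσ (h5.toFun x) := by
  set h4 : ConHomeo Ω Λ := (h3.trans (T₂ false)).trans (T₂ true) with hh4d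
  have hh4 : ∀ x ∈ Ω, h4.toFun x = PS.map T₂ (h3.toFun x) := fun x _ => rfl
  have heq : ∀ s ∈ D.S₀, ∀ x ∈ Ω, h4.toFun x ∈ HB G (29 / 32) (3 / 4) s →
      (h3w T h4).toFun x = h3.toFun x := by
    intro s hs x hx h
    rw [hh4 x hx] at h
    exact h3w_eq hh4 hx (hT s hs _ (h3.mapsTo hx) h)
  have H : HkG M (thinL L c c0 c1) (Subtype.val : D.S₀ → K.S) F T (κ false) (κ true) (29 / 32)
      (3 / 4) (ZbP G D h4) h2 (h3w T h4) h4 u :=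
    { hΛ := hΛ
      P := PSt.of_PS3 P
      q₀ := I.isQ false
      q₁ := I.isQ true
      surj := I.ins2.surj
      map := fun x hx => h3w_map T h4 hx
      hc := by norm_num
      hc2 := by norm_num
      hd0 := by norm_num
      hd := by norm_num
      face := fun s i hi k hk => by
        rw [← I.out.img_face k]
        refine image_congr fun x hx => heq s.1 s.2 x (M.sub i (hk hx)) ?_
        exact interior_subset (hi.2 ⟨x, hk hx, rfl⟩)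
      cube := fun _ i hi => hcube i hi.1.1 hi.1.2
      int := fun _ _ hi => hi.2 }
  exact ⟨h4, hh4, h3w T h4, fun x hx => h3w_map T h4 hx, fun x hx h => h3w_eq hh4 hx h, heq, H,
    exists_player hΩ H r0 r1 q0 q1⟩

end P073.H919
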