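import Vale.Agent.P073.H880.Hook1
import Vale.Agent.P073.H579.Ins
import Vale.Agent.P073.H73.K2A

/-!
# P073, block H919: [INB], the input of the hook from a mesh and from the output of INS
-/

open Set Metric Topology Filter

set_option linter.unusedSectionVars false

namespace P073.H919

open P073 P073.H936 P073.H936.K3 P073.H142 P073.H880 P073.H950
open Vale.Agent.P073.St (V)
open Vale.Agent.P073.AB (Idx)
open Vale.Agent.P073.H73 (Mesh)
open P073.Net (dyc dyo)

section inv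

variable {ι : Type*} {E : Type} [NormedAddCommGroup E] [NormedSpace ℝ E]
  {side : ι → Bool} {ax : Bool → Fin 3} {lo hi : Fin 3 → ℝ} {c w : ι → ℝ} {U : Set E}
  {h : E → Fin 3 → ℝ}

/-! ### operations with band invariant sets -/

theorem bandInv_iUnion {K : Sort*} {M : K → Set E} (hM : ∀ k, BandInv side ax c w U h (M k)) :
    BandInv side ax c w U h (⋃ k, M k) := by
  intro i x hx x' hx' h1 h2 h3 hxM
  obtain ⟨k, hk⟩ := mem_iUnion.1 hxM
  exact mem_iUnion.2 ⟨k, hM k i x hx x' hx' h1 h2 h3 hk⟩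

theorem bandInv_union {M N : Set E} (hM : BandInv side ax c w U h M)
    (hN : BandInv side ax c w U h N) : BandInv side ax c w U h (M ∪ N) := by
  intro i x hx x' hx' h1 h2 h3 hxM
  exact hxM.imp (hM i x hx x' hx' h1 h2 h3) (hN i x hx x' hx' h1 h2 h3)

theorem bandInv_inter {M N : Set E} (hM : BandInv side ax c w U h M)
    (hN : BandInv side ax c w U h N) : BandInv side ax c w U h (M ∩ N) :=
  fun i x hx x' hx' h1 h2 h3 hxM =>
    ⟨hM i x hx x' hx' h1 h2 h3 hxM.1, hN i x hx x' hx' h1 h2 h3 hxM.2⟩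

theorem bandInv_compl {M : Set E} (hM : BandInv side ax c w U h M) :
    BandInv side ax c w U h Mᶜ :=
  fun i x hx x' hx' h1 h2 h3 hxM hx'M =>
    hxM (hM i x' hx' x hx h2 h1 (fun l hl => (h3 l hl).symm) hx'M)

/-- only the points of `U` matter -/
theorem bandInv_congr {M N : Set E} (hMN : ∀ x ∈ U, (x ∈ M ↔ x ∈ N))
    (hM : BandInv side ax c w U h M) : BandInv side ax c w U h N :=
  fun i x hx x' hx' h1 h2 h3 hxM =>
    (hMN x' hx').1 (hM i x hx x' hx' h1 h2 h3 ((hMN x hx).2 hxM))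

/-- smaller domains -/
theorem bandInv_mono {U' M : Set E} (hU : U' ⊆ U) (hM : BandInv side ax c w U h M) :
    BandInv side ax c w U' h M :=
  fun i x hx x' hx' h1 h2 h3 hxM => hM i x (hU hx) x' (hU hx') h1 h2 h3 hxM

/-- maps which are equal on `U` -/
theorem bandInv_eqOn {h' : E → Fin 3 → ℝ} {M : Set E} (hh : EqOn h h' U)
    (hM : BandInv side ax c w U h M) : BandInv side ax c w U h' M := by
  intro i x hx x' hx' h1 h2 h3 hxM
  rw [← hh hx] at h1
  rw [← hh hx'] at h2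
  exact hM i x hx x' hx' h1 h2 (fun l hl => by rw [hh hx, hh hx']; exact h3 l hl) hxM

/-- **the image is a preimage of a map which is constant on the moves** -/
theorem bandInv_of_kap {α : Type*} {P : Set (Fin 3 → ℝ)} {κ : (Fin 3 → ℝ) → α} {A : Set α}
    {M : Set E}
    (hκ : ∀ i, ∀ y ∈ P, ∀ y' ∈ P, |y (ax (side i)) - c i| ≤ w i →
      |y' (ax (side i)) - c i| ≤ w i → (∀ l, l ≠ ax (side i) → y l = y' l) → κ y = κ y')
    (hU : ∀ x ∈ U, h x ∈ P) (hM : ∀ x ∈ U, (x ∈ M ↔ κ (h x) ∈ A)) :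
    BandInv side ax c w U h M := by
  intro i x hx x' hx' h1 h2 h3 hxM
  rw [hM x' hx', ← hκ i _ (hU x hx) _ (hU x' hx') h1 h2 h3, ← hM x hx]
  exact hxM

/-- **a change of the target**: the hypothesis is needed for the points of `M` only. -/
theorem bandInv_comp {S : (Fin 3 → ℝ) → Fin 3 → ℝ} {h' : E → Fin 3 → ℝ} {c' w' : ι → ℝ}
    {M : Set E} (hh : ∀ x ∈ U, h' x = S (h x)) (hM : BandInv side ax c w U h M)
    (hS : ∀ i, ∀ x ∈ U ∩ M, ∀ x' ∈ U, |S (h x) (ax (side i)) - c' i| ≤ w' i →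
      |S (h x') (ax (side i)) - c' i| ≤ w' i →
      (∀ l, l ≠ ax (side i) → S (h x) l = S (h x') l) →
      |h x (ax (side i)) - c i| ≤ w i ∧ |h x' (ax (side i)) - c i| ≤ w i ∧
        ∀ l, l ≠ ax (side i) → h x l = h x' l) :
    BandInv side ax c' w' U h' M := by
  intro i x hx x' hx' h1 h2 h3 hxM
  rw [hh x hx] at h1
  rw [hh x' hx'] at h2
  obtain ⟨e1, e2, e3⟩ := hS i x ⟨hx, hxM⟩ x' hx' h1 h2 fun l hl => by
    rw [← hh x hx, ← hh x' hx']; exact h3 l hl
  exact hM i x hx x' hx' e1 e2 e3 hxM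

end inv

section glob

variable {E : Type} [NormedAddCommGroup E] [NormedSpace ℝ E] {Ω : Set E} {Λ : Set (Fin 3 → ℝ)}
  {X : HBox} {h : ConHomeo Ω Λ}

/-- membership in `U` without the structure `In` -/
theorem mem_U_iff (hsub : X.P ⊆ Λ) {x : E} (hx : x ∈ Ω) : x ∈ X.U h ↔ h.toFun x ∈ X.P := by
  constructor
  · rintro ⟨y, hy, rfl⟩
    rw [h.right_inv (hsub hy)]; exact hy
  · intro hy
    exact ⟨_, hy, h.left_inv hx⟩

theorem U_subset (hsub : X.P ⊆ Λ) : X.U h ⊆ Ω := by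
  rintro _ ⟨y, hy, rfl⟩
  exact h.mapsTo_inv (hsub hy)

/-- **band invariance from the output of INS**: in the box, the image of `M` is the preimage of a
set under a map which is constant on the moves. -/
theorem bandInv_of_image {α : Type*} {κ : (Fin 3 → ℝ) → α} {A : Set α} {M : Set E}
    (hsub : X.P ⊆ Λ)
    (hκ : ∀ i, ∀ y ∈ X.P, ∀ y' ∈ X.P, |y (X.ax (X.side i)) - X.c i| ≤ X.w i →
      |y' (X.ax (X.side i)) - X.c i| ≤ X.w i → (∀ l, l ≠ X.ax (X.side i) → y l = y' l) →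
      κ y = κ y')
    (hMΩ : M ⊆ Ω) (hM : ∀ y ∈ X.P, (y ∈ h.toFun '' M ↔ κ y ∈ A)) :
    BandInv X.side X.ax X.c X.w (X.U h) h.toFun M := by
  refine bandInv_of_kap (A := A) hκ (fun x hx => ?_) fun x hx => ?_
  · exact (mem_U_iff hsub (U_subset hsub hx)).1 hx
  · have hxΩ := U_subset hsub hx
    rw [← hM _ ((mem_U_iff hsub hxΩ).1 hx)]
    constructor
    · intro hxM
      exact ⟨x, hxM, rfl⟩
    · rintro ⟨z, hz, hzx⟩
      rwa [← h.injOn (hMΩ hz) hxΩ hzx]

/-- the same for 579's `Pre` (`h₀` is the map before the insertion) -/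
theorem bandInv_of_pre {Λ₀ : Set (Fin 3 → ℝ)} {κ : (Fin 3 → ℝ) → Fin 3 → ℝ} {h₀ : ConHomeo Ω Λ₀}
    {M : Set E} (hsub : X.P ⊆ Λ)
    (hκ : ∀ i, ∀ y ∈ X.P, ∀ y' ∈ X.P, |y (X.ax (X.side i)) - X.c i| ≤ X.w i →
      |y' (X.ax (X.side i)) - X.c i| ≤ X.w i → (∀ l, l ≠ X.ax (X.side i) → y l = y' l) →
      κ y = κ y')
    (hMΩ : M ⊆ Ω) (hM : h.toFun '' M = H579.Pre κ Λ h₀ M) :
    BandInv X.side X.ax X.c X.w (X.U h) h.toFun M :=
  bandInv_of_image (A := h₀.toFun '' M) hsub hκ hMΩ fun y hy => by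
    rw [hM]
    exact ⟨fun hy => hy.2, fun hy' => ⟨hsub hy, hy'⟩⟩

end glob

/-! ### the cells of a mesh -/

section mesh

variable {Ω Λ : Set V} (M : Mesh Ω)

/-- **the frontier of a cell is the union of its faces** -/
theorem frontier_eq (i : M.ι) : frontier (M.Q i) = ⋃ k : {k // M.F k ⊆ M.Q i}, M.F k.1 := by
  ext x
  constructor
  · intro hx
    obtain ⟨k, hk, hk2⟩ := M.bd i x hx
    exact mem_iUnion.2 ⟨⟨k, hk2⟩, hk⟩
  · intro hx
    obtain ⟨⟨k, hk⟩, hxk⟩ := mem_iUnion.1 hx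
    refine ⟨subset_closure (hk hxk), fun hint => ?_⟩
    obtain ⟨a, b, hab, hFab⟩ := M.two k
    have key : ∀ a, a ≠ i → M.F k ⊆ M.Q a → False := fun a ha hFa =>
      disjoint_left.1 (M.disj i a ha.symm) hint (hFa hxk)
    by_cases ha : a = i
    · exact key b (fun hb => hab (ha.trans hb.symm)) (hFab.trans inter_subset_right)
    · exact key a ha (hFab.trans inter_subset_left)

/-- points of another cell are not in the interior of a cell -/
theorem not_interior_of_cell {i i' : M.ι} (h : i' ≠ i) {x : V} (hx : x ∈ M.Q i') :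
    x ∉ interior (M.Q i) := fun hi => disjoint_left.1 (M.disj i i' h.symm) hi hx

/-- points of a face are not in the interior of a cell -/
theorem not_interior_of_face (i : M.ι) {k : M.κ} {x : V} (hx : x ∈ M.F k) :
    x ∉ interior (M.Q i) := by
  intro hi
  obtain ⟨a, b, hab, hF⟩ := M.two k
  by_cases ha : a = i
  · exact not_interior_of_cell M (fun hb => hab (ha.trans hb.symm)) (hF hx).2 hi
  · exact not_interior_of_cell M ha (hF hx).1 hi

/-- the faces of a cell are band invariant: so is the frontier -/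
theorem bandInv_frontier {ι : Type*} {side : ι → Bool} {ax : Bool → Fin 3} {c w : ι → ℝ}
    {U : Set V} {h : V → Fin 3 → ℝ} (i : M.ι)
    (hF : ∀ k, M.F k ⊆ M.Q i → BandInv side ax c w U h (M.F k)) :
    BandInv side ax c w U h (frontier (M.Q i)) := by
  rw [frontier_eq M i]
  exact bandInv_iUnion fun k => hF k.1 k.2

variable {M} {h : ConHomeo Ω Λ} {v : V}

/-- only finitely many cells meet the box -/
theorem finite_cells {X : HBox} (hsub : X.P ⊆ Λ) : {i | (M.Q i ∩ X.U h).Nonempty}.Finite :=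
  M.fin _ (U_subset hsub)
    (X.isCompact_P.image_of_continuousOn (h.cont_inv.mono hsub))

/-- **the input of the hook from a mesh**: the cells are dyadic cubes with images in the interior
of the box, and their faces are band invariant. -/
noncomputable def inOfMesh (X : HBox) (H : Bands X.side X.ax X.lo X.hi X.c X.w) (hsub : X.P ⊆ Λ)
    (cell : X.Q → M.ι) (hinj : Function.Injective cell) (idx : X.Q → Idx)
    (hQ : ∀ q, M.Q (cell q) = dyc v (idx q).1 (idx q).2)
    (hint : ∀ q, h.toFun '' M.Q (cell q) ⊆ interior X.P)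
    (hF : ∀ q k, M.F k ⊆ M.Q (cell q) →
      BandInv X.side X.ax X.c X.w (X.U h) h.toFun (M.F k)) : X.In h where
  H := H
  sub := hsub
  K := dyCells v idx
    (by
      classical
      have h1 := (finite_cells (M := M) (h := h) hsub).to_subtype
      refine Finite.of_injective (β := {i | (M.Q i ∩ X.U h).Nonempty})
        (fun q => ⟨cell q, ?_⟩) fun q q' hqq => hinj (congrArg Subtype.val hqq)
      have h2 : (M.Q (cell q)).Nonempty := by
        rw [hQ q, ← closure_dyo', ← interior_dyc']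
        rw [← Chart.dyc_eq, interior_closedBall _ (Chart.half_pos' _).ne']
        exact ⟨_, subset_closure (mem_ball_self (Chart.half_pos' _))⟩
      obtain ⟨x, hx⟩ := h2
      exact ⟨x, hx, (mem_U_iff hsub (M.sub _ hx)).2
        (interior_subset (hint q ⟨x, hx, rfl⟩))⟩)
    (by
      intro q q' hne
      have h1 := M.disj (cell q) (cell q') fun e => hne (hinj e)
      rw [hQ q, hQ q', interior_dyc'] at h1
      exact h1.mono_right fun x hx => by
        rw [← closure_dyo']; exact subset_closure hx)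
    (by
      intro q x hx
      rw [← hQ q] at hx
      exact (mem_U_iff hsub (M.sub _ hx)).2 (interior_subset (hint q ⟨x, hx, rfl⟩)))
    (by
      intro q
      rw [disjoint_left]
      rintro _ hx ⟨y, hy, rfl⟩
      rw [← hQ q] at hx
      have h1 := hint q ⟨_, hx, rfl⟩
      rw [h.right_inv (hsub (isClosed_Icc.frontier_subset hy))] at h1
      exact hy.2 h1)
  hK := by
    intro q
    show BandInv X.side X.ax X.c X.w (X.U h) h.toFun (frontier (dyc v (idx q).1 (idx q).2))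
    rw [← hQ q]
    exact bandInv_frontier M _ (hF q)

theorem inOfMesh_C {X : HBox} {H : Bands X.side X.ax X.lo X.hi X.c X.w} {hsub : X.P ⊆ Λ}
    {cell : X.Q → M.ι} {hinj : Function.Injective cell} {idx : X.Q → Idx}
    {hQ : ∀ q, M.Q (cell q) = dyc v (idx q).1 (idx q).2}
    {hint : ∀ q, h.toFun '' M.Q (cell q) ⊆ interior X.P}
    {hF : ∀ q k, M.F k ⊆ M.Q (cell q) →
      BandInv X.side X.ax X.c X.w (X.U h) h.toFun (M.F k)} (q : X.Q) :
    (inOfMesh (v := v) X H hsub cell hinj idx hQ hint hF).K.C q = M.Q (cell q) := (hQ q).symm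

theorem inOfMesh_K {X : HBox} {H : Bands X.side X.ax X.lo X.hi X.c X.w} {hsub : X.P ⊆ Λ}
    {cell : X.Q → M.ι} {hinj : Function.Injective cell} {idx : X.Q → Idx}
    {hQ : ∀ q, M.Q (cell q) = dyc v (idx q).1 (idx q).2}
    {hint : ∀ q, h.toFun '' M.Q (cell q) ⊆ interior X.P}
    {hF : ∀ q k, M.F k ⊆ M.Q (cell q) →
      BandInv X.side X.ax X.c X.w (X.U h) h.toFun (M.F k)} (q : X.Q) :
    (inOfMesh (v := v) X H hsub cell hinj idx hQ hint hF).K.chart q =
      (Chart.dya v (idx q)).cast rfl (frontier_dyc' v _ _).symm := rfl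

/-- the box with the cells `Zb` of the mesh -/
def mbox (M : Mesh Ω) (Zb : Set M.ι) (ι : Type) [Fintype ι] (side : ι → Bool) (ax : Bool → Fin 3)
    (lo hi : Fin 3 → ℝ) (c w : ι → ℝ) : HBox where
  ι := ι
  Q := {i : M.ι // i ∈ Zb}
  side := side
  ax := ax
  lo := lo
  hi := hi
  c := c
  w := w

/-- **[INB]**: the input of the hook for the box with the cells `Zb` of the mesh -/
noncomputable def mboxIn {Zb : Set M.ι} {ι : Type} [Fintype ι] {side : ι → Bool}
    {ax : Bool → Fin 3} {lo hi : Fin 3 → ℝ} {c w : ι → ℝ} (H : Bands side ax lo hi c w)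
    (hsub : Icc lo hi ⊆ Λ) (idx : M.ι → Idx)
    (hQ : ∀ i ∈ Zb, M.Q i = dyc v (idx i).1 (idx i).2)
    (hint : ∀ i ∈ Zb, h.toFun '' M.Q i ⊆ interior (Icc lo hi))
    (hF : ∀ i ∈ Zb, ∀ k, M.F k ⊆ M.Q i →
      BandInv side ax c w (h.invFun '' Icc lo hi) h.toFun (M.F k)) :
    (mbox M Zb ι side ax lo hi c w).In h :=
  inOfMesh (v := v) (mbox M Zb ι side ax lo hi c w) H hsub Subtype.val Subtype.val_injective
    (fun q => idx q.1) (fun q => hQ q.1 q.2) (fun q => hint q.1 q.2)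
    fun q k hk => hF q.1 q.2 k hk

theorem mboxIn_C {Zb : Set M.ι} {ι : Type} [Fintype ι] {side : ι → Bool}
    {ax : Bool → Fin 3} {lo hi : Fin 3 → ℝ} {c w : ι → ℝ} {H : Bands side ax lo hi c w}
    {hsub : Icc lo hi ⊆ Λ} {idx : M.ι → Idx}
    {hQ : ∀ i ∈ Zb, M.Q i = dyc v (idx i).1 (idx i).2}
    {hint : ∀ i ∈ Zb, h.toFun '' M.Q i ⊆ interior (Icc lo hi)}
    {hF : ∀ i ∈ Zb, ∀ k, M.F k ⊆ M.Q i →
      BandInv side ax c w (h.invFun '' Icc lo hi) h.toFun (M.F k)}
    (q : (mbox M Zb ι side ax lo hi c w).Q) :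
    (mboxIn H hsub idx hQ hint hF).K.C q = M.Q q.1 := inOfMesh_C q

/-- a set without interior points of drawn cells -/
theorem mboxIn_off {Zb : Set M.ι} {ι : Type} [Fintype ι] {side : ι → Bool}
    {ax : Bool → Fin 3} {lo hi : Fin 3 → ℝ} {c w : ι → ℝ} {H : Bands side ax lo hi c w}
    {hsub : Icc lo hi ⊆ Λ} {idx : M.ι → Idx}
    {hQ : ∀ i ∈ Zb, M.Q i = dyc v (idx i).1 (idx i).2}
    {hint : ∀ i ∈ Zb, h.toFun '' M.Q i ⊆ interior (Icc lo hi)}
    {hF : ∀ i ∈ Zb, ∀ k, M.F k ⊆ M.Q i →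
      BandInv side ax c w (h.invFun '' Icc lo hi) h.toFun (M.F k)}
    {Z : Set V} (hZ : (∃ i, i ∉ Zb ∧ Z ⊆ M.Q i) ∨ ∃ k, Z ⊆ M.F k)
    (q : (mbox M Zb ι side ax lo hi c w).Q) {x : V} (hx : x ∈ Z) :
    x ∉ interior ((mboxIn H hsub idx hQ hint hF).K.C q) := by
  rw [mboxIn_C q]
  rcases hZ with ⟨i, hi, hZi⟩ | ⟨k, hZk⟩
  · exact not_interior_of_cell M (fun e => hi (by rw [e]; exact q.2)) (hZi hx)
  · exact not_interior_of_face M _ (hZk hx)

end mesh

end P073.H919

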