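import Vale.Agent.P073.H919.PEx
import Vale.Agent.P073.H880.RP4

/-!
# P073, block H919: **[P-45]**, ROUND P for `K3C` after the insertion

`exists_p45`: the staircases (`h4`), the hypotheses of the hook for the drawn set
`ZbP s = {i ∈ Zd \ Pr | h4 '' Q i ⊆ interior (HB (29 / 32) (3 / 4) s)}`, the hook with fibres (`h5`)
and the second staircases (`f5`), from the output `PIns` of the insertion.
-/

open Set Metric Topology Filter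
open scoped ENNReal

set_option linter.unusedSectionVars false

namespace P073.H919

open P073 P073.Net P073.PA691 P073.H936 P073.H936.K3 P073.H142 P073.H880 P073.H880.RP P073.H345
  P073.H236 P073.H579 P073.H950 P073.H228
open Vale.Agent.P073.St (V)
open Vale.Agent.P073.H73 (Mesh)
open Vale.Agent.P073.H471 Vale.Agent.P073.H267
open Vale.Agent.P073.H193 (Edges)

variable {Ω Λ : Set V} {v : V} {K : BoxCx Λ v} {S : Rad K} {W : Wid K S} {B : Boxes W}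
  {G : Geo B} {L : PLev G} {M : Mesh Ω} {E : Edges M} {D : Dat K M} {h1 h2 h3 : ConHomeo Ω Λ}
  {u : V}

/-- the cells drawn in the plate `s` -/
def ZbP (G : Geo B) (D : Dat K M) (h4 : ConHomeo Ω Λ) (s : D.S₀) : Set M.ι :=
  {i | (i ∈ D.Zd ∧ i ∉ D.Pr) ∧ h4.toFun '' M.Q i ⊆ interior (HB G (29 / 32) (3 / 4) s.1)}

/-- **the hypotheses of the hook, from the output of the insertion** -/
theorem hkG_of_ins {hΛ : IsOpen Λ} {c : K.S → Bool → ℝ} {c0 : ∀ s β, 0 < c s β}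
    {c1 : ∀ s β, c s β ≤ L.c s β} {κ : Bool → V → V} {Θ : Bool → ConHomeo Λ Λ}
    {GE : E.ε → (V → V) → Prop} {GF : M.κ → (V → V) → Prop}
    (I : PIns G E D L hΛ h1 h2 c c0 c1 κ Θ GE GF h3)
    {F : Bool → BFam 3 D.S₀ Λ} {T : Bool → ConHomeo Λ Λ} (P : PS3 (thinL L c c0 c1) D.S₀ F T)
    {h4 : ConHomeo Ω Λ} (hh4 : ∀ x ∈ Ω, h4.toFun x = PS.map T (h3.toFun x))
    (hcube : ∀ i ∈ D.Zd, i ∉ D.Pr → ∃ m z, M.Q i = dyc u m z) :
    HkG M (thinL L c c0 c1) (Subtype.val : D.S₀ → K.S) F T (κ false) (κ true) (29 / 32) (3 / 4)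
      (ZbP G D h4) h2 h3 h4 u where
  hΛ := hΛ
  P := PSt.of_PS3 P
  q₀ := I.isQ false
  q₁ := I.isQ true
  surj := I.ins2.surj
  map := hh4
  hc := by norm_num
  hc2 := by norm_num
  hd0 := by norm_num
  hd := by norm_num
  face := fun _ _ _ k _ => I.out.img_face k
  cube := fun _ i hi => hcube i hi.1.1 hi.1.2
  int := fun _ _ hi => hi.2

/-- **ROUND P after the insertion**: staircases, hook with fibres, second staircases -/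
theorem exists_p45 (hΩ : IsOpen Ω) {hΛ : IsOpen Λ} {c : K.S → Bool → ℝ} {c0 : ∀ s β, 0 < c s β}
    {c1 : ∀ s β, c s β ≤ L.c s β} {κ : Bool → V → V} {Θ : Bool → ConHomeo Λ Λ}
    {GE : E.ε → (V → V) → Prop} {GF : M.κ → (V → V) → Prop}
    (I : PIns G E D L hΛ h1 h2 c c0 c1 κ Θ GE GF h3)
    {F : Bool → BFam 3 D.S₀ Λ} {T : Bool → ConHomeo Λ Λ} (P : PS3 (thinL L c c0 c1) D.S₀ F T)
    (hcube : ∀ i ∈ D.Zd, i ∉ D.Pr → ∃ m z, M.Q i = dyc u m z) {r q : D.S₀ → ℝ}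
    (r0 : ∀ s, 0 < r s) (r1 : ∀ s, r s < 1) (q0 : ∀ s, 0 < q s) (q1 : ∀ s, q s < 1) :
    ∃ h4 : ConHomeo Ω Λ, (∀ x ∈ Ω, h4.toFun x = PS.map T (h3.toFun x)) ∧
    ∃ H : HkG M (thinL L c c0 c1) (Subtype.val : D.S₀ → K.S) F T (κ false) (κ true) (29 / 32)
      (3 / 4) (ZbP G D h4) h2 h3 h4 u,
    ∃ h5 : ConHomeo Ω Λ, HkGF H hΩ r q h5 ∧ HkGO H hΩ r h5 ∧
    ∃ K₂ : D.S₀ → ℝ, (∀ s, 0 < K₂ s) ∧
      (∀ s : D.S₀, ∀ x ∈ Ω, h5.toFun x ∈ PK G s.1 →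
        ∀ᶠ y in 𝓝 x, ‖h5.toFun y - h5.toFun x‖ ≤ K₂ s * ‖y - x‖) ∧
    ∃ (p0 : ∀ s, 0 < q s * r s) (p1 : ∀ s, q s * r s < 1),
    ∀ ε : D.S₀ → ℝ, (∀ s, 0 < ε s) →
    ∃ ς : Bool → D.S₀ → ℝ, (∀ β s, 0 < ς β s) ∧ (∀ β s, ς β s ≤ 1) ∧
      (∀ β s, ς β s * K₂ s ≤ ε s) ∧ (∀ β s, ς β s ≤ ε s) ∧
    ∃ Tσ : Bool → ConHomeo Λ Λ,
      RP.Sg3 (thinL L c c0 c1) D.S₀ (fun β => sfam (F β) (fun s => q s * r s) p0 p1) ς Tσ ∧
    ∃ f5 : ConHomeo Ω Λ, ∀ x ∈ Ω, f5.toFun x = PS.map Tσ (h5.toFun x) := by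
  have hh4 : ∀ x ∈ Ω, ((h3.trans (T false)).trans (T true)).toFun x = PS.map T (h3.toFun x) :=
    fun x _ => rfl
  have H := hkG_of_ins I P hh4 hcube
  exact ⟨_, hh4, H, exists_player hΩ H r0 r1 q0 q1⟩

end P073.H919
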