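import Vale.Agent.P073.H228.EdgeP5A
import Vale.Agent.P073.H267.K3T2
import Vale.Agent.P073.H803.WorldB2

/-!
# P073, [EDGE-P]: the staircases of ROUND P as moves with windows

`S3.mvB_h34`: from `h3 x` to `h4 x`; `S3.mvB_h4`: from `κ (h3 x)` to `h4 x`.
-/

open Set Metric Topology Filter
open scoped ENNReal

set_option linter.unusedSectionVars false

namespace Vale.Agent.P073.H267.K3

open _root_.P073 _root_.P073.Net _root_.P073.PA691 _root_.P073.H236 _root_.P073.H579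
open _root_.P073.H142
open _root_.P073.H345 (PK tg tg_ne PLev)
open _root_.P073.H880.RP
open _root_.P073.H190 (IsS2 PT2)
open _root_.P073.H228.EP (MvB Fat mvB_isQ mvB_PT2)
open Vale.Agent.P073.H687
open Vale.Agent.P073.St (V)
open Vale.Agent.P073.H471 Vale.Agent.P073.H267
open Vale.Agent.P073.H73 (Mesh)
open Vale.Agent.P073.H193 (Edges Cyc edges)
open Vale.Agent.P073.H926
open Vale.Agent.P073.H238.K3

variable {c₀ n δ : ℝ} {j : ℕ} {Ω Λ : Set V} {v w : V} {ρ : V → ℝ} {M : Mesh Ω} {h : ConHomeo Ω Λ}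
  {J₀ J : Set (ℕ × (Fin 3 → ℤ))} {P Z : Set M.ι} {K : BoxCx Λ w}
  {D : KIn3 c₀ n j δ v w ρ M h J₀ J P Z} {C : Cells ρ w K} {C₀ μT : ℝ}
  {X : S1 D C C₀ μT} {Y₂ : S2 X} {Ys : Set M.κ} {sc : Sharp}

/-- the windows around the marked points, as intervals -/
def xw (Y₂ : S2 X) (s : K.S) (β : Bool) : Set (ℝ × ℝ) :=
  {p | ∃ q ∈ Y₂.Q s β, p = (q - Y₂.R s, q + Y₂.R s)}

/-- the ends of the windows are in no window -/
theorem xw_ends (Y₂ : S2 X) {s : K.S} {β : Bool} {p : ℝ × ℝ} (hp : p ∈ xw Y₂ s β) :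
    p.1 ∉ wnd Y₂.R Y₂.Q s β ∧ p.2 ∉ wnd Y₂.R Y₂.Q s β := by
  obtain ⟨q, hq, rfl⟩ := hp
  have key : ∀ q' ∈ Y₂.Q s β, q' ≠ q → 2 * Y₂.R s ≤ |q' - q| := fun q' hq' hne =>
    Y₂.marks.sep s β q' hq' q hq hne
  constructor
  · intro h
    obtain ⟨q', hq', h1, h2⟩ := mem_iUnion₂.1 h
    have h1' : q' - Y₂.R s < q - Y₂.R s := h1
    have h2' : q - Y₂.R s < q' + Y₂.R s := h2
    by_cases hne : q' = q
    · subst hne; exact lt_irrefl _ h1'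
    · have h3 := key q' hq' hne
      rcases abs_cases (q' - q) with ⟨h4, _⟩ | ⟨h4, _⟩ <;> linarith
  · intro h
    obtain ⟨q', hq', h1, h2⟩ := mem_iUnion₂.1 h
    have h1' : q' - Y₂.R s < q + Y₂.R s := h1
    have h2' : q + Y₂.R s < q' + Y₂.R s := h2
    by_cases hne : q' = q
    · subst hne; exact lt_irrefl _ h2'
    · have h3 := key q' hq' hne
      rcases abs_cases (q' - q) with ⟨h4, _⟩ | ⟨h4, _⟩ <;> linarith

theorem notMem_wnd_of_fat (Y₂ : S2 X) {s : K.S} {β : Bool} {t : ℝ}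
    (h : t ∉ Fat (xw Y₂) s β 0) : t ∉ wnd Y₂.R Y₂.Q s β := by
  intro hw
  obtain ⟨q, hq, h1, h2⟩ := mem_iUnion₂.1 hw
  have h1' : q - Y₂.R s < t := h1
  have h2' : t < q + Y₂.R s := h2
  exact h ⟨_, ⟨q, hq, rfl⟩, by
    show q - Y₂.R s - 0 ≤ t
    linarith, by
    show t ≤ q + Y₂.R s + 0
    linarith⟩

/-- **from `h3` to `h4`**, sharp numbers -/
theorem S3.mvB_PT (Y₃ : S3 Y₂ Ys sc) (hD : ∀ (s : (D.dat C).S₀) β,
    (Y₃.F β).D s ≤ (D.G C).oS s.1) (y : V) :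
    MvB (D.G C) (D.dat C).S₀ (xw Y₂) (fun s => (D.G C).oS s + (D.G C).oS s)
      (fun s => Y₂.muP s + Y₂.muP s) y (PS.map Y₃.T2 y) := by
  refine mvB_PT2 Y₃.pt2 (fun s => (Vale.Agent.P073.H805.oS_pos (D.G C) s).le)
    (fun s => (Y₂.muP0 s).le) (fun β s => hD s β) (fun β s p hp => ?_) (fun β s t ht => ?_) y
  · obtain ⟨h1, h2⟩ := xw_ends Y₂ hp
    exact ⟨F3W_disp_out Y₂.Lw β s h1, F3W_disp_out Y₂.Lw β s h2⟩
  · exact F3W_disp_out Y₂.Lw β s (notMem_wnd_of_fat Y₂ ht)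

/-- **from `h3 x` to `h4 x`** -/
theorem S3.mvB_h34 (Y₃ : S3 Y₂ Ys sc) (hD : ∀ (s : (D.dat C).S₀) β,
    (Y₃.F β).D s ≤ (D.G C).oS s.1) {x : V} (hx : x ∈ Ω) :
    MvB (D.G C) (D.dat C).S₀ (xw Y₂) (fun s => 3 * (D.G C).oS s)
      (fun s => 3 * Y₂.muP s) (Y₃.h3.toFun x) (Y₃.h4.toFun x) := by
  rw [Y₃.map4 x hx]
  refine (Y₃.mvB_PT hD _).mono (fun s => ?_) fun s => ?_
  · have := Vale.Agent.P073.H805.oS_pos (D.G C) s
    linarith
  · have := Y₂.muP0 s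
    linarith

/-- **from `κ (h3 x)` to `h4 x`** -/
theorem S3.mvB_h4 (Y₃ : S3 Y₂ Ys sc) (hD : ∀ (s : (D.dat C).S₀) β,
    (Y₃.F β).D s ≤ (D.G C).oS s.1) {x : V} (hx : x ∈ Ω) :
    MvB (D.G C) (D.dat C).S₀ (xw Y₂) (fun s => 3 * (D.G C).oS s)
      (fun s => 3 * Y₂.muP s) (Y₃.κ true (Y₃.κ false (Y₃.h3.toFun x))) (Y₃.h4.toFun x) := by
  rw [Y₃.map4 x hx]
  set η : K.S → ℝ := fun s => min (Y₂.muP s / 2) ((D.G C).oS s / 2) with hη
  have hη0 : ∀ s, 0 ≤ η s := fun s => by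
    have h1 := Y₂.muP0 s
    have h2 := Vale.Agent.P073.H805.oS_pos (D.G C) s
    exact le_min (by linarith) (by linarith)
  have hηm : ∀ s, η s ≤ Y₂.muP s / 2 := fun s => min_le_left _ _
  have hηo : ∀ s, η s ≤ (D.G C).oS s / 2 := fun s => min_le_right _ _
  have h1 : MvB (D.G C) (D.dat C).S₀ (xw Y₂) (fun s => η s + η s) (fun s => η s + η s)
      (Y₃.h3.toFun x) (Y₃.κ true (Y₃.κ false (Y₃.h3.toFun x))) := by
    refine mvB_isQ Y₃.ins.isQ hη0 (fun β s => ?_) _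
    have c1 := Y₃.c1 s.1 β
    have c2 : Y₂.L.c s.1 β = Y₂.dP s.1 / 8 := rfl
    have c3 := Y₂.Lw.δμ s.1
    have c4 := Y₂.Lw.δ0 s.1
    have c5 := Y₂.muJ s.1
    have c6 : Y₂.muP s.1 + Y₂.J s.1 ≤ (D.G C).oS s.1 := hD s β
    have c7 := Y₂.muP0 s.1
    refine le_min ?_ ?_
    · change 4 * Y₃.c s.1 β ≤ _
      linarith
    · change 4 * Y₃.c s.1 β ≤ _
      linarith
  refine ((h1.symm_small).trans (Y₃.mvB_PT hD _) (fun s => ?_) (fun s => ?_) (fun s => ?_)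
    fun s => ?_).mono (fun s => ?_) fun s => ?_
  · linarith [hη0 s]
  · linarith [hη0 s]
  · linarith [Vale.Agent.P073.H805.oS_pos (D.G C) s]
  · linarith [Y₂.muP0 s]
  · have := hηo s
    show η s + η s + ((D.G C).oS s + (D.G C).oS s) ≤ 3 * (D.G C).oS s
    linarith
  · have := hηm s
    show η s + η s + (Y₂.muP s + Y₂.muP s) ≤ 3 * Y₂.muP s
    linarith

end Vale.Agent.P073.H267.K3
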