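import Vale.Agent.P073.H919.HookF2

/-!
# P073, block H919: [P-HOOK-F] (4), pointwise form

`HkGF.keepσ_pt`: a passive mesh set whose part over the box lies over `T'` is invariant in the bands
of the side `X` for the map after the second staircases.
-/

open Set Metric Topology Filter MeasureTheory
open scoped ENNReal

set_option linter.unusedSectionVars false

namespace P073.H919

open P073 P073.H936 P073.H936.K3 P073.H142 P073.H880 P073.H345 P073.H236 P073.H579 P073.H950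
open Vale.Agent.P073.St (V)
open Vale.Agent.P073.H73 (Mesh)
open Vale.Agent.P073.H471 Vale.Agent.P073.H267
open P073.Net P073.PA691

variable {Ω Λ : Set V} {v : V} {K : BoxCx Λ v} {S : Rad K} {W : Wid K S} {B : Boxes W}
  {G : Geo B} {L : PLev G} {S₀ : Set K.S}
  {φ : Set K.S} {F Fσ : Bool → BFam 3 S₀ Λ} {ς : Bool → S₀ → ℝ}
  {T Tσ : Bool → ConHomeo Λ Λ} {M : Mesh Ω} {κ₀ κ₁ : V → V} {c d : ℝ} {Zb : S₀ → Set M.ι}
  {h2 h3 h4 : ConHomeo Ω Λ} {u : V}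

/-- the map after the second staircases keeps the boxes -/
theorem HkGF.mem_boxσ {H : HkG M L (Subtype.val : S₀ → K.S) F T κ₀ κ₁ c d Zb h2 h3 h4 u}
    {hΩ : IsOpen Ω} {r q : S₀ → ℝ} {h5 f5 : ConHomeo Ω Λ} (O : HkGF H hΩ r q h5)
    (P : RP.Sg3 L S₀ Fσ ς Tσ) (hf5 : ∀ x ∈ Ω, f5.toFun x = PS.map Tσ (h5.toFun x)) (s : S₀)
    {x : V} (hx : x ∈ Ω) :
    f5.toFun x ∈ HB G c d s.1 ↔ h4.toFun x ∈ HB G c d s.1 := by
  rw [hf5 x hx, (Sg3_prodOn P s H.hc H.hc2 H.hd).mem _ (h5.mapsTo hx), O.mem_box s hx]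

/-- **[P-HOOK-F] (4), pointwise** -/
theorem HkGF.keepσ_pt {H : HkG M L (Subtype.val : S₀ → K.S) F T κ₀ κ₁ c d Zb h2 h3 h4 u}
    {hΩ : IsOpen Ω} {r q : S₀ → ℝ} {h5 f5 : ConHomeo Ω Λ} (O : HkGF H hΩ r q h5)
    (P : RP.Sg3 L S₀ Fσ ς Tσ) (hf5 : ∀ x ∈ Ω, f5.toFun x = PS.map Tσ (h5.toFun x)) (s : S₀)
    (r0 : 0 ≤ r s) (r1 : r s < 1) (q1 : q s ≤ 1) {X : Bool}
    (he : ∀ k, pwid L (fun β => (Fσ β).e s) s.1 ⟨X, k⟩ ≤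
      q s * r s * pwid L (fun β => (F β).e s) s.1 ⟨X, k⟩)
    {T' : Set (Fin 3 → ℝ)} (hN : ((H.hookIn s).boxK hΩ).Near X T') {A : Set V} (hA : A ⊆ Ω)
    (hAV : ∀ i ∈ Zb s, Disjoint A (interior (M.Q i)))
    (hg : h3.toFun '' A = Pre (κ₁ ∘ κ₀) Λ h2 A)
    (hT : ∀ x ∈ A, h4.toFun x ∈ HB G c d s.1 → h4.toFun x ∈ T')
    {x x' : V} (hx : x ∈ Ω) (hx' : x' ∈ Ω) (hb : f5.toFun x ∈ HB G c d s.1)
    (hb' : f5.toFun x' ∈ HB G c d s.1)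
    (hl : ∀ l, l ≠ tg s.1 X → f5.toFun x l = f5.toFun x' l) {k : ℕ} (hk : k < L.N s.1 X)
    (h1 : f5.toFun x (tg s.1 X) ∈ bnd (L.N s.1 X) (K.slo s.1 (tg s.1 X) + G.a s.1)
      (K.shi s.1 (tg s.1 X) - G.a s.1) (ς X s * (Fσ X).e s) k)
    (h2' : f5.toFun x' (tg s.1 X) ∈ bnd (L.N s.1 X) (K.slo s.1 (tg s.1 X) + G.a s.1)
      (K.shi s.1 (tg s.1 X) - G.a s.1) (ς X s * (Fσ X).e s) k)
    (hxA : x ∈ A) : x' ∈ A := by
  have b1 := (O.mem_boxσ P hf5 s hx).1 hb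
  have b2 := (O.mem_boxσ P hf5 s hx').1 hb'
  exact (O.keepσ P hf5 s r0 r1 q1 he hN hA hAV hg ⟨⟨X, ⟨k, hk⟩⟩, rfl⟩ x
    ((H.mem_U s hx).2 b1) x' ((H.mem_U s hx').2 b2) (mem_bnd_iff.1 h1) (mem_bnd_iff.1 h2') hl
    ⟨hxA, hT x hxA b1⟩).1

end P073.H919
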