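import Vale.Agent.P073.H579.FacePat

/-!
# P073, block H919: [W3] (5), paths in a face with a pattern

* `lab L y`: twice the label of `y` with respect to the levels `L`;
* `evar_lab_le`: the variation of the label along a curve is at most twice the number of times at
  which the curve is on a level;
* `LabPath P h X n x y`: a curve in `X` from `x` to `y` along which the labels vary by at most `n`;
* **`path_of_pat`**: in a convex face with a pattern every point is joined to the boundary at the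
  price `2 (1 + number of arcs)`; `ncard_bd`: the number of level points on the boundary is twice
  the number of arcs.
-/

open Set Metric Topology Filter
open scoped ENNReal

set_option linter.unusedSectionVars false

namespace P073.H919

open P073 P073.TR P073.SCH P073.H579

/-! ### labels -/

/-- one level: `0` below, `1` on the level, `2` above -/
noncomputable def lsg (r y : ℝ) : ℝ := (if r < y then 1 else 0) + (if r ≤ y then 1 else 0)

/-- twice the label of `y` -/
noncomputable def lab (L : Finset ℝ) (y : ℝ) : ℝ :=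
  ((L.filter (· < y)).card : ℝ) + ((L.filter (· ≤ y)).card : ℝ)

theorem lab_eq_sum (L : Finset ℝ) (y : ℝ) : lab L y = ∑ r ∈ L, lsg r y := by
  unfold lab lsg
  rw [Finset.sum_add_distrib, Finset.card_filter, Finset.card_filter]
  push_cast
  rfl

theorem lsg_mono (r : ℝ) : Monotone (lsg r) := by
  intro s t hst
  unfold lsg
  split_ifs <;> first | linarith | (exfalso; linarith)

theorem lsg_nonneg (r y : ℝ) : 0 ≤ lsg r y := by
  unfold lsg
  split_ifs <;> norm_num

theorem lsg_le (r y : ℝ) : lsg r y ≤ 2 := by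
  unfold lsg
  split_ifs <;> norm_num

theorem lsg_of_lt {r y : ℝ} (h : y < r) : lsg r y = 0 := by
  unfold lsg
  rw [if_neg (by linarith), if_neg (by linarith)]
  norm_num

theorem lsg_self (r : ℝ) : lsg r r = 1 := by
  unfold lsg
  rw [if_neg (lt_irrefl _), if_pos le_rfl]
  norm_num

theorem lsg_of_gt {r y : ℝ} (h : r < y) : lsg r y = 2 := by
  unfold lsg
  rw [if_pos h, if_pos h.le]
  norm_num

theorem lab_mono (L : Finset ℝ) : Monotone (lab L) := by
  intro s t hst
  rw [lab_eq_sum, lab_eq_sum]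
  exact Finset.sum_le_sum fun r _ => lsg_mono r hst

theorem lab_nonneg (L : Finset ℝ) (y : ℝ) : 0 ≤ lab L y := by
  rw [lab_eq_sum]
  exact Finset.sum_nonneg fun r _ => lsg_nonneg r y

theorem lab_le (L : Finset ℝ) (y : ℝ) : lab L y ≤ 2 * L.card := by
  rw [lab_eq_sum]
  calc ∑ r ∈ L, lsg r y ≤ ∑ _r ∈ L, (2 : ℝ) := Finset.sum_le_sum fun r _ => lsg_le r y
    _ = 2 * L.card := by rw [Finset.sum_const, nsmul_eq_mul, mul_comm]

/-- comparison of variations -/
theorem evar_le_of_abs {f g : ℝ → ℝ} {a b : ℝ} (hab : a ≤ b)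
    (h : ∀ s ∈ Icc a b, ∀ t ∈ Icc a b, s ≤ t → |f t - f s| ≤ g t - g s) :
    eVariationOn f (Icc a b) ≤ ENNReal.ofReal (g b - g a) := by
  have hg : MonotoneOn g (Icc a b) := by
    intro s hs t ht hst
    have := (abs_nonneg _).trans (h s hs t ht hst)
    linarith
  have h1 : eVariationOn f (Icc a b) ≤ eVariationOn g (Icc a b) := by
    unfold eVariationOn
    refine iSup_mono fun p => Finset.sum_le_sum fun i _ => ?_
    obtain ⟨n, u, hu, hmem⟩ := p
    have h2 := h (u i) (hmem i) (u (i + 1)) (hmem (i + 1)) (hu (Nat.le_succ i))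
    rw [edist_dist, edist_dist, Real.dist_eq, Real.dist_eq]
    exact ENNReal.ofReal_le_ofReal (h2.trans (le_abs_self _))
  refine h1.trans ?_
  have h3 := hg.eVariationOn_le (left_mem_Icc.2 hab) (right_mem_Icc.2 hab)
  rwa [inter_self] at h3

/-- **the labels along a curve**: the change of the label is at most the change of the label of the
time with respect to the crossing times -/
theorem abs_lab_sub_le {u : ℝ → ℝ} {a b : ℝ} (hu : ContinuousOn u (Icc a b)) {L Z : Finset ℝ}
    (hZ : ∀ z ∈ Icc a b, u z ∈ L → z ∈ Z) {s t : ℝ} (hs : s ∈ Icc a b) (ht : t ∈ Icc a b)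
    (hst : s ≤ t) : |lab L (u t) - lab L (u s)| ≤ lab Z t - lab Z s := by
  classical
  have key : ∀ r ∈ L, |lsg r (u t) - lsg r (u s)| ≤
      ∑ z ∈ Z.filter (fun z => u z = r), (lsg z t - lsg z s) := by
    intro r hr
    have hpos : ∀ z ∈ Z.filter (fun z => u z = r), 0 ≤ lsg z t - lsg z s := fun z _ => by
      have := lsg_mono z hst
      linarith
    have single : ∀ z ∈ Icc a b, u z = r →
        lsg z t - lsg z s ≤ ∑ z ∈ Z.filter (fun z => u z = r), (lsg z t - lsg z s) := by
      intro z hz hzr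
      refine Finset.single_le_sum hpos (Finset.mem_filter.2 ⟨hZ z hz (hzr ▸ hr), hzr⟩)
    have hsum := Finset.sum_nonneg hpos
    rcases lt_trichotomy (u s) r with h1 | h1 | h1
    · rcases lt_trichotomy (u t) r with h2 | h2 | h2
      · rw [lsg_of_lt h1, lsg_of_lt h2, sub_self, abs_zero]
        exact hsum
      · have hne : s < t := lt_of_le_of_ne hst fun h => by rw [h] at h1; linarith
        have h3 := single t ht h2
        rw [lsg_self, lsg_of_lt hne] at h3
        rw [lsg_of_lt h1, h2, lsg_self, sub_zero, abs_one]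
        linarith
      · -- the intermediate value theorem
        have hsub : Icc s t ⊆ Icc a b := Icc_subset_Icc hs.1 ht.2
        obtain ⟨z, hz, hzr⟩ := intermediate_value_Icc hst (hu.mono hsub) ⟨h1.le, h2.le⟩
        have hz1 : s < z := lt_of_le_of_ne hz.1 fun h => by rw [← h] at hzr; linarith
        have hz2 : z < t := lt_of_le_of_ne hz.2 fun h => by rw [h] at hzr; linarith
        have h3 := single z (hsub hz) hzr
        rw [lsg_of_gt hz2, lsg_of_lt hz1] at h3
        rw [lsg_of_lt h1, lsg_of_gt h2, sub_zero]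
        rw [abs_of_nonneg (by norm_num)]
        linarith
    · rcases lt_trichotomy (u t) r with h2 | h2 | h2
      · have hne : s < t := lt_of_le_of_ne hst fun h => by rw [h] at h1; linarith
        have h3 := single s hs h1
        rw [lsg_self, lsg_of_gt hne] at h3
        rw [h1, lsg_self, lsg_of_lt h2, zero_sub, abs_neg, abs_one]
        linarith
      · rw [h1, h2, sub_self, abs_zero]
        exact hsum
      · have hne : s < t := lt_of_le_of_ne hst fun h => by rw [h] at h1; linarith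
        have h3 := single s hs h1
        rw [lsg_self, lsg_of_gt hne] at h3
        rw [h1, lsg_self, lsg_of_gt h2]
        rw [abs_of_nonneg (by norm_num)]
        linarith
    · rcases lt_trichotomy (u t) r with h2 | h2 | h2
      · have hsub : Icc s t ⊆ Icc a b := Icc_subset_Icc hs.1 ht.2
        obtain ⟨z, hz, hzr⟩ := intermediate_value_Icc' hst (hu.mono hsub) ⟨h2.le, h1.le⟩
        have hz1 : s < z := lt_of_le_of_ne hz.1 fun h => by rw [← h] at hzr; linarith
        have hz2 : z < t := lt_of_le_of_ne hz.2 fun h => by rw [h] at hzr; linarith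
        have h3 := single z (hsub hz) hzr
        rw [lsg_of_gt hz2, lsg_of_lt hz1] at h3
        rw [lsg_of_gt h1, lsg_of_lt h2, zero_sub, abs_neg]
        rw [abs_of_nonneg (by norm_num)]
        linarith
      · have hne : s < t := lt_of_le_of_ne hst fun h => by rw [h] at h1; linarith
        have h3 := single t ht h2
        rw [lsg_self, lsg_of_lt hne] at h3
        rw [lsg_of_gt h1, h2, lsg_self]
        rw [abs_sub_comm, abs_of_nonneg (by norm_num)]
        linarith
      · rw [lsg_of_gt h1, lsg_of_gt h2, sub_self, abs_zero]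
        exact hsum
  rw [lab_eq_sum, lab_eq_sum, ← Finset.sum_sub_distrib]
  refine (Finset.abs_sum_le_sum_abs _ _).trans ((Finset.sum_le_sum key).trans ?_)
  rw [lab_eq_sum, lab_eq_sum, ← Finset.sum_sub_distrib]
  -- the fibres of `u` over `L` are disjoint
  have h1 : ∑ r ∈ L, ∑ z ∈ Z.filter (fun z => u z = r), (lsg z t - lsg z s) =
      ∑ z ∈ L.biUnion fun r => Z.filter (fun z => u z = r), (lsg z t - lsg z s) := by
    rw [Finset.sum_biUnion]
    intro r _ r' _ hne
    rw [Function.onFun, Finset.disjoint_left]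
    intro z hz hz'
    exact hne ((Finset.mem_filter.1 hz).2.symm.trans (Finset.mem_filter.1 hz').2)
  rw [h1]
  refine Finset.sum_le_sum_of_subset_of_nonneg ?_ fun z _ _ => by
    have := lsg_mono z hst
    linarith
  intro z hz
  obtain ⟨r, _, hr⟩ := Finset.mem_biUnion.1 hz
  exact (Finset.mem_filter.1 hr).1

/-- **the variation of the label along a curve** is at most twice the number of the times at which
the curve is on a level -/
theorem evar_lab_le {u : ℝ → ℝ} {a b : ℝ} (hu : ContinuousOn u (Icc a b)) {L Z : Finset ℝ}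
    (hZ : ∀ z ∈ Icc a b, u z ∈ L → z ∈ Z) :
    eVariationOn (fun t => lab L (u t)) (Icc a b) ≤ 2 * (Z.card : ℝ≥0∞) := by
  rcases lt_or_ge b a with hab | hab
  · rw [Icc_eq_empty (not_le.2 hab), eVariationOn.subsingleton _ subsingleton_empty]
    exact zero_le
  refine (evar_le_of_abs (g := lab Z) hab fun s hs t ht hst => abs_lab_sub_le hu hZ hs ht hst).trans
    ?_
  have h1 : lab Z b - lab Z a ≤ 2 * (Z.card : ℝ) := by
    linarith [lab_le Z b, lab_nonneg Z a]
  refine (ENNReal.ofReal_le_ofReal h1).trans_eq ?_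
  rw [ENNReal.ofReal_mul (by norm_num), ENNReal.ofReal_natCast]
  norm_num

/-- on a level the label is constant -/
theorem evar_lab_const {u : ℝ → ℝ} {a b c : ℝ} {L : Finset ℝ} (h : ∀ t ∈ Icc a b, u t = c) :
    eVariationOn (fun t => lab L (u t)) (Icc a b) = 0 := by
  rw [eVariationOn.congr (g := fun _ => lab L c) fun t ht => by
    show lab L (u t) = lab L c
    rw [h t ht]]
  exact eVariationOn.constant_on (by
    rintro _ ⟨_, _, rfl⟩ _ ⟨_, _, rfl⟩
    rfl)

/-! ### paths -/

section Path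

variable {E : Type*} [NormedAddCommGroup E] [NormedSpace ℝ E] {κ : Type*} [Fintype κ]

/-- `x` and `y` are joined in `X` by a curve along which the labels vary by at most `n` -/
def LabPath (P : κ → Finset ℝ) (h : E → κ → ℝ) (X : Set E) (n : ℝ≥0∞) (x y : E) : Prop :=
  ∃ γ : ℝ → E, ContinuousOn γ (Icc 0 1) ∧ γ 0 = x ∧ γ 1 = y ∧ MapsTo γ (Icc 0 1) X ∧
    ∑ l, eVariationOn (fun t => lab (P l) (h (γ t) l)) (Icc 0 1) ≤ n

variable {P : κ → Finset ℝ} {h : E → κ → ℝ} {X Y : Set E} {n m : ℝ≥0∞} {x y z : E}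

theorem LabPath.mono (H : LabPath P h X n x y) (hX : X ⊆ Y) (hn : n ≤ m) :
    LabPath P h Y m x y := by
  obtain ⟨γ, h1, h2, h3, h4, h5⟩ := H
  exact ⟨γ, h1, h2, h3, h4.mono_right hX, h5.trans hn⟩

theorem LabPath.left_mem (H : LabPath P h X n x y) : x ∈ X := by
  obtain ⟨γ, -, h2, -, h4, -⟩ := H
  exact h2 ▸ h4 ⟨le_rfl, zero_le_one⟩

theorem LabPath.right_mem (H : LabPath P h X n x y) : y ∈ X := by
  obtain ⟨γ, -, -, h3, h4, -⟩ := H
  exact h3 ▸ h4 ⟨zero_le_one, le_rfl⟩

/-- a curve on any interval -/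
theorem LabPath.of_Icc {γ : ℝ → E} {a b : ℝ} (hab : a ≤ b) (hγ : ContinuousOn γ (Icc a b))
    (hX : MapsTo γ (Icc a b) X)
    (hn : ∑ l, eVariationOn (fun t => lab (P l) (h (γ t) l)) (Icc a b) ≤ n) :
    LabPath P h X n (γ a) (γ b) := by
  have hmap : MapsTo (fun t : ℝ => a + (b - a) * t) (Icc 0 1) (Icc a b) := by
    intro t ht
    have h0 : 0 ≤ b - a := by linarith
    exact ⟨by nlinarith [ht.1], by nlinarith [ht.2]⟩
  refine ⟨fun t => γ (a + (b - a) * t), hγ.comp (by fun_prop) hmap, by simp, by simp,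
    fun t ht => hX (hmap ht), le_trans (Finset.sum_le_sum fun l _ => ?_) hn⟩
  refine eVariationOn.comp_le_of_monotoneOn (fun t => lab (P l) (h (γ t) l))
    (fun t : ℝ => a + (b - a) * t) (fun s _ t _ hst => ?_) hmap
  have h0 : 0 ≤ b - a := by linarith
  show a + (b - a) * s ≤ a + (b - a) * t
  nlinarith [mul_le_mul_of_nonneg_left hst h0]

/-- a curve on any interval, backwards -/
theorem LabPath.symm (H : LabPath P h X n x y) : LabPath P h X n y x := by
  obtain ⟨γ, h1, h2, h3, h4, h5⟩ := H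
  have hmap : MapsTo (fun t : ℝ => 1 - t) (Icc 0 1) (Icc 0 1) := fun t ht =>
    ⟨by linarith [ht.2], by linarith [ht.1]⟩
  refine ⟨fun t => γ (1 - t), h1.comp (by fun_prop) hmap, by simpa using h3, by simpa using h2,
    fun t ht => h4 (hmap ht), le_trans (Finset.sum_le_sum fun l _ => ?_) h5⟩
  exact eVariationOn.comp_le_of_antitoneOn (fun t => lab (P l) (h (γ t) l))
    (fun t : ℝ => 1 - t) (fun s _ t _ hst => by show 1 - t ≤ 1 - s; linarith) hmap

theorem LabPath.refl (hx : x ∈ X) : LabPath P h X 0 x x := by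
  refine ⟨fun _ => x, continuousOn_const, rfl, rfl, fun _ _ => hx, ?_⟩
  rw [Finset.sum_eq_zero]
  intro l _
  exact eVariationOn.constant_on (by
    rintro _ ⟨_, _, rfl⟩ _ ⟨_, _, rfl⟩
    rfl)

/-- concatenation -/
theorem LabPath.trans (H : LabPath P h X n x y) (H' : LabPath P h X m y z) :
    LabPath P h X (n + m) x z := by
  obtain ⟨γ, h1, h2, h3, h4, h5⟩ := H
  obtain ⟨δ, k1, k2, k3, k4, k5⟩ := H'
  have e1 : EqOn (fun t : ℝ => if t ≤ 1 then γ t else δ (t - 1)) γ (Icc 0 1) := fun t ht => by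
    show (if t ≤ 1 then γ t else δ (t - 1)) = γ t
    rw [if_pos ht.2]
  have e2 : EqOn (fun t : ℝ => if t ≤ 1 then γ t else δ (t - 1)) (fun t => δ (t - 1))
      (Icc 1 2) := fun t ht => by
    show (if t ≤ 1 then γ t else δ (t - 1)) = δ (t - 1)
    rcases ht.1.eq_or_lt with h | h
    · rw [← h, if_pos le_rfl, sub_self, h3, k2]
    · rw [if_neg (not_le.2 h)]
  have hmap : MapsTo (fun t : ℝ => t - 1) (Icc 1 2) (Icc 0 1) := fun t ht =>
    ⟨by linarith [ht.1], by linarith [ht.2]⟩
  have c1 : ContinuousOn (fun t : ℝ => if t ≤ 1 then γ t else δ (t - 1)) (Icc 0 1) :=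
    h1.congr e1
  have c2 : ContinuousOn (fun t : ℝ => if t ≤ 1 then γ t else δ (t - 1)) (Icc 1 2) :=
    (k1.comp (by fun_prop) hmap).congr e2
  have hunion : Icc (0 : ℝ) 2 = Icc 0 1 ∪ Icc 1 2 := by
    rw [Icc_union_Icc_eq_Icc (by norm_num) (by norm_num)]
  have hcont : ContinuousOn (fun t : ℝ => if t ≤ 1 then γ t else δ (t - 1)) (Icc 0 2) := by
    rw [hunion]
    exact c1.union_of_isClosed c2 isClosed_Icc isClosed_Icc
  have hmaps : MapsTo (fun t : ℝ => if t ≤ 1 then γ t else δ (t - 1)) (Icc 0 2) X := by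
    intro t ht
    rw [hunion] at ht
    rcases ht with ht | ht
    · rw [e1 ht]; exact h4 ht
    · rw [e2 ht]; exact k4 (hmap ht)
  have h0 : (if (0 : ℝ) ≤ 1 then γ 0 else δ (0 - 1)) = x := by
    rw [if_pos zero_le_one, h2]
  have h2' : (if (2 : ℝ) ≤ 1 then γ 2 else δ (2 - 1)) = z := by
    rw [if_neg (by norm_num), show (2 : ℝ) - 1 = 1 by norm_num, k3]
  have hvar : ∑ l, eVariationOn (fun t => lab (P l) (h ((fun t : ℝ =>
      if t ≤ 1 then γ t else δ (t - 1)) t) l)) (Icc 0 2) ≤ n + m := by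
    refine le_trans (le_of_eq ?_) (add_le_add h5 k5)
    rw [← Finset.sum_add_distrib]
    refine Finset.sum_congr rfl fun l _ => ?_
    have h6 := eVariationOn.Icc_add_Icc (fun t => lab (P l) (h ((fun t : ℝ =>
      if t ≤ 1 then γ t else δ (t - 1)) t) l)) (s := univ) (a := 0) (b := 1) (c := 2)
      (by norm_num) (by norm_num) (mem_univ _)
    simp only [univ_inter] at h6
    rw [← h6]
    congr 1
    · refine eVariationOn.congr fun t ht => ?_
      show lab (P l) (h (if t ≤ 1 then γ t else δ (t - 1)) l) = _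
      have := e1 ht
      simp only at this
      rw [this]
    · have h7 : eVariationOn (fun t => lab (P l) (h ((fun t : ℝ =>
          if t ≤ 1 then γ t else δ (t - 1)) t) l)) (Icc 1 2) =
          eVariationOn ((fun t => lab (P l) (h (δ t) l)) ∘ fun t : ℝ => t - 1) (Icc 1 2) := by
        refine eVariationOn.congr fun t ht => ?_
        show lab (P l) (h (if t ≤ 1 then γ t else δ (t - 1)) l) = _
        have := e2 ht
        simp only at this
        rw [this]
        rfl
      rw [h7, eVariationOn.comp_eq_of_monotoneOn _ _ fun s _ t _ hst => by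
        show s - 1 ≤ t - 1
        linarith]
      congr 1
      ext t
      constructor
      · rintro ⟨s, hs, rfl⟩
        exact hmap hs
      · intro ht
        exact ⟨t + 1, ⟨by linarith [ht.1], by linarith [ht.2]⟩, by show t + 1 - 1 = t; ring⟩
  have h6 := LabPath.of_Icc (P := P) (h := h) (X := X) (by norm_num) hcont hmaps hvar
  rwa [h0, h2'] at h6

/-- a curve which meets the levels at finitely many times -/
theorem LabPath.of_times {γ : ℝ → E} {a b : ℝ} (hab : a ≤ b) (hγ : ContinuousOn γ (Icc a b))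
    (hX : MapsTo γ (Icc a b) X) (hh : ∀ l, ContinuousOn (fun x => h x l) X)
    (Z : κ → Finset ℝ) (hZ : ∀ l, ∀ t ∈ Icc a b, h (γ t) l ∈ P l → t ∈ Z l) {N : ℕ}
    (hN : ∑ l, (Z l).card ≤ N) : LabPath P h X (2 * N : ℕ) (γ a) (γ b) := by
  refine LabPath.of_Icc hab hγ hX ?_
  calc ∑ l, eVariationOn (fun t => lab (P l) (h (γ t) l)) (Icc a b)
      ≤ ∑ l, 2 * ((Z l).card : ℝ≥0∞) := Finset.sum_le_sum fun l _ =>
        evar_lab_le (u := fun t => h (γ t) l) ((hh l).comp hγ hX) (hZ l)
    _ = 2 * ((∑ l, (Z l).card : ℕ) : ℝ≥0∞) := by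
        rw [← Finset.mul_sum]
        push_cast
        rfl
    _ ≤ ((2 * N : ℕ) : ℝ≥0∞) := by
        rw [Nat.cast_mul, Nat.cast_ofNat]
        exact mul_le_mul_right (Nat.cast_le.2 hN) _

/-- **a segment with finitely many level points** -/
theorem LabPath.of_segment (hX : segment ℝ x y ⊆ X) (hh : ∀ l, ContinuousOn (fun x => h x l) X)
    (hf : ∀ l, {w | w ∈ segment ℝ x y ∧ h w l ∈ P l}.Finite) {N : ℕ}
    (hN : ∑ l, {w | w ∈ segment ℝ x y ∧ h w l ∈ P l}.ncard ≤ N) :
    LabPath P h X (2 * N : ℕ) x y := by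
  classical
  rcases eq_or_ne x y with hxy | hxy
  · subst hxy
    exact (LabPath.refl (hX (left_mem_segment ℝ x x))).mono subset_rfl zero_le
  have hinj : Function.Injective (AffineMap.lineMap x y : ℝ →ᵃ[ℝ] E) :=
    AffineMap.lineMap_injective ℝ hxy
  have hseg : ∀ t ∈ Icc (0 : ℝ) 1, AffineMap.lineMap x y t ∈ segment ℝ x y := fun t ht => by
    rw [segment_eq_image_lineMap]
    exact ⟨t, ht, rfl⟩
  have hfin : ∀ l, {t : ℝ | t ∈ Icc (0 : ℝ) 1 ∧ h (AffineMap.lineMap x y t) l ∈ P l}.Finite :=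
    fun l => ((hf l).preimage hinj.injOn).subset fun t ht => ⟨hseg t ht.1, ht.2⟩
  have hc : ContinuousOn (fun t : ℝ => (AffineMap.lineMap x y t : E)) (Icc 0 1) :=
    (AffineMap.lineMap_continuous).continuousOn
  have h6 := LabPath.of_times (P := P) (h := h) (X := X) (N := N) zero_le_one hc
    (fun t ht => hX (hseg t ht)) hh (fun l => (hfin l).toFinset)
    (fun l t ht h1 => (hfin l).mem_toFinset.2 ⟨ht, h1⟩)
    (le_trans (Finset.sum_le_sum fun l _ => ?_) hN)
  · simpa using h6
  · rw [← Set.ncard_eq_toFinset_card _ (hfin l)]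
    refine Set.ncard_le_ncard_of_injOn (fun t => AffineMap.lineMap x y t)
      (fun t ht => ⟨hseg t ht.1, ht.2⟩) hinj.injOn (hf l)

/-! ### faces with a pattern -/

variable {C B : Set E} {K : Type*} [Finite K] {S : K → Set E} {cd : K → κ} {lev : K → ℝ}
  {col : K → Bool}

/-- a level point is on an arc -/
theorem exists_arc (H : FacePat C B h (fun l => (P l : Set ℝ)) S cd lev col) {y : E}
    (hy : y ∈ C) {l : κ} (hl : h y l ∈ P l) : ∃ α, cd α = l ∧ lev α = h y l ∧ y ∈ S α := by
  have h1 : y ∈ {x | x ∈ C ∧ h x l = h y l} := ⟨hy, rfl⟩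
  rw [← H.eq l (h y l) hl] at h1
  obtain ⟨α, hα, hyα⟩ := mem_iUnion₂.1 h1
  exact ⟨α, hα.1, hα.2, hyα⟩

/-- a point of an arc is a level point -/
theorem level_of_arc (H : FacePat C B h (fun l => (P l : Set ℝ)) S cd lev col) {y : E} {α : K}
    (hy : y ∈ S α) : h y (cd α) = lev α := by
  have h1 : y ∈ ⋃ (β) (_ : cd β = cd α ∧ lev β = lev α), S β :=
    mem_iUnion₂.2 ⟨α, ⟨rfl, rfl⟩, hy⟩
  rw [H.eq (cd α) (lev α) (H.mem α)] at h1
  exact h1.2

/-- the levels at one point -/
theorem card_levels (H : FacePat C B h (fun l => (P l : Set ℝ)) S cd lev col) {y : E}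
    (hy : y ∈ C) : (Finset.univ.filter fun l => h y l ∈ P l).card ≤ 2 ∧
      (Finset.univ.filter fun l => h y l ∈ P l).card ≤ Nat.card K := by
  classical
  have h1 : ∀ l : {l // l ∈ Finset.univ.filter fun l => h y l ∈ P l},
      ∃ α, cd α = l.1 ∧ lev α = h y l.1 ∧ y ∈ S α := fun l =>
    exists_arc H hy (Finset.mem_filter.1 l.2).2
  choose a ha1 ha2 ha3 using h1
  have hinj : Function.Injective a := fun l l' hll => by
    apply Subtype.ext
    rw [← ha1 l, ← ha1 l', hll]
  constructor
  · have hcol : Function.Injective fun l => col (a l) := by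
      intro l l' hll
      by_contra hne
      have hne' : a l ≠ a l' := fun h => hne (hinj h)
      exact Set.disjoint_left.1 (H.pat.dis _ _ hne' hll) (ha3 l) (ha3 l')
    have h2 := Fintype.card_le_of_injective _ hcol
    rwa [Fintype.card_coe, Fintype.card_bool] at h2
  · have h2 := Nat.card_le_card_of_injective _ hinj
    rwa [Nat.card_eq_fintype_card, Fintype.card_coe] at h2

/-- the arcs are compact -/
theorem arc_isCompact (H : FacePat C B h (fun l => (P l : Set ℝ)) S cd lev col) (α : K) :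
    IsCompact (S α) := (H.pat.hS α).isCompact

/-- **[W3] (5): in a convex face with a pattern every point is joined to the boundary** by a curve
along which the labels vary by at most `2 (1 + number of arcs)` -/
theorem path_of_pat (H : FacePat C B h (fun l => (P l : Set ℝ)) S cd lev col)
    (hconv : Convex ℝ C) (hh : ∀ l, ContinuousOn (fun x => h x l) C) {x : E} (hx : x ∈ C) :
    ∃ p ∈ B, LabPath P h C (2 * (1 + Nat.card K) : ℕ) x p := by
  classical
  -- a point of the boundary
  obtain ⟨b, hb⟩ : B.Nonempty := by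
    obtain ⟨φ, hφ⟩ := H.pat.hC.eq_preimage
    rw [← hφ]
    refine ⟨φ.invFun (fun _ => 1), fun _ => 1, ?_, rfl⟩
    rw [mem_sphere_zero_iff_norm]
    rw [pi_norm_const]
    norm_num
  have hBC : B ⊆ C := H.pat.hC.1
  set σ : ℝ → E := fun t => AffineMap.lineMap x b t with hσ
  have hσc : Continuous σ := AffineMap.lineMap_continuous
  have hσC : MapsTo σ (Icc 0 1) C := fun t ht =>
    hconv.segment_subset hx (hBC hb) (by rw [segment_eq_image_lineMap]; exact ⟨t, ht, rfl⟩)
  -- the first point on an arc or on the boundary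
  set Y : Set E := (⋃ α, S α) ∪ B with hY
  have hYcl : IsClosed Y :=
    (isClosed_iUnion_of_finite fun α => (arc_isCompact H α).isClosed).union
      H.pat.hC.isCompact_bdry.isClosed
  set T : Set ℝ := {t | t ∈ Icc (0 : ℝ) 1 ∧ σ t ∈ Y} with hT
  have hTc : IsCompact T := isCompact_Icc.inter_right (hYcl.preimage hσc)
  have h1T : (1 : ℝ) ∈ T := ⟨⟨zero_le_one, le_rfl⟩, Or.inr (by
    show σ 1 ∈ B
    rw [hσ]
    simpa using hb)⟩
  obtain ⟨t₀, ht₀, hmin⟩ := hTc.exists_isLeast ⟨1, h1T⟩
  have hsub : Icc 0 t₀ ⊆ Icc (0 : ℝ) 1 := Icc_subset_Icc le_rfl ht₀.1.2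
  have hy : σ t₀ ∈ C := hσC ht₀.1
  -- the straight part
  have hlev : ∀ l, ∀ t ∈ Icc 0 t₀, h (σ t) l ∈ P l →
      t ∈ (if h (σ t₀) l ∈ P l then ({t₀} : Finset ℝ) else ∅) := by
    intro l t ht hl
    obtain ⟨α, -, -, hα⟩ := exists_arc H (hσC (hsub ht)) hl
    have h1 : t ∈ T := ⟨hsub ht, Or.inl (mem_iUnion.2 ⟨α, hα⟩)⟩
    have h2 : t = t₀ := le_antisymm ht.2 (hmin h1)
    rw [← h2, if_pos hl]
    exact Finset.mem_singleton_self _
  have hcard : ∑ l, (if h (σ t₀) l ∈ P l then ({t₀} : Finset ℝ) else ∅).card =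
      (Finset.univ.filter fun l => h (σ t₀) l ∈ P l).card := by
    rw [Finset.card_filter]
    refine Finset.sum_congr rfl fun l _ => ?_
    split_ifs <;> simp
  have h0 : σ 0 = x := by rw [hσ]; simp
  have straight : LabPath P h C (2 * (Finset.univ.filter fun l => h (σ t₀) l ∈ P l).card : ℕ)
      x (σ t₀) := by
    have h6 := LabPath.of_times (P := P) (h := h) (X := C) ht₀.1.1 hσc.continuousOn
      (hσC.mono_left hsub) hh _ hlev hcard.le
    rwa [h0] at h6
  obtain ⟨c2, cK⟩ := card_levels H hy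
  rcases ht₀.2 with hα | hyB
  swap
  · refine ⟨σ t₀, hyB, straight.mono subset_rfl (Nat.cast_le.2 ?_)⟩
    omega
  -- along an arc
  obtain ⟨α, hα⟩ := mem_iUnion.1 hα
  obtain ⟨p, q, harc, hpq⟩ := exists_ends (H.pat.hS α)
  obtain ⟨φ, hφ0, hφ1⟩ := harc
  set s₀ : ℝ := φ.invFun (σ t₀) with hs₀
  have hs₀m : s₀ ∈ Icc (0 : ℝ) 1 := φ.mapsTo_inv hα
  have hs₀e : φ.toFun s₀ = σ t₀ := φ.right_inv hα
  have hsub2 : Icc 0 s₀ ⊆ Icc (0 : ℝ) 1 := Icc_subset_Icc le_rfl hs₀m.2
  have hpB : p ∈ B := by
    have : p ∈ S α ∩ B := by rw [hpq]; exact Or.inl rfl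
    exact this.2
  -- the times on the other arcs
  set τ : K → ℝ := fun β => if hβ : (S α ∩ S β).Nonempty then φ.invFun hβ.some else 0 with hτ
  set Z : κ → Finset ℝ := fun l => ((toFinite {β : K | β ≠ α ∧ cd β = l}).toFinset).image τ
    with hZ
  have hSm : MapsTo φ.toFun (Icc 0 s₀) C := fun t ht => H.pat.hSC α (φ.mapsTo (hsub2 ht))
  have hZ1 : ∀ l, l ≠ cd α → ∀ t ∈ Icc 0 s₀, h (φ.toFun t) l ∈ P l → t ∈ Z l := by
    intro l hl t ht h1
    obtain ⟨β, hβ1, -, hβ3⟩ := exists_arc H (hSm ht) h1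
    have hne : β ≠ α := fun h => hl (h ▸ hβ1).symm
    have hmem : φ.toFun t ∈ S α ∩ S β := ⟨φ.mapsTo (hsub2 ht), hβ3⟩
    have hnon : (S α ∩ S β).Nonempty := ⟨_, hmem⟩
    refine Finset.mem_image.2 ⟨β, (toFinite _).mem_toFinset.2 ⟨hne, hβ1⟩, ?_⟩
    show (if hβ : (S α ∩ S β).Nonempty then φ.invFun hβ.some else 0) = t
    rw [dif_pos hnon, H.pat.sub α β hne.symm hnon.some_mem hmem, φ.left_inv (hsub2 ht)]
  have hvar : ∑ l, eVariationOn (fun t => lab (P l) (h (φ.toFun t) l)) (Icc 0 s₀) ≤
      ((2 * (Nat.card K - 1) : ℕ) : ℝ≥0∞) := by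
    have hcontφ : ∀ l, ContinuousOn (fun t => h (φ.toFun t) l) (Icc 0 s₀) := fun l =>
      (hh l).comp (φ.cont.mono hsub2) hSm
    have e1 : eVariationOn (fun t => lab (P (cd α)) (h (φ.toFun t) (cd α))) (Icc 0 s₀) = 0 :=
      evar_lab_const (c := lev α) fun t ht => level_of_arc H (φ.mapsTo (hsub2 ht))
    calc ∑ l, eVariationOn (fun t => lab (P l) (h (φ.toFun t) l)) (Icc 0 s₀)
        ≤ ∑ l, 2 * ((if l = cd α then 0 else (Z l).card : ℕ) : ℝ≥0∞) := by
          refine Finset.sum_le_sum fun l _ => ?_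
          by_cases hl : l = cd α
          · rw [if_pos hl, hl, e1]
            exact zero_le
          · rw [if_neg hl]
            exact evar_lab_le (hcontφ l) (hZ1 l hl)
      _ = 2 * ((∑ l, if l = cd α then 0 else (Z l).card : ℕ) : ℝ≥0∞) := by
          rw [← Finset.mul_sum]
          push_cast
          rfl
      _ ≤ ((2 * (Nat.card K - 1) : ℕ) : ℝ≥0∞) := by
          rw [Nat.cast_mul, Nat.cast_ofNat]
          refine mul_le_mul_right (Nat.cast_le.2 ?_) _
          -- counting
          have hfin : Fintype K := Fintype.ofFinite K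
          have h1 : ∑ l, (if l = cd α then 0 else (Z l).card) ≤
              ∑ l, (Finset.univ.filter fun β : K => β ≠ α ∧ cd β = l).card := by
            refine Finset.sum_le_sum fun l _ => ?_
            split_ifs
            · exact Nat.zero_le _
            · refine (Finset.card_image_le).trans (Finset.card_le_card fun β hβ => ?_)
              rw [(toFinite _).mem_toFinset] at hβ
              exact Finset.mem_filter.2 ⟨Finset.mem_univ _, hβ⟩
          refine h1.trans ?_
          have h2 : ∑ l, (Finset.univ.filter fun β : K => β ≠ α ∧ cd β = l).card =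
              (Finset.univ.filter fun β : K => β ≠ α).card := by
            rw [Finset.card_eq_sum_card_fiberwise (f := cd) (t := Finset.univ)
              fun _ _ => Finset.mem_coe.2 (Finset.mem_univ _)]
            refine Finset.sum_congr rfl fun l _ => ?_
            rw [Finset.filter_filter]
          rw [h2, Finset.filter_ne' , Finset.card_erase_of_mem (Finset.mem_univ _),
            Finset.card_univ, Nat.card_eq_fintype_card]
  have harcp : LabPath P h C ((2 * (Nat.card K - 1) : ℕ) : ℝ≥0∞) p (σ t₀) := by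
    have h6 := LabPath.of_Icc (P := P) (h := h) (X := C) hs₀m.1 (φ.cont.mono hsub2) hSm hvar
    rwa [hφ0, hs₀e] at h6
  have hK : 1 ≤ Nat.card K := Nat.one_le_iff_ne_zero.2 (Nat.card_ne_zero.2 ⟨⟨α⟩, inferInstance⟩)
  refine ⟨p, hpB, (straight.trans harcp.symm).mono subset_rfl ?_⟩
  rw [← Nat.cast_add]
  exact Nat.cast_le.2 (by omega)

/-- **the number of the level points on the boundary is twice the number of arcs** -/
theorem ncard_bd (H : FacePat C B h (fun l => (P l : Set ℝ)) S cd lev col) :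
    {x | x ∈ B ∧ ∃ l, h x l ∈ P l}.Finite ∧
      {x | x ∈ B ∧ ∃ l, h x l ∈ P l}.ncard = 2 * Nat.card K := by
  classical
  have hfin : Fintype K := Fintype.ofFinite K
  have hBC : B ⊆ C := H.pat.hC.1
  have heq : {x | x ∈ B ∧ ∃ l, h x l ∈ P l} = ⋃ α, (S α ∩ B) := by
    ext x
    constructor
    · rintro ⟨hxB, l, hl⟩
      obtain ⟨α, -, -, hα⟩ := exists_arc H (hBC hxB) hl
      exact mem_iUnion.2 ⟨α, hα, hxB⟩
    · intro hx
      obtain ⟨α, hα, hxB⟩ := mem_iUnion.1 hx
      exact ⟨hxB, cd α, by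
        have := H.mem α
        rw [level_of_arc H hα]
        exact this⟩
  have h2 : ∀ α, ∃ p q, p ≠ q ∧ S α ∩ B = {p, q} := fun α => exists_ends' (H.pat.hS α)
  have hf : ∀ α, (S α ∩ B).Finite := fun α => by
    obtain ⟨p, q, -, he⟩ := h2 α
    rw [he]
    exact toFinite _
  have hc : ∀ α, (hf α).toFinset.card = 2 := fun α => by
    rw [← Set.ncard_eq_toFinset_card _ (hf α)]
    obtain ⟨p, q, hne, he⟩ := h2 α
    rw [he, Set.ncard_pair hne]
  rw [heq]
  have hU : (⋃ α, (S α ∩ B)).Finite := finite_iUnion hf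
  refine ⟨hU, ?_⟩
  have hUe : (⋃ α, (S α ∩ B)) = ↑((Finset.univ : Finset K).biUnion fun α => (hf α).toFinset) := by
    ext x
    simp
  rw [hUe, Set.ncard_coe_finset, Finset.card_biUnion]
  · rw [Finset.sum_congr rfl fun α _ => hc α, Finset.sum_const, Finset.card_univ,
      Nat.card_eq_fintype_card, smul_eq_mul, mul_comm]
  · intro α _ β _ hne
    rw [Function.onFun, Finset.disjoint_left]
    intro x hx hx'
    rw [(hf α).mem_toFinset] at hx
    rw [(hf β).mem_toFinset] at hx'
    exact Set.disjoint_left.1 (H.pat.off α β hne) ⟨hx.1, hx'.1⟩ hx.2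

/-- the same with the number of level points on the boundary -/
theorem path_of_pat' (H : FacePat C B h (fun l => (P l : Set ℝ)) S cd lev col)
    (hconv : Convex ℝ C) (hh : ∀ l, ContinuousOn (fun x => h x l) C) {x : E} (hx : x ∈ C) :
    ∃ p ∈ B, LabPath P h C (2 + {x | x ∈ B ∧ ∃ l, h x l ∈ P l}.ncard : ℕ) x p := by
  obtain ⟨p, hp, h1⟩ := path_of_pat H hconv hh hx
  refine ⟨p, hp, h1.mono subset_rfl (Nat.cast_le.2 ?_)⟩
  rw [(ncard_bd H).2]
  omega

end Path

end P073.H919
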