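import Vale.Agent.P073.H919.OscLoc
import Vale.Agent.P073.H805.AccZ
import Vale.Agent.P073.H190.TvpM
import Vale.Agent.P073.H237.CovB

/-!
# P073, [K3-TOP], [OSC-TOP]: labels ⟹ positions

A point of the box of the hook of a plate at which the hook does not change the clipped levels:
`S4.high_pos`: the position after the second staircases is near the position before the exchange of
a point of the same mesh set.
-/

open Set Metric Topology Filter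
open scoped ENNReal

set_option linter.unusedSectionVars false

namespace P073.H919

open P073 P073.H936 P073.H236 P073.H880 P073.H345
open Vale.Agent.P073.H581 (clamp clamp_mem clamp_mono clamp_of_mem)
open Vale.Agent.P073.St (V)
open Vale.Agent.P073.H471 Vale.Agent.P073.H267
open P073.Net P073.PA691
open Vale.Agent.P073.H687

/-- **two points which are on the same side of the centres of the cells** -/
theorem clamp_sub_le_of_sep {N : ℕ} {al be st : ℝ} (hst : 0 < st) (hNs : (N : ℝ) * st = be - al)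
    {t t' : ℝ} (h : ∀ k < N, (t < al + (k + 1 / 2) * st → t' ≤ al + (k + 1 / 2) * st) ∧
      (t' < al + (k + 1 / 2) * st → t ≤ al + (k + 1 / 2) * st)) :
    |clamp al be t - clamp al be t'| ≤ st := by
  have hab : al ≤ be := by
    have : (0:ℝ) ≤ N * st := by positivity
    linarith
  have key : ∀ {s s' : ℝ}, (∀ k < N, s < al + (k + 1 / 2) * st → s' ≤ al + (k + 1 / 2) * st) →
      clamp al be s' - clamp al be s ≤ st := by
    intro s s' hs
    by_contra hcon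
    push Not at hcon
    obtain ⟨h1, h2⟩ := clamp_mem hab s
    obtain ⟨h3, h4⟩ := clamp_mem hab s'
    set T := clamp al be s with hT
    set T' := clamp al be s' with hT'
    set k : ℕ := ⌊(T - al) / st + 1 / 2⌋₊ with hk
    have h0 : 0 ≤ (T - al) / st + 1 / 2 := by
      have : 0 ≤ (T - al) / st := div_nonneg (by linarith) hst.le
      linarith
    have h5 : (k : ℝ) ≤ (T - al) / st + 1 / 2 := Nat.floor_le h0
    have h6 : (T - al) / st + 1 / 2 < k + 1 := Nat.lt_floor_add_one _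
    have h7 : (T - al) / st * st = T - al := div_mul_cancel₀ _ hst.ne'
    have h8 : T < al + (k + 1 / 2) * st := by nlinarith
    have h9 : al + (k + 1 / 2) * st ≤ T + st := by nlinarith
    have h10 : k < N := by
      have : (k + 1 / 2 : ℝ) * st < N * st := by rw [hNs]; linarith
      have h11 : (k + 1 / 2 : ℝ) < N := lt_of_mul_lt_mul_right this hst.le
      have h12 : (k : ℝ) < N := by linarith
      exact_mod_cast h12
    have hc : clamp al be (al + (k + 1 / 2) * st) = al + (k + 1 / 2) * st := by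
      refine clamp_of_mem ⟨by nlinarith [Nat.cast_nonneg (α := ℝ) k], by linarith⟩
    have h13 : s < al + (k + 1 / 2) * st := by
      by_contra hs'
      push Not at hs'
      have := clamp_mono al be hs'
      rw [hc] at this
      linarith
    have h14 := clamp_mono al be (hs k h10 h13)
    rw [hc] at h14
    linarith
  rw [abs_le]
  constructor
  · have := key (s := t) (s' := t') fun k hk => (h k hk).1
    linarith
  · exact key (s := t') (s' := t) fun k hk => (h k hk).2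

theorem clp_neg {r x : ℝ} (hr : 0 < r) (hx : x < 0) : clp r x < 0 := by
  unfold clp
  exact max_lt (by linarith) ((min_le_left _ _).trans_lt hx)

theorem clp_pos {r x : ℝ} (hr : 0 < r) (hx : 0 < x) : 0 < clp r x := by
  unfold clp
  exact lt_of_lt_of_le (lt_min hx hr) (le_max_right _ _)

theorem sep_of_clp {r c w t t' : ℝ} (hr : 0 < r) (hw : 0 < w)
    (h : clp r ((t - c) / w) = clp r ((t' - c) / w)) : t < c → t' ≤ c := by
  intro h1
  by_contra h2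
  push Not at h2
  have h3 := clp_neg hr (div_neg_of_neg_of_pos (sub_neg.2 h1) hw)
  have h4 := clp_pos hr (div_pos (sub_pos.2 h2) hw)
  linarith

/-- **two points with the same labels** -/
theorem LevW_clamp_sub_le {lo hi θ δ η r S Bg : ℝ} {T : Finset (ℝ × ℝ)} {n : ℕ} {a : ℕ → ℝ}
    (H : LevW lo hi θ δ η r S Bg ∅ T n a) (hlh : lo ≤ hi) (hδ : 0 < δ) {t t' : ℝ}
    (h : ∀ k < n, (t < a k ↔ t' < a k)) : |clamp lo hi t - clamp lo hi t'| ≤ 2 * S := by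
  have hin : ∀ k < n, ∀ s, (clamp lo hi s < a k ↔ s < a k) := by
    intro k hk s
    have h1 := H.ge k hk
    have h2 := H.le k hk
    have hc : clamp lo hi (a k) = a k := clamp_of_mem ⟨by linarith, by linarith⟩
    constructor
    · intro hs
      by_contra hcon
      push Not at hcon
      have := clamp_mono lo hi hcon
      rw [hc] at this
      linarith
    · intro hs
      unfold Vale.Agent.P073.H581.clamp
      exact max_lt (by linarith) ((min_le_right _ _).trans_lt hs)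
  obtain ⟨h1, h2⟩ := clamp_mem hlh t
  obtain ⟨h3, h4⟩ := clamp_mem hlh t'
  obtain ⟨k, hk, ha, hb, hc⟩ := H.cnt _ h1 h2 (notMem_empty _)
  obtain ⟨k', hk', ha', hb', hc'⟩ := H.cnt _ h3 h4 (notMem_empty _)
  have hkk : k = k' := by
    rcases lt_trichotomy k k' with hlt | heq | hgt
    · exfalso
      have h5 := hb k (by omega) le_rfl
      have h6 := ha' k hlt
      rw [hin k (by omega), h k (by omega), ← hin k (by omega)] at h5
      linarith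
    · exact heq
    · exfalso
      have h5 := hb' k' (by omega) le_rfl
      have h6 := ha k' hgt
      rw [hin k' (by omega), ← h k' (by omega), ← hin k' (by omega)] at h5
      linarith
  subst hkk
  rw [abs_le] at hc hc' ⊢
  constructor <;> linarith [hc.1, hc.2, hc'.1, hc'.2]

end P073.H919

namespace Vale.Agent.P073.H919.K3

open _root_.P073 _root_.P073.Net _root_.P073.PA691 _root_.P073.H236 _root_.P073.H579
open _root_.P073.H936 _root_.P073.H936.K3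
open _root_.P073.H142
open _root_.P073.H345 (PK PB_sub_PK PK_sub_ss tg PLev)
open _root_.P073.H880.RP
open _root_.P073.H919
open _root_.P073.H429
open Vale.Agent.P073.H581 (clamp clamp_mem clamp_mono)
open Vale.Agent.P073.St (V)
open Vale.Agent.P073.H471 Vale.Agent.P073.H267
open Vale.Agent.P073.H267.K3
open Vale.Agent.P073.H73 (Mesh)
open Vale.Agent.P073.H193 (Edges edges LAtC)
open Vale.Agent.P073.H926
open Vale.Agent.P073.H238.K3
open Vale.Agent.P073.H190.Tvp (wP)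
open Vale.Agent.P073.H687 (wnd)

variable {c₀ n δ : ℝ} {j : ℕ} {Ω Λ : Set V} {v w : V} {ρ : V → ℝ} {M : Mesh Ω} {h : ConHomeo Ω Λ}
  {J₀ J : Set (ℕ × (Fin 3 → ℤ))} {P Z : Set M.ι} {K : BoxCx Λ w}
  {D : KIn3 c₀ n j δ v w ρ M h J₀ J P Z} {C : Cells ρ w K} {C₀ μT : ℝ}
  {X : S1 D C C₀ μT} {Y₂ : S2 X} {Ys : Set M.κ} {sc : Sharp} {Y₃ : S3 Y₂ Ys sc}
  {Y₄ : S4 Y₃} {s : K.S} {k : M.κ}

/-- **in the box of the hook** the one-stage maps are the maps of the insertion -/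
theorem h3_of_HB (Y₃ : S3 Y₂ Ys sc) (hs : s ∈ (D.dat C).S₀) {x : V} (hx : x ∈ Ω)
    (hB : Y₃.h4.toFun x ∈ HB (D.G C) (29 / 32) (3 / 4) s) :
    Y₃.h3.toFun x ∈ HB (D.G C) (29 / 32) (3 / 4) s ∧
      (∀ β, Y₃.h4.toFun x (tg s β) = (Y₃.F β).σ ⟨s, hs⟩ (Y₃.h3.toFun x (tg s β))) ∧
      Y₃.h4.toFun x (K.nrm s) = Y₃.h3.toFun x (K.nrm s) := by
  have e3 := Y₃.eqHB s hs x hx hB
  have e4 := Y₃.map3 x hx
  rw [e3] at e4
  have PST := PSt.of_PS3 Y₃.ps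
  have HP := PST.prodOn (⟨s, hs⟩ : (D.dat C).S₀) (c := 29 / 32) (d := 3 / 4) (by norm_num)
    (by norm_num) (by norm_num)
  have hΛ := Y₃.h3.mapsTo hx
  have hmem : Y₃.h3.toFun x ∈ HB (D.G C) (29 / 32) (3 / 4) s :=
    (HP.mem _ hΛ).1 (by
      show PS.map Y₃.T3 (Y₃.h3.toFun x) ∈ _
      rw [← e4]; exact hB)
  refine ⟨hmem, fun β => ?_, ?_⟩
  · rw [e4]
    refine (HP.apply hmem (tg s β)).trans ?_
    exact PST.sgP_tg _ β _
  · rw [e4]
    refine (HP.apply hmem (K.nrm s)).trans ?_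
    exact PST.sgP_nrm _ _

/-- **no windows**: the staircases move by at most `muP` -/
theorem sig_le (Y₃ : S3 Y₂ Ys sc) (hs : s ∈ (D.dat C).S₀) (hQ : ∀ β, Y₂.Q s β = ∅) (β : Bool)
    (t : ℝ) : |(Y₃.F β).σ ⟨s, hs⟩ t - t| ≤ Y₂.muP s := by
  refine F3W_disp_out (Lg := Y₂.Lw) β ⟨s, hs⟩ ?_
  intro ht
  obtain ⟨q, hq, -⟩ := mem_iUnion₂.1 ht
  rw [hQ β] at hq
  exact absurd hq (Finset.notMem_empty q)

/-- (c) -/
theorem h4_h3 (Y₃ : S3 Y₂ Ys sc) (hs : s ∈ (D.dat C).S₀) (hQ : ∀ β, Y₂.Q s β = ∅) {x : V}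
    (hx : x ∈ Ω) (hB : Y₃.h4.toFun x ∈ HB (D.G C) (29 / 32) (3 / 4) s) (β : Bool) :
    |Y₃.h4.toFun x (tg s β) - Y₃.h3.toFun x (tg s β)| ≤ Y₂.muP s := by
  rw [(h3_of_HB Y₃ hs hx hB).2.1 β]
  exact sig_le Y₃ hs hQ β _

/-- (a) **the same clipped levels**: the hook moves by at most one step -/
theorem h5_h4 (Y₄ : S4 Y₃) (hs : s ∈ (D.dat C).S₀) {x : V}
    (hacc : ∀ i : _root_.P073.H919.PI Y₃.Lt s, plev Y₃.Lt Y₃.F (Subtype.val : (D.dat C).S₀ → K.S) ⟨s, hs⟩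
      (Y₄.r ⟨s, hs⟩) Y₄.h5.toFun i x = plev Y₃.Lt Y₃.F (Subtype.val : (D.dat C).S₀ → K.S) ⟨s, hs⟩
      (Y₄.r ⟨s, hs⟩) Y₃.h4.toFun i x) (β : Bool) :
    |wP (D.G C) s β (Y₄.h5.toFun x (tg s β)) - wP (D.G C) s β (Y₃.h4.toFun x (tg s β))| ≤
      Y₂.Lw.om s β := by
  have PST := PSt.of_PS3 Y₃.ps
  refine clamp_sub_le_of_sep (N := Y₂.Lw.N s) (Y₂.Lw.om_pos s β) ?_ fun k hk => ?_
  · rw [Y₂.Lw.Ns s β]
    unfold Vale.Agent.P073.H669.wl
    ring
  · have h1 := hacc ⟨β, ⟨k, hk⟩⟩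
    have hw : 0 < pwid Y₃.Lt (fun β => (Y₃.F β).e ⟨s, hs⟩) s ⟨β, ⟨k, hk⟩⟩ :=
      bw_pos' PST β ⟨s, hs⟩
    exact ⟨sep_of_clp (Y₄.r0 ⟨s, hs⟩) hw h1, sep_of_clp (Y₄.r0 ⟨s, hs⟩) hw h1.symm⟩

/-- (b) **the second staircases** move by at most one step -/
theorem f5_h5 (Y₄ : S4 Y₃) (hs : s ∈ (D.dat C).S₀) {x : V} (hx : x ∈ Ω)
    (h5 : Y₄.h5.toFun x ∈ PK (D.G C) s) (l : Fin 3) :
    |Y₄.f5.toFun x l - Y₄.h5.toFun x l| ≤ Y₂.Lw.om s true := by
  have PST := PSt.of_PS3 Y₃.ps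
  have h0 := Y₂.Lw.om_pos s true
  rw [Y₄.map5 x hx]
  have key := _root_.P073.H237.Cov.sg3_disp (δ := Y₂.Lw.om s true / 2) Y₄.sg (by positivity)
    (y := Y₄.h5.toFun x) (fun s' hs' β => ?_) l
  · linarith
  · have e : s' = ⟨s, hs⟩ := Subtype.ext (_root_.P073.H345.PK_unique hs' h5)
    subst e
    rw [sfam_e PST Y₄.p0 Y₄.p1 β ⟨s, hs⟩]
    have h1 := bw_pos' PST β ⟨s, hs⟩
    have h2 := Y₄.p0 ⟨s, hs⟩
    have h3 := mul_pos h2 h1
    have h4 : stp (Y₃.Lt.N s β) (K.slo s (tg s β) + (D.G C).a s)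
      (K.shi s (tg s β) - (D.G C).a s) = Y₂.Lw.om s true := Y₂.Lw.om_eq s β true
    show stp (Y₃.Lt.N s β) (K.slo s (tg s β) + (D.G C).a s)
      (K.shi s (tg s β) - (D.G C).a s) / 2 - _ ≤ _
    rw [h4]
    linarith

/-- (d) **a point of the same set before the insertion** -/
theorem exists_h2 (Y₃ : S3 Y₂ Ys sc) (hs : s ∈ (D.dat C).S₀) {A : Set V}
    (himg : Y₃.h3.toFun '' A = Pre (Y₃.κ true ∘ Y₃.κ false) Λ Y₂.h2 A) {x : V} (hx : x ∈ A)
    (hB : Y₃.h3.toFun x ∈ HB (D.G C) (29 / 32) (3 / 4) s) :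
    ∃ z ∈ A, Y₂.h2.toFun z = Y₃.κ true (Y₃.κ false (Y₃.h3.toFun x)) ∧
      (∀ β, |Y₂.h2.toFun z (tg s β) - Y₃.h3.toFun x (tg s β)| ≤ Y₃.c s β) ∧
      Y₂.h2.toFun z (K.nrm s) = Y₃.h3.toFun x (K.nrm s) := by
  have h1 : Y₃.h3.toFun x ∈ Pre (Y₃.κ true ∘ Y₃.κ false) Λ Y₂.h2 A := by
    rw [← himg]; exact mem_image_of_mem _ hx
  obtain ⟨z, hz, hzx⟩ := h1.2
  have hzx' : Y₂.h2.toFun z = Y₃.κ true (Y₃.κ false (Y₃.h3.toFun x)) := hzx
  have h2 := κ_eq_kP (L := Y₃.Lt) (φ := (Subtype.val : (D.dat C).S₀ → K.S))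
    Subtype.val_injective (Y₃.ins.isQ false) (Y₃.ins.isQ true) (b := ⟨s, hs⟩)
    (by norm_num) (by norm_num) (by norm_num) hB
  refine ⟨z, hz, hzx', fun β => ?_, ?_⟩
  · rw [hzx', h2]
    show |Y₃.Lt.kP s (tg s β) _ - _| ≤ _
    rw [PLev.kP_tg]
    have h3 : kQ (Y₃.Lt.bx β s) (tg s β) = qm (Y₃.Lt.bx β s).lvs.L (Y₃.Lt.bx β s).c := kQ_self _
    rw [h3]
    exact abs_qm_sub_le (Y₃.Lt.bx β s).lvs.c0.le (Y₃.Lt.bx β s).lvs.sepd _
  · rw [hzx', h2]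
    show Y₃.Lt.kP s (K.nrm s) _ = _
    rw [PLev.kP_nrm]
    rfl

/-- (e) **the exchange does not change the labels**: it moves by at most `muP / 2` -/
theorem h2_h1 (Y₂ : S2 X) (hQ : ∀ β, Y₂.Q s β = ∅) {z : V} (β : Bool)
    (hlev : ∀ t ∈ Y₂.L.lv s (tg s β), (Y₂.h2.toFun z (tg s β) < t ↔ X.h1.toFun z (tg s β) < t)) :
    |wP (D.G C) s β (Y₂.h2.toFun z (tg s β)) - wP (D.G C) s β (X.h1.toFun z (tg s β))| ≤
      Y₂.muP s / 2 := by
  have hW : wnd Y₂.R Y₂.Q s β = ∅ := by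
    refine eq_empty_of_forall_notMem fun t ht => ?_
    obtain ⟨q, hq, -⟩ := mem_iUnion₂.1 ht
    rw [hQ β] at hq
    exact absurd hq (Finset.notMem_empty q)
  have H := Y₂.Lw.lv s β
  rw [hW] at H
  have hab : K.slo s (tg s β) + (D.G C).a s ≤ K.shi s (tg s β) - (D.G C).a s := by
    have h1 := H.ge 0 (Y₂.Lw.pos s)
    have h2 := H.le 0 (Y₂.Lw.pos s)
    have h3 := Y₂.Lw.δ0 s
    linarith
  refine (LevW_clamp_sub_le H hab (Y₂.Lw.δ0 s) fun k hk => ?_).trans (by linarith)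
  exact hlev _ (Y₂.Lw.mem_lv_iff.2 ⟨k, hk, rfl⟩)

/-- (f) **labels ⟹ positions** -/
theorem high_pos (Y₄ : S4 Y₃) (hs : s ∈ (D.dat C).S₀) (hQ : ∀ β, Y₂.Q s β = ∅) {A : Set V}
    (hA : A ⊆ Ω) (himg : Y₃.h3.toFun '' A = Pre (Y₃.κ true ∘ Y₃.κ false) Λ Y₂.h2 A) {x : V}
    (hx : x ∈ A) (hB : Y₃.h4.toFun x ∈ HB (D.G C) (29 / 32) (3 / 4) s)
    (hacc : ∀ i : _root_.P073.H919.PI Y₃.Lt s, plev Y₃.Lt Y₃.F
      (Subtype.val : (D.dat C).S₀ → K.S) ⟨s, hs⟩ (Y₄.r ⟨s, hs⟩) Y₄.h5.toFun i x =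
      plev Y₃.Lt Y₃.F (Subtype.val : (D.dat C).S₀ → K.S) ⟨s, hs⟩ (Y₄.r ⟨s, hs⟩) Y₃.h4.toFun i x)
    (hlev : ∀ z ∈ A, Y₂.h2.toFun z = Y₃.κ true (Y₃.κ false (Y₃.h3.toFun x)) →
      ∀ β, ∀ t ∈ Y₂.L.lv s (tg s β),
        (Y₂.h2.toFun z (tg s β) < t ↔ X.h1.toFun z (tg s β) < t)) :
    ∃ z ∈ A, Y₂.h2.toFun z = Y₃.κ true (Y₃.κ false (Y₃.h3.toFun x)) ∧
      ∀ β, |wP (D.G C) s β (Y₄.f5.toFun x (tg s β)) -
        wP (D.G C) s β (X.h1.toFun z (tg s β))| ≤ 3 * Y₂.muP s := by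
  have hxΩ := hA hx
  obtain ⟨h3B, -, -⟩ := h3_of_HB Y₃ hs hxΩ hB
  obtain ⟨z, hz, hzx, hd, -⟩ := exists_h2 Y₃ hs himg hx h3B
  refine ⟨z, hz, hzx, fun β => ?_⟩
  have h5B : Y₄.h5.toFun x ∈ PK (D.G C) s :=
    h5_mem_PK Y₄ hs hxΩ (HB_PB (by norm_num) (by norm_num) s hB)
  have e1 := f5_h5 Y₄ hs hxΩ h5B (tg s β)
  have e2 := h5_h4 Y₄ hs hacc β
  have e3 := h4_h3 Y₃ hs hQ hxΩ hB β
  have e4 := hd β
  have e5 := h2_h1 Y₂ hQ β (hlev z hz hzx β)
  have c1 := Vale.Agent.P073.H190.Tvp.abs_clamp_sub_le (K.slo s (tg s β) + (D.G C).a s)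
    (K.shi s (tg s β) - (D.G C).a s) (Y₄.f5.toFun x (tg s β)) (Y₄.h5.toFun x (tg s β))
  have c3 := Vale.Agent.P073.H190.Tvp.abs_clamp_sub_le (K.slo s (tg s β) + (D.G C).a s)
    (K.shi s (tg s β) - (D.G C).a s) (Y₃.h4.toFun x (tg s β)) (Y₃.h3.toFun x (tg s β))
  have c4 := Vale.Agent.P073.H190.Tvp.abs_clamp_sub_le (K.slo s (tg s β) + (D.G C).a s)
    (K.shi s (tg s β) - (D.G C).a s) (Y₃.h3.toFun x (tg s β)) (Y₂.h2.toFun z (tg s β))
  have hom := Y₂.Lw.om_eq s β true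
  have ho2 := Y₂.Lw.om_le_two s true
  have hμ := Y₂.Lw.δμ s
  have h0 := Y₂.Lw.δ0 s
  have hc : Y₃.c s β ≤ Y₂.dP s / 8 := Y₃.c1 s β
  rw [abs_sub_comm] at e4
  unfold wP at e2 e5 ⊢
  set t1 := Vale.Agent.P073.H581.clamp (K.slo s (tg s β) + (D.G C).a s)
    (K.shi s (tg s β) - (D.G C).a s) (Y₄.f5.toFun x (tg s β))
  set t2 := Vale.Agent.P073.H581.clamp (K.slo s (tg s β) + (D.G C).a s)
    (K.shi s (tg s β) - (D.G C).a s) (Y₄.h5.toFun x (tg s β))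
  set t3 := Vale.Agent.P073.H581.clamp (K.slo s (tg s β) + (D.G C).a s)
    (K.shi s (tg s β) - (D.G C).a s) (Y₃.h4.toFun x (tg s β))
  set t4 := Vale.Agent.P073.H581.clamp (K.slo s (tg s β) + (D.G C).a s)
    (K.shi s (tg s β) - (D.G C).a s) (Y₃.h3.toFun x (tg s β))
  set t5 := Vale.Agent.P073.H581.clamp (K.slo s (tg s β) + (D.G C).a s)
    (K.shi s (tg s β) - (D.G C).a s) (Y₂.h2.toFun z (tg s β))
  have g1 := abs_sub_le t1 t2 t3
  have g2 := abs_sub_le t1 t3 t4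
  have g3 := abs_sub_le t1 t4 t5
  have g4 := abs_sub_le t1 t5 (Vale.Agent.P073.H581.clamp (K.slo s (tg s β) + (D.G C).a s)
    (K.shi s (tg s β) - (D.G C).a s) (X.h1.toFun z (tg s β)))
  linarith

end Vale.Agent.P073.H919.K3
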