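import Vale.Agent.P073.H919.OscLev2
import Vale.Agent.P073.H471.OscX2

/-!
# P073, [K3-TOP], [OSC-TOP]: the points off the boxes of the hook, pointwise; high faces

* `off_x`: (x2'), pointwise: a point `x` of a mesh set with `h4 x` in no box of the hook;
* `pos_x`: a point of a face which is above the Z-wall of every plate whose hook box it meets.
-/

open Set Metric Topology Filter
open scoped ENNReal

set_option linter.unusedSectionVars false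

namespace Vale.Agent.P073.H919.K3

open _root_.P073 _root_.P073.Net _root_.P073.PA691 _root_.P073.H236 _root_.P073.H579
open _root_.P073.H936 _root_.P073.H936.K3
open _root_.P073.H142
open _root_.P073.H345 (PK PB_sub_PK PK_sub_ss tg PLev PK_unique tg_ne tg_ne_not)
open _root_.P073.H880.RP
open _root_.P073.H919
open _root_.P073.H429
open _root_.P073.H190 (IsS2 PT2)
open Vale.Agent.P073.St (V)
open Vale.Agent.P073.H471 Vale.Agent.P073.H267 Vale.Agent.P073.H471.X2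
open Vale.Agent.P073.H267.K3
open Vale.Agent.P073.H73 (Mesh)
open Vale.Agent.P073.H193 (Edges edges LAtC)
open Vale.Agent.P073.H926
open Vale.Agent.P073.H238.K3
open Vale.Agent.P073.H190.Tvp (wP)
open Vale.Agent.P073.H341 (Abv Mg)

variable {c₀ n δ : ℝ} {j : ℕ} {Ω Λ : Set V} {v w : V} {ρ : V → ℝ} {M : Mesh Ω} {h : ConHomeo Ω Λ}
  {J₀ J : Set (ℕ × (Fin 3 → ℤ))} {P Z : Set M.ι} {K : BoxCx Λ w}
  {D : KIn3 c₀ n j δ v w ρ M h J₀ J P Z} {C : Cells ρ w K} {C₀ μT : ℝ}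
  {X : S1 D C C₀ μT} {Y₂ : S2 X} {Ys : Set M.κ} {sc : Sharp} {Y₃ : S3 Y₂ Ys sc}
  {Y₄ : S4 Y₃} {s : K.S} {k : M.κ}

/-- a point of the box of the exchange is in the box of the hook after the staircases -/
theorem hook_of_PE_pt (Y₃ : S3 Y₂ Ys sc) {x z : V} (hx : x ∈ Ω) (hz : z ∈ Ω)
    (hs : s ∈ (D.dat C).S₀) (hPE : X.h1.toFun z ∈ (D.dat C).PE (D.G C) s)
    (hzx : Y₂.h2.toFun z = Y₃.κ true (Y₃.κ false (Y₃.h3.toFun x))) :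
    Y₃.h4.toFun x ∈ HB (D.G C) (29 / 32) (3 / 4) s := by
  have hτ := (D.B C).τ_pos s
  have h2 : Y₂.h2.toFun z ∈ (D.dat C).PE (D.G C) s := (Y₂.ex.ex.box s hs z hz).2 hPE
  have h3 : Y₂.h2.toFun z ∈ HB (D.G C) 1 (1 / 2) s := by
    obtain ⟨e1, e2, e3⟩ := h2
    have k1 := Y₂.ex.ht.le s hs true
    have k2 := Y₂.ex.ht.le s hs false
    refine mem_HB.2 ⟨fun k hk => ?_, ?_⟩
    · rw [one_mul]; exact e1 k hk
    · rw [abs_le]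
      constructor <;> linarith
  have h5 : Y₃.h3.toFun x ∈ HB (D.G C) 1 (1 / 2) s := by
    refine (κ_mem_iff (G := D.G C) (φ := (Subtype.val : (D.dat C).S₀ → K.S))
      Subtype.val_injective (Y₃.ins.isQ false) (Y₃.ins.isQ true) (b := ⟨s, hs⟩) (by norm_num)
      (by norm_num) (by norm_num)).1 ?_
    rw [← hzx]
    exact h3
  have h7 : Y₃.h3.toFun x ∈ (D.G C).PB (7 / 8) s := HB_PB (by norm_num) (by norm_num) s h5
  have h1 : Y₃.h3.toFun x ∈ (D.G C).PB 1 s := HB_PB le_rfl (by norm_num) s h5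
  refine HB_mono (by norm_num) (by norm_num) s (?_ : _ ∈ HB (D.G C) 1 (1 / 2) s)
  rw [Y₃.map4 x hx, mem_HB_iff (by norm_num)]
  have h8 := Y₃.pt2.mem_PB (s := ⟨s, hs⟩) (c := 1) (by norm_num) le_rfl h1
  refine ⟨h8, ?_⟩
  have h9 := Y₃.pt2.nrm (s := ⟨s, hs⟩) h7
  change PS.map Y₃.T2 (Y₃.h3.toFun x) (K.nrm s) = _ at h9
  rw [h9]
  exact ((mem_HB_iff (by norm_num)).1 h5).2

/-- one staircase, in the support of the square `s`, without windows -/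
theorem step2 (Y₃ : S3 Y₂ Ys sc) (hQ : ∀ s ∈ (D.dat C).S₀, ∀ β, Y₂.Q s β = ∅)
    (hs : s ∈ (D.dat C).S₀) {y : V} (hy : y ∈ PK (D.G C) s) (β : Bool) :
    ‖(Y₃.T2 β).toFun y - y‖ ≤ Y₂.muP s :=
  Y₃.pt2.disp' (Y₂.muP0 s).le fun s' hs' => by
    obtain ⟨s', hs0⟩ := s'
    obtain rfl : s' = s := PK_unique hs' hy
    exact sig_le Y₃ hs0 (hQ s' hs0) β (y (tg s' β))

/-- **(x2'), pointwise** -/
theorem off_x (Y₄ : S4 Y₃) (hQ : ∀ s ∈ (D.dat C).S₀, ∀ β, Y₂.Q s β = ∅) {A : Set V}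
    (hA : A ⊆ Ω) (himg : Y₃.h3.toFun '' A = Pre (Y₃.κ true ∘ Y₃.κ false) Λ Y₂.h2 A) {x : V}
    (hx : x ∈ A)
    (hno : ∀ s ∈ (D.dat C).S₀, Y₃.h4.toFun x ∉ HB (D.G C) (29 / 32) (3 / 4) s) :
    ∃ z ∈ A, Y₂.h2.toFun z = Y₃.κ true (Y₃.κ false (Y₃.h3.toFun x)) ∧
      Y₂.h2.toFun z = X.h1.toFun z ∧
      ((∀ s ∈ (D.dat C).S₀, X.h1.toFun z ∉ PK (D.G C) s) ∧
          Y₄.f5.toFun x = X.h1.toFun z ∨
        ∃ s ∈ (D.dat C).S₀, X.h1.toFun z ∈ PK (D.G C) s ∧ Y₄.f5.toFun x ∈ PK (D.G C) s ∧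
          Y₄.f5.toFun x (K.nrm s) = X.h1.toFun z (K.nrm s) ∧
          ∀ l, |Y₄.f5.toFun x l - X.h1.toFun z l| ≤ 3 * Y₂.muP s) := by
  have hxΩ := hA hx
  have h5 : Y₄.h5.toFun x = Y₃.h4.toFun x :=
    Y₄.hko.off hxΩ fun s hs => hno s.1 s.2 (interior_subset hs)
  have hmap5 : Y₄.f5.toFun x = PS.map Y₄.Tσ (Y₃.h4.toFun x) := by rw [Y₄.map5 x hxΩ, h5]
  obtain ⟨z, hz, h6⟩ : (Y₃.κ true ∘ Y₃.κ false) (Y₃.h3.toFun x) ∈ Y₂.h2.toFun '' A := by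
    have h7 : Y₃.h3.toFun x ∈ Y₃.h3.toFun '' A := ⟨x, hx, rfl⟩
    rw [himg] at h7
    exact h7.2
  have hzx : Y₂.h2.toFun z = Y₃.κ true (Y₃.κ false (Y₃.h3.toFun x)) := h6
  have h21 : Y₂.h2.toFun z = X.h1.toFun z := Y₂.ex.ex.off z (hA hz) fun s hs hi =>
    hno s hs (hook_of_PE_pt Y₃ hxΩ (hA hz) hs (interior_subset hi) hzx)
  have h61 : Y₃.κ true (Y₃.κ false (Y₃.h3.toFun x)) = X.h1.toFun z := by rw [← hzx, h21]
  refine ⟨z, hz, hzx, h21, ?_⟩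
  have hmv : _root_.P073.H429.Mv (D.G C) (D.dat C).S₀ (Y₃.h3.toFun x) (X.h1.toFun z) := by
    rw [← h61]
    exact mv_kP (Y₃.ins.isQ false) (Y₃.ins.isQ true) _
  by_cases hK : ∃ s ∈ (D.dat C).S₀, Y₃.h3.toFun x ∈ PK (D.G C) s
  · right
    obtain ⟨s, hs, hsK⟩ := hK
    have a1 := sp_isQ (G := D.G C) (Y₃.ins.isQ false) (s := ⟨s, hs⟩) hsK
    have a2 := sp_isQ (G := D.G C) (Y₃.ins.isQ true) (s := ⟨s, hs⟩) a1.mem
    have a3 := Sp.comp (c := Y₃.c s) a1 a2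
    rw [h61] at a3
    have b1 := sp_isS2 (G := D.G C) (Y₃.pt2.B false) (Y₃.pt2.isS false) (s := ⟨s, hs⟩)
      (Y₃.pt2.μ0 false _) (Y₃.pt2.μD false _) hsK
    have b2 := sp_isS2 (G := D.G C) (Y₃.pt2.B true) (Y₃.pt2.isS true) (s := ⟨s, hs⟩)
      (Y₃.pt2.μ0 true _) (Y₃.pt2.μD true _) b1.mem
    have b1' : Sp (D.G C) s false (Y₂.muP s) (Y₃.h3.toFun x)
        ((Y₃.T2 false).toFun (Y₃.h3.toFun x)) :=
      ⟨b1.ne, coord_le (step2 Y₃ hQ hs hsK false) _, b1.mem⟩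
    have b2' : Sp (D.G C) s true (Y₂.muP s) ((Y₃.T2 false).toFun (Y₃.h3.toFun x))
        ((Y₃.T2 true).toFun ((Y₃.T2 false).toFun (Y₃.h3.toFun x))) :=
      ⟨b2.ne, coord_le (step2 Y₃ hQ hs b1.mem true) _, b2.mem⟩
    have b3 := Sp.comp (c := fun _ => Y₂.muP s) b1' b2'
    have b4 : Y₃.h4.toFun x = (Y₃.T2 true).toFun ((Y₃.T2 false).toFun (Y₃.h3.toFun x)) :=
      Y₃.map4 x hxΩ
    rw [← b4] at b3
    have c1 := sp_isSg (G := D.G C)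
      (F := fun β => sfam (Y₃.F β) (fun s => Y₄.q s * Y₄.r s) Y₄.p0 Y₄.p1) (β := false)
      (Y₄.sg.B false) (Y₄.sg.isS false) (s := ⟨s, hs⟩) b3.mem
    have c2 := sp_isSg (G := D.G C)
      (F := fun β => sfam (Y₃.F β) (fun s => Y₄.q s * Y₄.r s) Y₄.p0 Y₄.p1) (β := true)
      (Y₄.sg.B true) (Y₄.sg.isS true) (s := ⟨s, hs⟩) c1.mem
    have c3 := Sp.comp (c := fun β => esg (Y₃.F β) (fun s => Y₄.q s * Y₄.r s) ⟨s, hs⟩) c1 c2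
    have c4 : Y₄.f5.toFun x = (Y₄.Tσ true).toFun ((Y₄.Tσ false).toFun (Y₃.h4.toFun x)) := hmap5
    rw [← c4] at c3
    refine ⟨s, hs, a3.mem, c3.mem, by rw [c3.nrm, b3.nrm, a3.nrm], fun l => ?_⟩
    by_cases hl : l = K.nrm s
    · subst hl
      rw [c3.nrm, b3.nrm, a3.nrm, sub_self, abs_zero]
      have := Y₂.muP0 s
      positivity
    · obtain ⟨β, rfl⟩ : ∃ β, l = tg s β :=
        ⟨_root_.P073.H345.bt s l, (_root_.P073.H345.tg_bt s hl).symm⟩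
      have e1 := abs_le.1 (a3.le β)
      have e2 := abs_le.1 (b3.le β)
      have e3 := abs_le.1 (c3.le β)
      have e4 : esg (Y₃.F β) (fun s => Y₄.q s * Y₄.r s) ⟨s, hs⟩ ≤ Y₂.dP s :=
        Y₄.esg_le ⟨s, hs⟩ β
      have e5 : Y₃.c s β ≤ Y₂.dP s / 8 := Y₃.c1 s β
      have hμ := Y₂.Lw.δμ s
      have h0 := Y₂.Lw.δ0 s
      have h7 := Y₂.muP0 s
      rw [abs_le]
      constructor <;> linarith [e1.1, e1.2, e2.1, e2.2, e3.1, e3.2]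
  · left
    push Not at hK
    have e1 := hmv.eq hK
    have e2 : Y₃.h4.toFun x = Y₃.h3.toFun x := by
      rw [Y₃.map4 x hxΩ]
      exact (Y₃.mv2 _).eq hK
    have e3 : Y₄.f5.toFun x = Y₃.h4.toFun x := by
      rw [hmap5]
      exact (mv_sg3 Y₄.sg _).eq (by rw [e2]; exact hK)
    refine ⟨by rw [e1]; exact hK, ?_⟩
    rw [e3, e2, e1]

/-- **positions of the high faces**: a face which is, for every plate whose hook box it meets, above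
the Z-wall at a side which is not protected -/
theorem pos_x (Y₄ : S4 Y₃) (hQ : ∀ s ∈ (D.dat C).S₀, ∀ β, Y₂.Q s β = ∅)
    (hk : ∀ s ∈ (D.dat C).S₀,
      (∃ y ∈ M.F k, Y₃.h4.toFun y ∈ HB (D.G C) (29 / 32) (3 / 4) s) →
      ∃ β₀, ¬ (D.dat C).sd s β₀ ∧ ∀ z ∈ M.F k, Abv K s β₀ ((D.B C).τ s / 4) (X.h1.toFun z))
    {x : V} (hx : x ∈ M.F k) :
    ∃ z ∈ M.F k,
      ((∀ s ∈ (D.dat C).S₀, X.h1.toFun z ∉ PK (D.G C) s) ∧ Y₄.f5.toFun x = X.h1.toFun z) ∨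
      ∃ s ∈ (D.dat C).S₀, X.h1.toFun z ∈ PK (D.G C) s ∧ Y₄.f5.toFun x ∈ PK (D.G C) s ∧
        (∀ β, |wP (D.G C) s β (Y₄.f5.toFun x (tg s β)) -
          wP (D.G C) s β (X.h1.toFun z (tg s β))| ≤ 3 * Y₂.muP s) ∧
        ((Y₃.h4.toFun x ∈ HB (D.G C) (29 / 32) (3 / 4) s ∧
            X.h1.toFun z ∈ HB (D.G C) (29 / 32) (3 / 4) s ∧
            Y₄.f5.toFun x ∈ HB (D.G C) (29 / 32) (3 / 4) s) ∨
          (Y₄.f5.toFun x (K.nrm s) = X.h1.toFun z (K.nrm s) ∧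
            ∀ l, |Y₄.f5.toFun x l - X.h1.toFun z l| ≤ 3 * Y₂.muP s)) := by
  have hkΩ : M.F k ⊆ Ω := Vale.Agent.P073.H193.mesh_sub M k
  by_cases hB : ∃ s ∈ (D.dat C).S₀, Y₃.h4.toFun x ∈ HB (D.G C) (29 / 32) (3 / 4) s
  · obtain ⟨s, hs, hB⟩ := hB
    obtain ⟨β₀, hsd, hhi⟩ := hk s hs ⟨x, hx, hB⟩
    obtain ⟨z, hz, -, hzB, H⟩ := high_face Y₄ hs (hQ s hs) hsd hhi hx hB
    have h5B : Y₄.h5.toFun x ∈ HB (D.G C) (29 / 32) (3 / 4) s :=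
      (Y₄.hko.mem ⟨s, hs⟩ (hkΩ hx)).2 hB
    have hfB : Y₄.f5.toFun x ∈ HB (D.G C) (29 / 32) (3 / 4) s := by
      rw [Y₄.map5 x (hkΩ hx)]
      exact ((_root_.P073.H919.Sg3_prodOn Y₄.sg ⟨s, hs⟩ (c := 29 / 32) (d := 3 / 4)
        (by norm_num) (by norm_num) (by norm_num)).mem _ (Y₄.h5.mapsTo (hkΩ hx))).2 h5B
    exact ⟨z, hz, Or.inr ⟨s, hs, HB_PK hzB, HB_PK hfB, H, Or.inl ⟨hB, hzB, hfB⟩⟩⟩
  · push Not at hB
    obtain ⟨z, hz, -, -, H⟩ := off_x Y₄ hQ hkΩ (Y₃.ins.out.img_face k) hx hB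
    refine ⟨z, hz, ?_⟩
    rcases H with H | ⟨s, hs, h1, h2, h3, h4⟩
    · exact Or.inl H
    · exact Or.inr ⟨s, hs, h1, h2, fun β =>
        (Vale.Agent.P073.H190.Tvp.abs_clamp_sub_le _ _ _ _).trans (h4 _), Or.inr ⟨h3, h4⟩⟩

end Vale.Agent.P073.H919.K3
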