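import Vale.Agent.P073.H919.EdMv

/-!
# P073, [EDGE-P]: the fields `hD`, `hw`, `ho`, `hμ` of the local theorem over the stages
-/

open Set Metric Topology Filter
open scoped ENNReal

set_option linter.unusedSectionVars false

namespace Vale.Agent.P073.H267.K3

open _root_.P073 _root_.P073.Net _root_.P073.PA691 _root_.P073.H236 _root_.P073.H579
open _root_.P073.H142
open _root_.P073.H345 (PK tg tg_ne PLev)
open _root_.P073.H880.RP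
open _root_.P073.H190 (IsS2 PT2)
open _root_.P073.H228.EP (MvB Fat)
open Vale.Agent.P073.H687
open Vale.Agent.P073.St (V)
open Vale.Agent.P073.H471 Vale.Agent.P073.H267
open Vale.Agent.P073.H73 (Mesh)
open Vale.Agent.P073.H193 (Edges Cyc edges)
open Vale.Agent.P073.H926
open Vale.Agent.P073.H238.K3

variable {c₀ n δ : ℝ} {j : ℕ} {Ω Λ : Set V} {v w : V} {ρ : V → ℝ} {M : Mesh Ω} {h : ConHomeo Ω Λ}
  {J₀ J : Set (ℕ × (Fin 3 → ℤ))} {P Z : Set M.ι} {K : BoxCx Λ w}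
  {D : KIn3 c₀ n j δ v w ρ M h J₀ J P Z} {C : Cells ρ w K} {C₀ μT : ℝ}
  {X : S1 D C C₀ μT} {Y₂ : S2 X} {Ys : Set M.κ} {sc : Sharp}

/-- **`hD`**: the displacement of the staircases -/
theorem S3.ein_hD' (Y₃ : S3 Y₂ Ys sc) {dD : K.S → ℝ} (hd : ∀ s, Y₂.muP s + Y₂.J s ≤ dD s) :
    ∀ β (s : (D.dat C).S₀), (Y₃.F β).D s ≤ dD s.1 := fun _ s => hd s.1

theorem S3.ein_hD (Y₃ : S3 Y₂ Ys sc) (hm : ∀ s, Y₂.muP s ≤ 2048 * ω3S δ C s)
    (hJ : ∀ s, Y₂.J s = 2048 * ω3S δ C s) :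
    ∀ β (s : (D.dat C).S₀), (Y₃.F β).D s ≤ 4096 * ω3S δ C s.1 :=
  Y₃.ein_hD' (dD := fun s => 4096 * ω3S δ C s) fun s => by
    have h1 := hm s
    have h2 := hJ s
    show Y₂.muP s + Y₂.J s ≤ 4096 * ω3S δ C s
    linarith

/-- **`hw`**: the displacement at the ends of the windows -/
theorem S3.ein_hw (Y₃ : S3 Y₂ Ys sc) : ∀ β (s : (D.dat C).S₀), ∀ p ∈ xw Y₂ s.1 β,
    |(Y₃.F β).σ s p.1 - p.1| ≤ Y₂.muP s.1 ∧ |(Y₃.F β).σ s p.2 - p.2| ≤ Y₂.muP s.1 := by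
  intro β s p hp
  obtain ⟨h1, h2⟩ := xw_ends Y₂ hp
  exact ⟨F3W_disp_out Y₂.Lw β s h1, F3W_disp_out Y₂.Lw β s h2⟩

/-- **`ho`**, **`hμ`**: the displacement off the windows -/
theorem S3.ein_ho (Y₃ : S3 Y₂ Ys sc) : ∀ β (s : (D.dat C).S₀) t, t ∉ Fat (xw Y₂) s.1 β 0 →
    |(Y₃.F β).σ s t - t| ≤ Y₂.muP s.1 :=
  fun β s _ ht => F3W_disp_out Y₂.Lw β s (notMem_wnd_of_fat Y₂ ht)

/-- the windows are finitely many -/
theorem xw_fin (Y₂ : S2 X) (s : K.S) (β : Bool) : (xw Y₂ s β).Finite := by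
  have h1 : xw Y₂ s β ⊆ (fun q => (q - Y₂.R s, q + Y₂.R s)) '' (Y₂.Q s β : Set ℝ) := by
    rintro p ⟨q, hq, rfl⟩
    exact ⟨q, hq, rfl⟩
  exact ((Y₂.Q s β).finite_toSet.image _).subset h1

end Vale.Agent.P073.H267.K3
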