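import Vale.Agent.P073.H936.K3Box
import Vale.Agent.P073.H237.NearDef

/-!
# P073, block H919: [FIB2] (c) ROOT

Near a side wall of the box of a hook, where only one of the two families of sheets is present,
the passive points are in the root regions of the switched sheets.
-/

open Set Metric Topology Filter

set_option linter.unusedSectionVars false

/-! ### connected sets and the root region -/

namespace P073.H936.LamData

variable {E : Type*} [NormedAddCommGroup E] [NormedSpace ℝ E] {ι κ : Type*}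
  {D : SwData ι κ E} {L : LamData D}

/-- a connected set which misses the block and reaches the lateral boundary is outside -/
theorem out_of_conn {c : κ} {X : Bool} {C : Set E} (hC : IsPreconnected C)
    (hCN : C ⊆ D.N (D.sh c X)) (hCK : Disjoint C (D.K c)) {x y : E} (hx : x ∈ C) (hy : y ∈ C)
    (hy1 : ‖((D.φ (D.sh c X)).toFun y).1‖ = 1) : ((D.φ (D.sh c X)).toFun x).1 ∉ L.O c X := by
  have hcont : ContinuousOn (fun x => ((D.φ (D.sh c X)).toFun x).1) C :=
    continuous_fst.comp_continuousOn ((D.φ (D.sh c X)).cont.mono hCN)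
  have hpre := hC.image _ hcont
  have hdis : Disjoint ((fun x => ((D.φ (D.sh c X)).toFun x).1) '' C) (frontier (L.O c X)) := by
    rw [frontier_O, Set.disjoint_left]
    rintro _ ⟨z, hz, rfl⟩ hz'
    have h1 : z ∈ D.K c := (SwData.mem_K_iff (hCN hz)).2 (rout_sub_A c X hz')
    exact Set.disjoint_left.1 hCK hz h1
  rcases subset_interior_or_compl hpre hdis with h | h
  · exfalso
    have h1 := L.O_sub c X (interior_subset (h (mem_image_of_mem _ hy)))
    rw [mem_ball_zero_iff] at h1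
    exact absurd hy1 h1.ne
  · rw [(isClosed_O c X).closure_eq] at h
    exact h (mem_image_of_mem _ hx)

/-- **the root region** from a connected set -/
theorem mem_root_of_conn [Finite κ] {r : ℝ} {i : ι} {C : Set E} (hC : IsPreconnected C)
    (hCN : C ⊆ D.N i) (hCK : ∀ c, Disjoint C (D.K c)) {x y z : E} (hz : z ∈ C) (hy : y ∈ C)
    (hy1 : ‖((D.φ i).toFun y).1‖ = 1) (hx : x ∈ D.N i) (hr : |D.s i x| ≤ r)
    (hxz : ((D.φ i).toFun x).1 = ((D.φ i).toFun z).1) : x ∈ L.PP r (Sum.inl i) := by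
  refine ⟨hx, ⟨((D.φ i).mapsTo hx).1, ?_⟩, hr⟩
  rintro ⟨c, X⟩ hd hO
  have hs : i = D.sh c X := by
    have := LamData.sheet_out (L := L) c X
    rw [hd] at this
    exact this
  subst hs
  have hO1 : ((D.φ (D.sh c X)).toFun x).1 ∈ L.O c X := hO.1
  rw [hxz] at hO1
  exact out_of_conn hC hCN (hCK c) hz hy hy1 hO1

end P073.H936.LamData

/-! ### the connected set over the caps -/

namespace P073.H142.Pre

open P073 P073.H936 P073.TR

variable {ι Q : Type*} {E : Type} [NormedAddCommGroup E] [NormedSpace ℝ E] (P : Pre ι Q E)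

theorem D_sub_N (i : ι) : P.D i ⊆ P.N i := fun z hz => by
  have h1 := (P.Γ i).mapsTo (show (z, (0:ℝ)) ∈ P.D i ×ˢ Icc (-1:ℝ) 1 from ⟨hz, zero_mem_I⟩)
  rwa [P.zero i z hz] at h1

theorem D'_sub_N' (i : ι) : P.D' i ⊆ P.N' i := fun z hz => by
  have h1 := (P.Γ' i).mapsTo (show (z, (0:ℝ)) ∈ P.D' i ×ˢ Icc (-1:ℝ) 1 from ⟨hz, zero_mem_I⟩)
  rwa [P.Γ'_zero i hz] at h1

/-- `A` together with the discs which meet `A` -/
def A₁ (i : ι) (A : Set E) : Set E :=
  ⋃₀ ({A} ∪ range fun c : {c : P.K i // (P.O i c ∩ A).Nonempty} => A ∪ P.O i c.1)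

/-- the set over the caps -/
def A' (i : ι) (A : Set E) : Set E := (P.θ i).invFun '' P.A₁ i A

variable {P} {i : ι} {A : Set E}

theorem mem_A₁ {x : E} : x ∈ P.A₁ i A ↔ x ∈ A ∨ ∃ c : P.K i, (P.O i c ∩ A).Nonempty ∧
    x ∈ P.O i c := by
  unfold A₁
  constructor
  · rintro ⟨s, hs | ⟨c, rfl⟩, hx⟩
    · rw [mem_singleton_iff] at hs
      subst hs
      exact Or.inl hx
    · rcases hx with hx | hx
      · exact Or.inl hx
      · exact Or.inr ⟨c.1, c.2, hx⟩
  · rintro (hx | ⟨c, hc, hx⟩)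
    · exact ⟨A, Or.inl rfl, hx⟩
    · exact ⟨_, Or.inr ⟨⟨c, hc⟩, rfl⟩, Or.inr hx⟩

theorem A₁_sub (hA : A ⊆ P.D i) : P.A₁ i A ⊆ P.D i := by
  intro x hx
  rcases mem_A₁.1 hx with h | ⟨c, -, h⟩
  · exact hA h
  · exact (P.sheet i).O_sub c h

theorem A₁_pre (hA : IsPreconnected A) (hne : A.Nonempty) : IsPreconnected (P.A₁ i A) := by
  obtain ⟨a, ha⟩ := hne
  refine isPreconnected_sUnion a _ ?_ ?_
  · rintro s (hs | ⟨c, rfl⟩)
    · rw [mem_singleton_iff] at hs
      rw [hs]; exact ha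
    · exact Or.inl ha
  · rintro s (hs | ⟨c, rfl⟩)
    · rw [mem_singleton_iff] at hs
      rw [hs]; exact hA
    · obtain ⟨y, hy1, hy2⟩ := c.2
      exact hA.union y hy2 hy1 (P.O_ball i c.1).isPreconnected'

theorem A'_sub (hA : A ⊆ P.D i) : P.A' i A ⊆ P.D' i := by
  rintro _ ⟨x, hx, rfl⟩
  exact (P.θ i).mapsTo_inv (A₁_sub hA hx)

theorem A'_pre (hA : IsPreconnected A) (hne : A.Nonempty) (hAD : A ⊆ P.D i) :
    IsPreconnected (P.A' i A) :=
  (A₁_pre hA hne).image _ ((P.θ i).cont_inv.mono (A₁_sub hAD))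

theorem mem_A'_co {z : E} (hz : z ∈ A) (hzc : z ∈ P.co i) : z ∈ P.A' i A := by
  refine ⟨z, mem_A₁.2 (Or.inl hz), ?_⟩
  have h5 : (P.θ i).toFun z = z := P.θ_id i hzc
  nth_rewrite 1 [← h5]
  exact (P.θ i).left_inv (P.co_D' i hzc)

theorem mem_A'_cap {c : P.K i} (hc : (P.O i c ∩ A).Nonempty) {z : E} (hz : z ∈ P.Δ₀ i c) :
    z ∈ P.A' i A := by
  refine ⟨(P.θ i).toFun z, mem_A₁.2 (Or.inr ⟨c, hc, ?_⟩), (P.θ i).left_inv (P.cap_D' i c hz)⟩
  rw [← P.θ_cap i c]
  exact mem_image_of_mem _ hz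

theorem A'_cases (hA : A ⊆ P.D i) {y : E} (hy : y ∈ P.A' i A) :
    (y ∈ P.co i ∧ y ∈ A) ∨ ∃ c : P.K i, (P.O i c ∩ A).Nonempty ∧ y ∈ P.Δ₀ i c := by
  obtain ⟨x, hx, rfl⟩ := hy
  have hxD := A₁_sub hA hx
  set y := (P.θ i).invFun x with hy
  have hyx : (P.θ i).toFun y = x := (P.θ i).right_inv hxD
  have hyD : y ∈ P.D' i := (P.θ i).mapsTo_inv hxD
  rcases mem_A₁.1 hx with h | ⟨c, hc, h⟩
  · rcases hyD with h1 | h1
    · left
      have h2 : (P.θ i).toFun y = y := P.θ_id i h1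
      refine ⟨h1, ?_⟩
      rw [← h2, hyx]
      exact h
    · right
      obtain ⟨c, hc⟩ := mem_iUnion.1 h1
      refine ⟨c, ⟨x, ?_, h⟩, hc⟩
      rw [← P.θ_cap i c, ← hyx]
      exact mem_image_of_mem _ hc
  · right
    rw [← P.θ_cap i c] at h
    obtain ⟨y', hy', he⟩ := h
    rw [← hyx] at he
    rw [← (P.θ i).injOn (P.cap_D' i c hy') hyD he]
    exact ⟨c, hc, hy'⟩

/-- a disc which meets a connected set reaching the boundary: its circle meets the set -/
theorem γ_meets (hA : IsPreconnected A) (hAD : A ⊆ P.D i) (hb : (A ∩ P.Bd).Nonempty) {c : P.κ i}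
    (hc : (P.O i c ∩ A).Nonempty) : (P.γ i c ∩ A).Nonempty := by
  by_contra hcon
  have hd : Disjoint A (P.γ i c) := by
    rw [Set.disjoint_left]
    exact fun x hx hx' => hcon ⟨x, hx', hx⟩
  obtain ⟨x, hx, hxA⟩ := hc
  obtain ⟨b, hbA, hbB⟩ := hb
  have hxo : x ∈ P.O i c \ P.γ i c := ⟨hx, disjoint_left.1 hd hxA⟩
  rcases (P.sheet i).dichB hA hAD hd with h | h
  · exact disjoint_left.1 (P.O_bd i c) (h hbA).1 hbB
  · exact disjoint_left.1 h hxA hxo

/-- **the set over the caps misses the sheets of the other family** -/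
theorem A'_disj (hA : IsPreconnected A) (hAD : A ⊆ P.D i) (hb : (A ∩ P.Bd).Nonempty) {j : ι}
    (h1 : ∀ y ∈ A, y ∉ P.N j)
    (h2 : ∀ q, ((P.V q ∪ P.B q) ∩ A).Nonempty → ∀ y ∈ P.V q ∪ P.B q, y ∉ P.N j) :
    Disjoint (P.A' i A) (P.N' j) := by
  rw [Set.disjoint_left]
  intro y hy hyN
  rcases A'_cases hAD hy with ⟨hyc, hyA⟩ | ⟨c, hc, hyc⟩
  · rcases hyN with h | h
    · exact h1 y hyA (P.PP_N j h)
    · obtain ⟨d, hd⟩ := mem_iUnion.1 h
      rcases P.cap_sub j d hd with h3 | h3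
      · exact disjoint_left.1 ((P.sheet i).core_V _) hyc h3
      · exact h1 y hyA (P.PP_N j (P.Lat_PP j d d.2 h3))
  · obtain ⟨p, hpγ, hpA⟩ := γ_meets hA hAD hb hc
    have hq := h2 (P.cell i c) ⟨p, Or.inr (P.γB i c hpγ), hpA⟩
    have hyVB : y ∈ P.V (P.cell i c) ∪ P.B (P.cell i c) := by
      rcases (P.caps₀ i).sub c c.2 hyc with h | h
      · exact Or.inl h
      · exact Or.inr (P.γB i c h)
    rcases hyN with h | h
    · exact hq y hyVB (P.PP_N j h)
    · obtain ⟨d, hd⟩ := mem_iUnion.1 h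
      rcases P.cap_sub j d hd with h3 | h3
      · have hcd : P.cell i c = P.cell j d := by
          by_contra hne
          rcases hyVB with h4 | h4
          · exact disjoint_left.1 (P.V_disj _ _ hne) h4 h3
          · exact disjoint_left.1 (P.VB _ _) h3 h4
        obtain ⟨p', hp', -⟩ := P.near j d
        refine hq p' (Or.inr ?_) (P.D_sub_N j (P.γD j d hp'))
        rw [hcd]
        exact P.γB j d hp'
      · exact hq y hyVB (P.PP_N j (P.Lat_PP j d d.2 h3))

end P073.H142.Pre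

/-! ### the box -/

namespace P073.H936.K3.BoxK

open P073 P073.H936 P073.H880 P073.H669 P073.H579

variable {ι : Type*} {E : Type} [NormedAddCommGroup E] [NormedSpace ℝ E]
  {side : ι → Bool} {ax : Bool → Fin 3} {lo hi : Fin 3 → ℝ} {c w : ι → ℝ} {U : Set E} {Q : Type}
  (D : BoxK side ax lo hi c w U Q)

variable {D} {X : Bool} {T : Set (Fin 3 → ℝ)} {x : E}

theorem Nr.mem (h : D.Nr T x) : D.h.toFun x ∈ T := by
  rcases h.2 with h1 | ⟨q, h1, h2⟩
  · exact h1.1
  · exact h2 ⟨x, h1, rfl⟩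

variable [Finite ι]

theorem mem_preD (i : ι) (hx : x ∈ U) :
    x ∈ D.pre.D i ↔ D.h.toFun x (ax (side i)) = c i := mem_dsheet D.h hx

theorem preD_sub (i : ι) : D.pre.D i ⊆ U := (D.pre.D_sub_N i).trans (D.pre_N_sub i)

theorem preVB_eq (q : Q) : D.pre.V q ∪ D.pre.B q = D.K.C q := D.bi.VB_eq q

/-- two cells with a common point, interior to the first one -/
theorem cell_eq₁ {q q' : Q} (h : x ∈ interior (D.K.C q)) (h' : x ∈ D.K.C q') : q = q' := by
  have h1 : x ∈ D.pre.V q := h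
  rw [← preVB_eq (D := D) q'] at h'
  by_contra hne
  rcases h' with h2 | h2
  · exact disjoint_left.1 (D.pre.V_disj _ _ hne) h1 h2
  · exact disjoint_left.1 (D.pre.VB _ _) h1 h2

/-- a passive point of a new sheet is in the old part -/
theorem PP_of_passive {i : ι} (hx : x ∈ D.vf.N i) (hp : ∀ q, x ∉ interior (D.K.C q)) :
    x ∈ D.pre.PP i := by
  rcases hx with h | h
  · exact h
  · obtain ⟨k, hk⟩ := mem_iUnion.1 h
    rcases D.pre.cap_sub i k hk with h1 | h1
    · exact absurd h1 (hp _)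
    · exact D.pre.Lat_PP i k k.2 h1

/-- the foot of a point of the old part -/
theorem foot_PP {i : ι} (hx : x ∈ D.pre.PP i) :
    D.vf.foot i x ∈ D.pre.co i ∧
      D.h.toFun (D.vf.foot i x) (ax (side i)) = c i ∧
      (∀ l, l ≠ ax (side i) → D.h.toFun (D.vf.foot i x) l = D.h.toFun x l) ∧
      D.vf.s i x = (D.h.toFun x (ax (side i)) - c i) / w i ∧
      (D.vf.Gam i).toFun (D.vf.foot i x, D.vf.s i x) = x := by
  obtain ⟨⟨z, t⟩, ⟨hz, ht⟩, rfl⟩ := hx
  have hzD' := D.pre.co_D' i hz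
  have e1 : (D.pre.Γ i).toFun (z, t) = (D.pre.Γ' i).toFun (z, t) := (D.pre.Γ'_co i hz ht).symm
  have e2 : D.vf.foot i ((D.pre.Γ i).toFun (z, t)) = z := by
    rw [e1]
    show ((D.pre.Γ' i).invFun _).1 = z
    rw [(D.pre.Γ' i).left_inv (show (z, t) ∈ D.pre.D' i ×ˢ Icc (-1:ℝ) 1 from ⟨hzD', ht⟩)]
  have e3 : D.vf.s i ((D.pre.Γ i).toFun (z, t)) = t := by
    rw [e1]
    exact D.pre.s'_Γ' i hzD' ht
  have hzU : z ∈ U := preD_sub i hz.1
  have hzs : z ∈ D.h.symm.toFun '' sheet lo hi (ax (side i)) (c i) := hz.1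
  have hs : slide (ax (side i)) (c i) (w i) (D.h.toFun z, t) ∈ Icc lo hi :=
    slide_mem (D.H.ok i) (D.h.mapsTo hzU) (abs_le.2 ht)
  have e4 : D.h.toFun ((D.pre.Γ i).toFun (z, t)) =
      slide (ax (side i)) (c i) (w i) (D.h.toFun z, t) := by
    have e5 : (D.pre.Γ i).toFun (z, t) =
        D.h.invFun (slide (ax (side i)) (c i) (w i) (D.h.toFun z, t)) :=
      dsys_fib D.H D.h i hzs t
    rw [e5]
    exact D.h.right_inv hs
  have hzc : D.h.toFun z (ax (side i)) = c i := (mem_preD i hzU).1 hz.1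
  refine ⟨by rw [e2]; exact hz, by rw [e2]; exact hzc, fun l hl => ?_, ?_, ?_⟩
  · rw [e2, e4, slide_ne hl]
  · rw [D.vf_s, D.pre.s'_PP i ⟨(z, t), ⟨hz, ht⟩, rfl⟩, D.pre_s]
  · rw [e2, e3, e1]
    rfl

/-- **(R2a)** the points near the wall are in no sheet of the other family -/
theorem Near.not_N (H : D.Near X T) (hx : D.Nr T x) {j : ι} (hj : side j ≠ X) :
    x ∉ D.vf.N j := by
  have hxT := hx.mem
  have hPP : x ∉ D.pre.PP j := fun h => by
    have h1 := (D.pre_N j hx.1).1 (D.pre.PP_N j h)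
    exact absurd h1 (not_le.2 (H.far j hj _ hxT))
  rintro (h | h)
  · exact hPP h
  · obtain ⟨d, hd⟩ := mem_iUnion.1 h
    rcases D.pre.cap_sub j d hd with h1 | h1
    · rcases hx.2 with ⟨-, h2⟩ | ⟨q, h2, h3⟩
      · exact h2 _ h1
      · have hq : D.pre.cell j d = q := cell_eq₁ h1 h2
        obtain ⟨p, hp, -⟩ := D.pre.near j d
        have hpq : p ∈ D.K.C q := by
          rw [← hq, ← preVB_eq]
          exact Or.inr (D.pre.γB j d hp)
        have hpU : p ∈ U := D.K.sub q hpq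
        have h4 := (mem_preD j hpU).1 (D.pre.γD j d hp)
        have h5 := H.cell q ⟨_, ⟨x, h2, rfl⟩, hxT⟩ j hj p hpq
        rw [h4, sub_self, abs_zero] at h5
        exact absurd h5 (not_lt.2 (D.H.ok j).pos.le)
    · exact hPP (D.pre.Lat_PP j d d.2 h1)

/-- **(R1) [ROOT]** the points near the wall are in the root region -/
theorem Near.root (H : D.Near X T) {L : LamData D.vf.swData} {r : ℝ} {i : ι} (hi : side i = X)
    (hx : D.Nr T x) (hN : x ∈ D.vf.N i) (hr : |D.vf.s i x| ≤ r) : x ∈ L.PP r (Sum.inl i) := by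
  have hxT := hx.mem
  set A : Set E := {x | x ∈ D.pre.D i ∧ D.h.toFun x ∈ T} with hAdef
  have hAD : A ⊆ D.pre.D i := fun x hx => hx.1
  have hAU : A ⊆ U := hAD.trans (preD_sub i)
  have hAeq : A = D.h.invFun '' (T ∩ {y | y (ax X) = c i}) := by
    ext y
    constructor
    · rintro ⟨h1, h2⟩
      have hyU := preD_sub i h1
      have h3 := (mem_preD i hyU).1 h1
      rw [hi] at h3
      exact ⟨D.h.toFun y, ⟨h2, h3⟩, D.h.left_inv hyU⟩
    · rintro ⟨y, ⟨h1, h2⟩, rfl⟩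
      have hyI := H.sub h1
      refine ⟨(mem_preD i (D.h.mapsTo_inv hyI)).2 ?_, ?_⟩
      · rw [D.h.right_inv hyI, hi]; exact h2
      · show D.h.toFun (D.h.invFun y) ∈ T
        rw [D.h.right_inv hyI]; exact h1
  have hApre : IsPreconnected A := by
    rw [hAeq]
    exact (H.conn i hi).image _ (D.h.cont_inv.mono (inter_subset_left.trans H.sub))
  obtain ⟨y₀, ⟨hy₀T, hy₀c⟩, hy₀f⟩ := H.bdry i hi
  have hy₀I := H.sub hy₀T
  have hbA : D.h.invFun y₀ ∈ A := by rw [hAeq]; exact ⟨y₀, ⟨hy₀T, hy₀c⟩, rfl⟩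
  have hbB : D.h.invFun y₀ ∈ D.pre.Bd := ⟨y₀, hy₀f, rfl⟩
  have hb : (A ∩ D.pre.Bd).Nonempty := ⟨_, hbA, hbB⟩
  have hCD' : D.pre.A' i A ⊆ D.pre.D' i := H142.Pre.A'_sub hAD
  have hCN : D.pre.A' i A ⊆ D.vf.N i := hCD'.trans (D.pre.D'_sub_N' i)
  have hCpre : IsPreconnected (D.pre.A' i A) := H142.Pre.A'_pre hApre ⟨_, hbA⟩ hAD
  have hcell : ∀ q, ((D.pre.V q ∪ D.pre.B q) ∩ A).Nonempty → ∀ j, side j ≠ X →
      ∀ y ∈ D.pre.V q ∪ D.pre.B q, y ∉ D.pre.N j := by
    rintro q ⟨p, hp, hpA⟩ j hj y hy hyN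
    rw [preVB_eq] at hp hy
    have h1 := H.cell q ⟨_, ⟨p, hp, rfl⟩, hpA.2⟩ j hj y hy
    exact absurd ((D.pre_N j (D.K.sub q hy)).1 hyN) (not_le.2 h1)
  have hCj : ∀ j, side j ≠ X → Disjoint (D.pre.A' i A) (D.vf.N j) := fun j hj =>
    H142.Pre.A'_disj hApre hAD hb (fun y hy hyN =>
      absurd ((D.pre_N j (hAU hy)).1 hyN) (not_le.2 (H.far j hj _ hy.2)))
      (fun q hq => hcell q hq j hj)
  have hCK : ∀ k, Disjoint (D.pre.A' i A) (D.vf.swData.K k) := fun k => by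
    have h1 : side (D.vf.shc k (!X)) ≠ X := by
      have h2 : D.vf.side (D.vf.shc k (!X)) = !X := VFam.shc_side k (!X)
      have h3 : side (D.vf.shc k (!X)) = !X := h2
      rw [h3]; cases X <;> decide
    exact (hCj _ h1).mono_right (VFam.Kc_sub k (!X))
  have hbC : D.h.invFun y₀ ∈ D.pre.A' i A := H142.Pre.mem_A'_co hbA (D.pre.bd_co i (hAD hbA) hbB)
  have hb1 : ‖((D.vf.swData.φ i).toFun (D.h.invFun y₀)).1‖ = 1 :=
    (VFam.norm_phi (hCN hbC)).2 hbB
  have hz : D.vf.foot i x ∈ D.pre.A' i A := by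
    have hPP : x ∈ D.pre.PP i → D.vf.foot i x ∈ D.pre.A' i A := by
      intro h
      obtain ⟨h1, h2, h3, -, -⟩ := foot_PP h
      have hzU := preD_sub i h1.1
      refine H142.Pre.mem_A'_co ⟨h1.1, ?_⟩ h1
      refine H.vert _ hxT _ (D.h.mapsTo hzU) fun l hl => h3 l ?_
      rw [hi]; exact hl
    rcases hN with h | h
    · exact hPP h
    · obtain ⟨k, hk⟩ := mem_iUnion.1 h
      rcases D.pre.cap_sub i k hk with h1 | h1
      · rcases hx.2 with ⟨-, h2⟩ | ⟨q, h2, h3⟩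
        · exact absurd h1 (h2 _)
        · have hq : D.pre.cell i k = q := cell_eq₁ h1 h2
          obtain ⟨p, hp, -⟩ := D.pre.near i k
          have hpq : p ∈ D.K.C q := by
            rw [← hq, ← preVB_eq]
            exact Or.inr (D.pre.γB i k hp)
          have hO : (D.pre.O i k ∩ A).Nonempty :=
            ⟨p, (D.pre.sheet i).γ_sub k hp, D.pre.γD i k hp, h3 ⟨p, hpq, rfl⟩⟩
          obtain ⟨⟨z, t⟩, ⟨hz, ht⟩, he⟩ :
              x ∈ (D.pre.G i k).toFun '' (D.pre.Δ₀ i k ×ˢ Icc (-1:ℝ) 1) := by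
            rw [(D.pre.G i k).image_eq]; exact hk
          have e2 : D.vf.foot i x = z := by
            rw [← he, ← D.pre.Γ'_cap i k hz ht]
            show ((D.pre.Γ' i).invFun _).1 = z
            rw [(D.pre.Γ' i).left_inv
              (show (z, t) ∈ D.pre.D' i ×ˢ Icc (-1:ℝ) 1 from ⟨D.pre.cap_D' i k hz, ht⟩)]
          rw [e2]
          exact H142.Pre.mem_A'_cap hO hz
      · exact hPP (D.pre.Lat_PP i k k.2 h1)
  have hN' : x ∈ D.vf.N i := hN
  refine LamData.mem_root_of_conn hCpre hCN hCK hz hbC hb1 hN' hr ?_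
  show ((D.vf.phi i).toFun x).1 = ((D.vf.phi i).toFun (D.vf.foot i x)).1
  have hfm := VFam.foot_mem (V := D.vf) hN'
  rw [VFam.phi_apply hN', VFam.phi_apply hfm.1, VFam.foot_of_mid hfm]

/-- **(R2) [ROOT]** the points near the wall are in no new sheet of the other family -/
theorem Near.not_B (H : D.Near X T) {L : LamData D.vf.swData} {r : ℝ} (h1 : r < 1)
    (O : SwOut D.vf.swData L r) (hx : D.Nr T x) {j : ι} (hj : side j ≠ X) : x ∉ O.B j := by
  intro hB
  obtain ⟨m, hm, h⟩ := (O.B_eq j x).1 hB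
  rcases h with h | ⟨d, hd, h⟩
  · have hN : x ∈ D.vf.N (LamData.sheet D.vf.swData m) := h.1
    by_cases hs : side (LamData.sheet D.vf.swData m) = X
    · have h2 := H.root (L := L) hs hx hN (LamData.PP_level h)
      rcases m with i | ⟨k, Y⟩
      · have h3 : j ≠ i := fun e => hj (e ▸ hs)
        exact disjoint_left.1 (O.V_disj j i h3) hm (O.root i)
      · exact disjoint_left.1 (LamData.PP_disj h1 (by simp)) h h2
    · exact H.not_N hx hs hN
  · have h2 : x ∈ D.vf.N (D.vf.shc d.1 (!X)) := VFam.Kc_sub d.1 (!X) h.1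
    have h3 : side (D.vf.shc d.1 (!X)) ≠ X := by
      have h4 : D.vf.side (D.vf.shc d.1 (!X)) = !X := VFam.shc_side d.1 (!X)
      have h5 : side (D.vf.shc d.1 (!X)) = !X := h4
      rw [h5]; cases X <;> decide
    exact H.not_N hx h3 h2

/-- **(R3) [ROOT]** near the wall the new sheets of the family `X` are the old ones -/
theorem Near.mem_B_iff (H : D.Near X T) {L : LamData D.vf.swData} {r : ℝ} (h1 : r < 1)
    (O : SwOut D.vf.swData L r) (hx : D.Nr T x) {i : ι} (hi : side i = X) :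
    x ∈ O.B i ↔ x ∈ D.vf.N i ∧ |D.vf.s i x| ≤ r := by
  constructor
  · intro hB
    obtain ⟨m, hm, h⟩ := (O.B_eq i x).1 hB
    rcases h with h | ⟨d, hd, h⟩
    · have hN : x ∈ D.vf.N (LamData.sheet D.vf.swData m) := h.1
      have hs : side (LamData.sheet D.vf.swData m) = X := by
        by_contra hs
        exact H.not_N hx hs hN
      have h2 := H.root (L := L) hs hx hN (LamData.PP_level h)
      rcases m with i' | ⟨k, Y⟩
      · have e : i' = i := by
          by_contra hne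
          exact disjoint_left.1 (O.V_disj i' i hne) (O.root i') hm
        subst e
        exact ⟨hN, LamData.PP_level h⟩
      · exact absurd h2 (disjoint_left.1 (LamData.PP_disj h1 (by simp)) h)
    · have h2 : x ∈ D.vf.N (D.vf.shc d.1 (!X)) := VFam.Kc_sub d.1 (!X) h.1
      have h3 : side (D.vf.shc d.1 (!X)) ≠ X := by
        have h4 : D.vf.side (D.vf.shc d.1 (!X)) = !X := VFam.shc_side d.1 (!X)
        have h5 : side (D.vf.shc d.1 (!X)) = !X := h4
        rw [h5]; cases X <;> decide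
      exact absurd h2 (H.not_N hx h3)
  · rintro ⟨h2, h3⟩
    exact (O.B_eq i x).2 ⟨_, O.root i, Or.inl (H.root hi hx h2 h3)⟩

/-- the new level near the wall is the old one -/
theorem Near.b_eq (H : D.Near X T) {L : LamData D.vf.swData} {r : ℝ} (h1 : r < 1)
    (O : SwOut D.vf.swData L r) (hx : D.Nr T x) {i : ι} (hi : side i = X) (hB : x ∈ O.B i) :
    O.b i x = D.vf.s i x := by
  obtain ⟨h2, h3⟩ := (H.mem_B_iff h1 O hx hi).1 hB
  have h4 := O.level_P i _ (O.root i) x (H.root hi hx h2 h3)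
  rw [O.sign_root, one_mul] at h4
  exact h4

/-- **(R3)** for passive points: position and fibre -/
theorem Near.passive (H : D.Near X T) {L : LamData D.vf.swData} {r : ℝ} (h1 : r < 1)
    (O : SwOut D.vf.swData L r) (hxU : x ∈ U) (hxT : D.h.toFun x ∈ T)
    (hp : ∀ q, x ∉ interior (D.K.C q)) {i : ι} (hi : side i = X) (hB : x ∈ O.B i) :
    |D.h.toFun x (ax X) - c i| ≤ r * w i ∧ O.b i x = (D.h.toFun x (ax X) - c i) / w i ∧
      x ∈ D.pre.PP i := by
  have hx : D.Nr T x := ⟨hxU, Or.inl ⟨hxT, hp⟩⟩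
  obtain ⟨h2, h3⟩ := (H.mem_B_iff h1 O hx hi).1 hB
  have hPP := PP_of_passive h2 hp
  obtain ⟨-, -, -, h4, -⟩ := foot_PP hPP
  rw [hi] at h4
  refine ⟨?_, ?_, hPP⟩
  · rw [h4, abs_div, abs_of_pos (D.H.ok i).pos, div_le_iff₀ (D.H.ok i).pos] at h3
    exact h3
  · rw [H.b_eq h1 O hx hi hB, h4]

end P073.H936.K3.BoxK
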