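import Vale.Agent.P073.H919.HookG
import Vale.Agent.P073.H919.Root
import Vale.Agent.P073.H936.Fib2
import Vale.Agent.P073.H79.Keep

/-!
# P073, block H919: [P-HOOK-F], the hook of the plates with fibres

* `exists_hook_switchedF`: the hook with fibres (`SwitchedF`) in all boxes.
* `near_lower`, `near_upper`: the part of a box near a side wall is `Near`.
* `HkGF`: output of the hook of the plates with fibres; `HkGF.keep`: the mesh sets stay band
  invariant near the side walls.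
-/

open Set Metric Topology Filter MeasureTheory
open scoped ENNReal

set_option linter.unusedSectionVars false

namespace P073.H880

open P073 P073.H936 P073.H936.K3 P073.H142

/-- **[HOOK] with fibres** -/
theorem exists_hook_switchedF {E : Type} [NormedAddCommGroup E] [NormedSpace ℝ E] {Ω : Set E}
    {Λ : Set (Fin 3 → ℝ)} {γ : Type*} (hΩ : IsOpen Ω) (hΛ : IsOpen Λ) (h : ConHomeo Ω Λ)
    (X : γ → HBox) (I : ∀ b, (X b).In h)
    (hfin : ∀ z ∈ Λ, ∃ O ∈ 𝓝 z, {b | ((X b).P ∩ O).Nonempty}.Finite)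
    (hdis : ∀ b b', b ≠ b' → Disjoint (interior (X b).P) (X b').P)
    (r q : γ → ℝ) (h0 : ∀ b, 0 < r b) (h1 : ∀ b, r b < 1) (q0 : ∀ b, 0 < q b)
    (q1 : ∀ b, q b < 1) :
    ∃ h' : ConHomeo Ω Λ, Glued X h h' ∧
      ∀ b, ∃ g : ConHomeo ((X b).U h) (Icc (X b).lo (X b).hi),
        (∃ L O, ((I b).boxK hΩ).SwitchedF (r b) (q b) g L O) ∧
        EqOn h'.toFun g.toFun ((X b).U h) ∧ EqOn h'.invFun g.invFun (X b).P := by
  refine exists_glued hΩ hΛ h X I hfin hdis
    (fun b g => ∃ L O, ((I b).boxK hΩ).SwitchedF (r b) (q b) g L O) fun b => ?_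
  obtain ⟨g, L, O, hg⟩ := ((I b).boxK hΩ).exists_switchedF (h0 b) (h1 b) (q0 b) (q1 b)
  exact ⟨g, ⟨L, O, hg⟩, hg.bd⟩

end P073.H880

namespace P073.H936.K3

open P073 P073.H936 P073.H880 P073.H669 P073.H579

section near

variable {ι : Type*} {E : Type} [NormedAddCommGroup E] [NormedSpace ℝ E]
  {side : ι → Bool} {ax : Bool → Fin 3} {lo hi : Fin 3 → ℝ} {c w : ι → ℝ} {U : Set E} {Q : Type}

theorem ne_not {X Y : Bool} (h : Y ≠ X) : Y = !X := by cases X <;> cases Y <;> simp_all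

theorem ax_ne (H : Bands side ax lo hi c w) (X : Bool) : ax X ≠ ax (!X) := by
  cases X
  · exact H.axne.symm
  · exact H.axne

theorem mem_frontier_Icc {y : Fin 3 → ℝ} {k : Fin 3} (hy : y ∈ Icc lo hi)
    (h : y k = lo k ∨ y k = hi k) : y ∈ frontier (Icc lo hi) := by
  refine ⟨subset_closure hy, fun hint => ?_⟩
  rw [← Set.pi_univ_Icc, interior_pi_set (toFinite _)] at hint
  have h1 : y k ∈ interior (Icc (lo k) (hi k)) := hint k (mem_univ k)
  rw [interior_Icc] at h1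
  rcases h with h | h
  · rw [h] at h1; exact lt_irrefl _ h1.1
  · rw [h] at h1; exact lt_irrefl _ h1.2

/-- **near a lower side wall** -/
theorem BoxK.near_lower (D : BoxK side ax lo hi c w U Q) (X : Bool) {t₂ o : ℝ}
    (hlo : lo (ax (!X)) ≤ t₂) (ho : 0 ≤ o)
    (hcell : ∀ q, ∀ x ∈ D.K.C q, ∀ y ∈ D.K.C q,
      |D.h.toFun x (ax (!X)) - D.h.toFun y (ax (!X))| ≤ o)
    (hfar : ∀ j, side j ≠ X → t₂ + o < c j - w j) :
    D.Near X {y | y ∈ Icc lo hi ∧ y (ax (!X)) ≤ t₂} where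
  sub := fun y hy => hy.1
  conn := fun i _ => by
    refine Convex.isPreconnected ?_
    refine Convex.inter (Convex.inter (convex_Icc _ _) ?_) ?_
    · exact convex_halfSpace_le (f := fun y : Fin 3 → ℝ => y (ax (!X)))
        (IsLinearMap.mk (fun _ _ => rfl) fun _ _ => rfl) t₂
    · exact convex_hyperplane (f := fun y : Fin 3 → ℝ => y (ax X))
        (IsLinearMap.mk (fun _ _ => rfl) fun _ _ => rfl) (c i)
  bdry := fun i hi' => by
    have hok := D.H.ok i
    have hlt := D.H.lohi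
    have hne := ax_ne D.H X
    have hc1 : lo (ax X) ≤ c i ∧ c i ≤ hi (ax X) := by
      have h1 := hok.lo
      have h2 := hok.hi
      have h3 := hok.pos
      rw [hi'] at h1 h2
      constructor <;> linarith
    have hmem : Function.update lo (ax X) (c i) ∈ Icc lo hi := by
      refine ⟨fun k => ?_, fun k => ?_⟩
      · by_cases hk : k = ax X
        · subst hk; rw [Function.update_self]; exact hc1.1
        · rw [Function.update_of_ne hk]
      · by_cases hk : k = ax X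
        · subst hk; rw [Function.update_self]; exact hc1.2
        · rw [Function.update_of_ne hk]; exact (hlt k).le
    refine ⟨Function.update lo (ax X) (c i), ⟨⟨hmem, ?_⟩, ?_⟩, ?_⟩
    · rw [Function.update_of_ne hne.symm]; exact hlo
    · show Function.update lo (ax X) (c i) (ax X) = c i
      rw [Function.update_self]
    · refine mem_frontier_Icc (k := ax (!X)) hmem (Or.inl ?_)
      rw [Function.update_of_ne hne.symm]
  vert := fun y hy y' hy' h => ⟨hy', by
    rw [h _ (ax_ne D.H X).symm]; exact hy.2⟩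
  far := fun j hj y hy => by
    have h1 := hfar j hj
    have h2 := hy.2
    rw [← ne_not hj] at h2
    have h3 := neg_le_abs (y (ax (side j)) - c j)
    linarith
  cell := by
    rintro q ⟨_, ⟨p, hp, rfl⟩, hpT⟩ j hj x hx
    have h1 := hfar j hj
    have h2 : D.h.toFun p (ax (!X)) ≤ t₂ := hpT.2
    have h3 := hcell q x hx p hp
    rw [← ne_not hj] at h2 h3
    have h4 := (abs_le.1 h3).2
    have h5 := neg_le_abs (D.h.toFun x (ax (side j)) - c j)
    linarith

/-- **near an upper side wall** -/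
theorem BoxK.near_upper (D : BoxK side ax lo hi c w U Q) (X : Bool) {t₂ o : ℝ}
    (hhi : t₂ ≤ hi (ax (!X))) (ho : 0 ≤ o)
    (hcell : ∀ q, ∀ x ∈ D.K.C q, ∀ y ∈ D.K.C q,
      |D.h.toFun x (ax (!X)) - D.h.toFun y (ax (!X))| ≤ o)
    (hfar : ∀ j, side j ≠ X → c j + w j < t₂ - o) :
    D.Near X {y | y ∈ Icc lo hi ∧ t₂ ≤ y (ax (!X))} where
  sub := fun y hy => hy.1
  conn := fun i _ => by
    refine Convex.isPreconnected ?_
    refine Convex.inter (Convex.inter (convex_Icc _ _) ?_) ?_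
    · exact convex_halfSpace_ge (f := fun y : Fin 3 → ℝ => y (ax (!X)))
        (IsLinearMap.mk (fun _ _ => rfl) fun _ _ => rfl) t₂
    · exact convex_hyperplane (f := fun y : Fin 3 → ℝ => y (ax X))
        (IsLinearMap.mk (fun _ _ => rfl) fun _ _ => rfl) (c i)
  bdry := fun i hi' => by
    have hok := D.H.ok i
    have hlt := D.H.lohi
    have hne := ax_ne D.H X
    have hc1 : lo (ax X) ≤ c i ∧ c i ≤ hi (ax X) := by
      have h1 := hok.lo
      have h2 := hok.hi
      have h3 := hok.pos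
      rw [hi'] at h1 h2
      constructor <;> linarith
    have hmem : Function.update hi (ax X) (c i) ∈ Icc lo hi := by
      refine ⟨fun k => ?_, fun k => ?_⟩
      · by_cases hk : k = ax X
        · subst hk; rw [Function.update_self]; exact hc1.1
        · rw [Function.update_of_ne hk]; exact (hlt k).le
      · by_cases hk : k = ax X
        · subst hk; rw [Function.update_self]; exact hc1.2
        · rw [Function.update_of_ne hk]
    refine ⟨Function.update hi (ax X) (c i), ⟨⟨hmem, ?_⟩, ?_⟩, ?_⟩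
    · rw [Function.update_of_ne hne.symm]; exact hhi
    · show Function.update hi (ax X) (c i) (ax X) = c i
      rw [Function.update_self]
    · refine mem_frontier_Icc (k := ax (!X)) hmem (Or.inr ?_)
      rw [Function.update_of_ne hne.symm]
  vert := fun y hy y' hy' h => ⟨hy', by
    rw [h _ (ax_ne D.H X).symm]; exact hy.2⟩
  far := fun j hj y hy => by
    have h1 := hfar j hj
    have h2 := hy.2
    rw [← ne_not hj] at h2
    have h3 := le_abs_self (y (ax (side j)) - c j)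
    linarith
  cell := by
    rintro q ⟨_, ⟨p, hp, rfl⟩, hpT⟩ j hj x hx
    have h1 := hfar j hj
    have h2 : t₂ ≤ D.h.toFun p (ax (!X)) := hpT.2
    have h3 := hcell q x hx p hp
    rw [← ne_not hj] at h2 h3
    have h4 := (abs_le.1 h3).1
    have h5 := le_abs_self (D.h.toFun x (ax (side j)) - c j)
    linarith

variable [Fintype ι] {D : BoxK side ax lo hi c w U Q} {r q : ℝ} {g : ConHomeo U (Icc lo hi)}
  {L : LamData D.vf.swData} {O : SwOut D.vf.swData L r}

/-- **[KEEP] for a set which crosses `T`**: the part over `T` is invariant in the new bands -/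
theorem BoxK.SwitchedF.keep (S : D.SwitchedF r q g L O) (h0 : 0 ≤ r) (h1 : r < 1) (hq : q ≤ 1)
    {X : Bool} {T : Set (Fin 3 → ℝ)} (hN : D.Near X T) {M : Set E}
    (hMV : ∀ k, Disjoint M (interior (D.K.C k)))
    (hM : BandInv side ax c w U D.h.toFun M) :
    BandInv (fun i : {i // side i = X} => side i.1) ax (fun i => c i.1)
      (fun i => q * r * w i.1) U g.toFun {x | x ∈ M ∧ x ∈ U ∧ D.h.toFun x ∈ T} := by
  refine H79.Fib.keep_bandInv h0 h1 hq S.img S.lev S.fib hN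
    (fun i hi x hx hN' hr => hN.root hi hx hN' hr) (fun x hx => hx.2.1)
    (fun k => (hMV k).mono_left fun x hx => hx.1) ?_ ?_
  · rintro _ ⟨x, hx, rfl⟩
    exact hx.2.2
  · rintro ⟨i, hi⟩ x hx x' hx' a1 a2 a3 ⟨b1, b2, b3⟩
    refine ⟨hM i x hx x' hx' a1 a2 a3 b1, hx', hN.vert _ b3 _ (D.h.mapsTo hx') fun l hl => ?_⟩
    have hl' : l ≠ ax (side i) := by rw [hi]; exact hl
    exact (a3 l hl').symm

end near

end P073.H936.K3

namespace P073.H919

open P073 P073.H936 P073.H936.K3 P073.H142 P073.H880 P073.H345 P073.H236 P073.H579 P073.H950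
open Vale.Agent.P073.St (V)
open Vale.Agent.P073.AB (Idx squ)
open Vale.Agent.P073.H73 (Mesh)
open Vale.Agent.P073.H471 Vale.Agent.P073.H267
open P073.Net P073.PA691

variable {Ω Λ : Set V} {v : V} {K : BoxCx Λ v} {S : Rad K} {W : Wid K S} {B : Boxes W}
  {G : Geo B} {L : PLev G} {γ : Type*} {φ : γ → K.S} {F : Bool → BFam 3 γ Λ}
  {T : Bool → ConHomeo Λ Λ} {M : Mesh Ω} {κ₀ κ₁ : V → V} {c d : ℝ} {Zb : γ → Set M.ι}
  {h2 h3 h4 : ConHomeo Ω Λ} {u : V}

/-- **the output of the hook with fibres** -/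
structure HkGF (H : HkG M L φ F T κ₀ κ₁ c d Zb h2 h3 h4 u) (hΩ : IsOpen Ω) (r q : γ → ℝ)
    (h5 : ConHomeo Ω Λ) : Prop where
  glued : Glued (phook M L φ F c d Zb) h4 h5
  sw : ∀ b, ∃ g : ConHomeo ((phook M L φ F c d Zb b).U h4)
      (Icc (phook M L φ F c d Zb b).lo (phook M L φ F c d Zb b).hi),
    (∃ L O, ((H.hookIn b).boxK hΩ).SwitchedF (r b) (q b) g L O) ∧
    EqOn h5.toFun g.toFun ((phook M L φ F c d Zb b).U h4) ∧
    EqOn h5.invFun g.invFun (phook M L φ F c d Zb b).P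

/-- **[P-HOOK-F]** the hooked map with fibres exists -/
theorem HkG.exists_outF (H : HkG M L φ F T κ₀ κ₁ c d Zb h2 h3 h4 u) (hΩ : IsOpen Ω)
    (r q : γ → ℝ) (r0 : ∀ b, 0 < r b) (r1 : ∀ b, r b < 1) (q0 : ∀ b, 0 < q b)
    (q1 : ∀ b, q b < 1) : ∃ h5, HkGF H hΩ r q h5 := by
  obtain ⟨h5, e1, e2⟩ := exists_hook_switchedF hΩ H.hΛ h4 (phook M L φ F c d Zb) H.hookIn H.fin
    H.dis r q r0 r1 q0 q1
  exact ⟨h5, e1, e2⟩

namespace HkGF

variable {H : HkG M L φ F T κ₀ κ₁ c d Zb h2 h3 h4 u} {hΩ : IsOpen Ω} {r q : γ → ℝ}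
  {h5 : ConHomeo Ω Λ} (O : HkGF H hΩ r q h5)

include O

/-- without the fibres -/
theorem out : HkGO H hΩ r h5 where
  glued := O.glued
  sw := fun b => by
    obtain ⟨g, ⟨L, O, hg⟩, e1, e2⟩ := O.sw b
    exact ⟨g, hg.switched, e1, e2⟩

/-- **[KEEP] for the plates**: a mesh set `Z`, passive for the box `b`, which may cross the walls:
its part over `T` is invariant in the bands of the side `X` -/
theorem keep (b : γ) (r0 : 0 ≤ r b) (r1 : r b < 1) (q1 : q b ≤ 1) {X : Bool}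
    {T' : Set (Fin 3 → ℝ)} (hN : ((H.hookIn b).boxK hΩ).Near X T') {Z : Set V} (hZ : Z ⊆ Ω)
    (hZV : ∀ i ∈ Zb b, Disjoint Z (interior (M.Q i)))
    (hg : h3.toFun '' Z = Pre (κ₁ ∘ κ₀) Λ h2 Z) :
    BandInv (fun i : {i : PI L (φ b) // i.1 = X} => i.1.1) (tg (φ b))
      (fun i => pcen L (φ b) i.1)
      (fun i => q b * r b * pwid L (fun β => (F β).e b) (φ b) i.1)
      ((phook M L φ F c d Zb b).U h4) h5.toFun {x | x ∈ Z ∧ h4.toFun x ∈ T'} := by
  obtain ⟨g, ⟨L', O', hS⟩, e1, -⟩ := O.sw b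
  have h1 := hS.keep r0 r1 q1 hN (M := Z) (fun k => by
      rw [show ((H.hookIn b).boxK hΩ).K.C k = M.Q k.1 from H.hookIn_C b k]
      exact hZV k.1 k.2) (H.bandInv b hZ hg)
  intro i x hx x' hx' a1 a2 a3 a4
  rw [e1 hx] at a1
  rw [e1 hx'] at a2
  have a3' : ∀ l, l ≠ tg (φ b) i.1.1 → g.toFun x l = g.toFun x' l := fun l hl => by
    have := a3 l hl
    rwa [e1 hx, e1 hx'] at this
  obtain ⟨b1, -, b3⟩ := h1 i x hx x' hx' a1 a2 a3' ⟨a4.1, hx, a4.2⟩
  exact ⟨b1, b3⟩

/-- the images of the part over `T`: the new map keeps the box -/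
theorem mem_box (b : γ) {x : V} (hx : x ∈ Ω) :
    h5.toFun x ∈ HB G c d (φ b) ↔ h4.toFun x ∈ HB G c d (φ b) := O.glued.mem b x hx

end HkGF

/-- `Near` at the lower wall of a plate, transversal direction `tg (φ b) (!X)` -/
theorem HkG.near_lower (H : HkG M L φ F T κ₀ κ₁ c d Zb h2 h3 h4 u) (hΩ : IsOpen Ω) (b : γ)
    (X : Bool) {t₂ o : ℝ}
    (hl : K.slo (φ b) (tg (φ b) (!X)) + c * G.p (φ b) ≤ t₂) (ho : 0 ≤ o)
    (hcell : ∀ i ∈ Zb b, ∀ x ∈ M.Q i, ∀ y ∈ M.Q i,
      |h4.toFun x (tg (φ b) (!X)) - h4.toFun y (tg (φ b) (!X))| ≤ o)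
    (hfar : ∀ k : Fin (L.N (φ b) (!X)), t₂ + o < pcen L (φ b) ⟨!X, k⟩ -
      pwid L (fun β => (F β).e b) (φ b) ⟨!X, k⟩) :
    ((H.hookIn b).boxK hΩ).Near X
      {y | y ∈ HB G c d (φ b) ∧ y (tg (φ b) (!X)) ≤ t₂} := by
  refine BoxK.near_lower ((H.hookIn b).boxK hΩ) X (o := o) ?_ ho ?_ ?_
  · show hlo G c d (φ b) (tg (φ b) (!X)) ≤ t₂
    unfold P073.H919.hlo
    rw [if_neg (tg_ne (φ b) (!X))]
    exact hl
  · intro k x hx y hy
    rw [show ((H.hookIn b).boxK hΩ).K.C k = M.Q k.1 from H.hookIn_C b k] at hx hy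
    exact hcell k.1 k.2 x hx y hy
  · rintro ⟨β, k⟩ hj
    have hβ : β = !X := ne_not hj
    subst hβ
    exact hfar k

/-- `Near` at the upper wall of a plate, transversal direction `tg (φ b) (!X)` -/
theorem HkG.near_upper (H : HkG M L φ F T κ₀ κ₁ c d Zb h2 h3 h4 u) (hΩ : IsOpen Ω) (b : γ)
    (X : Bool) {t₂ o : ℝ}
    (hu : t₂ ≤ K.shi (φ b) (tg (φ b) (!X)) - c * G.p (φ b)) (ho : 0 ≤ o)
    (hcell : ∀ i ∈ Zb b, ∀ x ∈ M.Q i, ∀ y ∈ M.Q i,
      |h4.toFun x (tg (φ b) (!X)) - h4.toFun y (tg (φ b) (!X))| ≤ o)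
    (hfar : ∀ k : Fin (L.N (φ b) (!X)), pcen L (φ b) ⟨!X, k⟩ +
      pwid L (fun β => (F β).e b) (φ b) ⟨!X, k⟩ < t₂ - o) :
    ((H.hookIn b).boxK hΩ).Near X
      {y | y ∈ HB G c d (φ b) ∧ t₂ ≤ y (tg (φ b) (!X))} := by
  refine BoxK.near_upper ((H.hookIn b).boxK hΩ) X (o := o) ?_ ho ?_ ?_
  · show t₂ ≤ hhi G c d (φ b) (tg (φ b) (!X))
    unfold P073.H919.hhi
    rw [if_neg (tg_ne (φ b) (!X))]
    exact hu
  · intro k x hx y hy
    rw [show ((H.hookIn b).boxK hΩ).K.C k = M.Q k.1 from H.hookIn_C b k] at hx hy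
    exact hcell k.1 k.2 x hx y hy
  · rintro ⟨β, k⟩ hj
    have hβ : β = !X := ne_not hj
    subst hβ
    exact hfar k

end P073.H919
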