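import Vale.Agent.P073.H919.Zone2
import Vale.Agent.P073.H142.PS3

/-!
# P073, block H919: [HOOK-IN], the input of the hook for the plates of ROUND P

`ProdOn Λ S σ D`: on the box `D` the map `S` of the target is the product map with the strictly
monotone factors `σ`, and `S` preserves `D`.  `PSt`: the two staircases of a family of plates.
`phookIn`: the input `HBox.In` for the plates.
-/

open Set Metric Topology Filter

set_option linter.unusedSectionVars false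

namespace P073.H919

open P073 P073.H936 P073.H936.K3 P073.H142 P073.H880 P073.H345 P073.H236 P073.H579
open Vale.Agent.P073.St (V)
open Vale.Agent.P073.AB (Idx)
open Vale.Agent.P073.H73 (Mesh)
open Vale.Agent.P073.H471 Vale.Agent.P073.H267
open P073.Net P073.PA691

/-! ### product maps of the target -/

section prod

variable {Ω Λ D : Set V} {S T : V → V} {σ ρ : Fin 3 → ℝ → ℝ}

/-- on `D` the map `S` is a product map with strictly monotone factors; `S` preserves `D` -/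
structure ProdOn (Λ : Set V) (S : V → V) (σ : Fin 3 → ℝ → ℝ) (D : Set V) : Prop where
  sub : D ⊆ Λ
  on : ∀ y ∈ D, S y = prodK σ y
  mem : ∀ y ∈ Λ, (S y ∈ D ↔ y ∈ D)
  mono : ∀ l, StrictMono (σ l)

theorem ProdOn.apply (H : ProdOn Λ S σ D) {y : V} (hy : y ∈ D) (l : Fin 3) :
    S y l = σ l (y l) := by rw [H.on y hy]; rfl

theorem ProdOn.id (hD : D ⊆ Λ) : ProdOn Λ (fun y => y) (fun _ t => t) D :=
  ⟨hD, fun _ _ => rfl, fun _ _ => Iff.rfl, fun _ => strictMono_id⟩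

theorem ProdOn.comp (HT : ProdOn Λ T ρ D) (HS : ProdOn Λ S σ D) (hS : MapsTo S Λ Λ) :
    ProdOn Λ (fun y => T (S y)) (fun l t => ρ l (σ l t)) D where
  sub := HS.sub
  on := fun y hy => by
    rw [HT.on _ ((HS.mem y (HS.sub hy)).2 hy), HS.on y hy]; rfl
  mem := fun y hy => (HT.mem _ (hS hy)).trans (HS.mem y hy)
  mono := fun l => (HT.mono l).comp (HS.mono l)

theorem ProdOn.congr (H : ProdOn Λ S σ D) (h : ∀ l t, σ l t = ρ l t) : ProdOn Λ S ρ D := by
  have e : σ = ρ := funext fun l => funext fun t => h l t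
  rwa [← e]

/-- **change of the target**: the new bands are the images of the old bands -/
theorem ProdOn.bandInv (H : ProdOn Λ S σ D) {g f : ConHomeo Ω Λ}
    (hf : ∀ x ∈ Ω, f.toFun x = S (g.toFun x)) {ι : Type*} {side : ι → Bool} {ax : Bool → Fin 3}
    {c w c' w' : ι → ℝ} {U M : Set V} (hU : U ⊆ Ω) (hUD : ∀ x ∈ U, f.toFun x ∈ D)
    (hcw : ∀ i t, |σ (ax (side i)) t - c' i| ≤ w' i → |t - c i| ≤ w i)
    (hM : BandInv side ax c w U g.toFun M) : BandInv side ax c' w' U f.toFun M := by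
  have key : ∀ x ∈ U, g.toFun x ∈ D := fun x hx =>
    (H.mem _ (g.mapsTo (hU hx))).1 (by rw [← hf x (hU hx)]; exact hUD x hx)
  refine bandInv_comp (S := S) (fun x hx => hf x (hU hx)) hM ?_
  rintro i x ⟨hx, -⟩ x' hx' h1 h2 h3
  rw [H.apply (key x hx)] at h1
  rw [H.apply (key x' hx')] at h2
  refine ⟨hcw i _ h1, hcw i _ h2, fun l hl => ?_⟩
  have h4 := h3 l hl
  rw [H.apply (key x hx), H.apply (key x' hx')] at h4
  exact (H.mono l).injective h4

end prod

/-! ### the staircases of a family of boxes -/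

section fam

variable {γ : Type*} {Λ : Set V} {F : BFam 3 γ Λ} {T : ConHomeo Λ Λ}

/-- the factors of one staircase -/
noncomputable def sg (F : BFam 3 γ Λ) (b : γ) (l : Fin 3) : ℝ → ℝ :=
  if l = (F.B b).j then F.σ b else fun t => t

theorem sg_self (F : BFam 3 γ Λ) (b : γ) : sg F b (F.B b).j = F.σ b := if_pos rfl

theorem sg_ne (F : BFam 3 γ Λ) {b : γ} {l : Fin 3} (h : l ≠ (F.B b).j) :
    sg F b l = fun t => t := if_neg h

theorem prodK_sg (F : BFam 3 γ Λ) (b : γ) (y : V) :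
    prodK (sg F b) y = Function.update y (F.B b).j (F.σ b (y (F.B b).j)) := by
  ext l
  by_cases hl : l = (F.B b).j
  · subst hl
    rw [Function.update_self]
    show sg F b (F.B b).j _ = _
    rw [sg_self]
  · rw [Function.update_of_ne hl]
    show sg F b l _ = _
    rw [sg_ne F hl]

theorem sg_mono (F : BFam 3 γ Λ) (b : γ) (l : Fin 3) : StrictMono (sg F b l) := by
  unfold sg
  split_ifs
  · exact F.σ_strictMono b
  · exact strictMono_id

/-- **the staircase on a box `D`** which contains the window, is in the full zone and misses the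
other boxes -/
theorem prodOn_of_isS (hT : F.IsS T) {b : γ} {dlo dhi : V} (hD : Icc dlo dhi ⊆ Λ)
    (hw : dlo (F.B b).j ≤ (F.B b).al ∧ (F.B b).be ≤ dhi (F.B b).j)
    (hf : ∀ i, i ≠ (F.B b).j → (F.B b).lo i ≤ dlo i ∧ dhi i ≤ (F.B b).hi i)
    (hoff : ∀ b', b' ≠ b → ∀ y ∈ Icc dlo dhi, y ∉ (F.B b').K) :
    ProdOn Λ T.toFun (sg F b) (Icc dlo dhi) := by
  have hfull : ∀ y ∈ Icc dlo dhi, (F.B b).Full y := fun y hy i hi =>
    ⟨(hf i hi).1.trans (hy.1 i), (hy.2 i).trans (hf i hi).2⟩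
  have hout : ∀ y ∈ Icc dlo dhi, ¬ ((F.B b).al ≤ y (F.B b).j ∧ y (F.B b).j ≤ (F.B b).be) →
      ∀ b', y ∉ (F.B b').K := by
    intro y hy hn b' hb'
    by_cases hbb : b' = b
    · subst hbb
      exact hn hb'.1
    · exact hoff b' hbb y hy hb'
  have hupd : ∀ y ∈ Icc dlo dhi, ∀ t ∈ Icc (F.B b).al (F.B b).be,
      Function.update y (F.B b).j t ∈ Icc dlo dhi := by
    intro y hy t ht
    refine ⟨fun i => ?_, fun i => ?_⟩
    · by_cases hi : i = (F.B b).j
      · subst hi; rw [Function.update_self]; exact hw.1.trans ht.1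
      · rw [Function.update_of_ne hi]; exact hy.1 i
    · by_cases hi : i = (F.B b).j
      · subst hi; rw [Function.update_self]; exact ht.2.trans hw.2
      · rw [Function.update_of_ne hi]; exact hy.2 i
  have hon : ∀ y ∈ Icc dlo dhi, T.toFun y = prodK (sg F b) y := by
    intro y hy
    rw [prodK_sg]
    by_cases hwin : (F.B b).al ≤ y (F.B b).j ∧ y (F.B b).j ≤ (F.B b).be
    · exact hT.full ⟨hwin, hfull y hy⟩
    · rw [hT.off y (hout y hy hwin), F.σ_out, Function.update_eq_self]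
      by_contra hcon
      push Not at hcon
      exact hwin ⟨hcon.1.le, hcon.2.le⟩
  refine ⟨hD, hon, fun y hy => ⟨fun h => ?_, fun h => ?_⟩, sg_mono F b⟩
  · rw [← T.left_inv hy]
    set z := T.toFun y
    by_cases hwin : (F.B b).al ≤ z (F.B b).j ∧ z (F.B b).j ≤ (F.B b).be
    · rw [hT.full' ⟨hwin, hfull z h⟩]
      exact hupd z h _ (F.σi_win hwin)
    · rw [hT.off' z (hout z h hwin)]
      exact h
  · by_cases hwin : (F.B b).al ≤ y (F.B b).j ∧ y (F.B b).j ≤ (F.B b).be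
    · rw [hT.full ⟨hwin, hfull y h⟩]
      exact hupd y h _ (F.σ_win hwin)
    · rw [hT.off y (hout y h hwin)]
      exact h

/-- the bands of the targets, centre -/
noncomputable def bc (N : ℕ) (al be : ℝ) (k : ℕ) : ℝ := al + (k + 1 / 2) * stp N al be

/-- the bands of the targets, half width -/
noncomputable def bw (N : ℕ) (al be e : ℝ) : ℝ := stp N al be / 2 - e

theorem mem_bnd_iff {N : ℕ} {al be e : ℝ} {k : ℕ} {t : ℝ} :
    t ∈ bnd N al be e k ↔ |t - bc N al be k| ≤ bw N al be e := by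
  unfold bnd bc bw
  rw [abs_le, mem_Icc]
  constructor
  · rintro ⟨h1, h2⟩
    constructor <;> linarith
  · rintro ⟨h1, h2⟩
    constructor <;> linarith

/-- **the band of the target is the image of the flat** -/
theorem abs_σ_sub_le_iff (F : BFam 3 γ Λ) {b : γ} {k : ℕ} (hk : k < (F.B b).N) {t : ℝ} :
    |F.σ b t - bc (F.B b).N (F.B b).al (F.B b).be k| ≤
      bw (F.B b).N (F.B b).al (F.B b).be (F.e b) ↔ |t - (F.B b).a k| ≤ (F.B b).c := by
  rw [← mem_bnd_iff]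
  exact sm_bnd (F.B b).lvs (F.he b) (F.heo b) hk

end fam

/-! ### the plates -/

section plates

variable {Ω Λ : Set V} {v : V} {K : BoxCx Λ v} {S : Rad K} {W : Wid K S} {B : Boxes W}
  {G : Geo B} {L : PLev G} {γ : Type*} {φ : γ → K.S}

/-- the two families of plates -/
theorem fam_φ (L : PLev G) (hΛ : IsOpen Λ) (β : Bool) (hφ : Function.Injective φ) :
    Fam Λ fun b => L.bx β (φ b) := Fam.comp (L.fam hΛ β) hφ

theorem PB_mono {c c' : ℝ} (h : c ≤ c') (s : K.S) : G.PB c' s ⊆ G.PB c s := by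
  intro y hy
  obtain ⟨h1, h2⟩ := Geo.mem_PB.1 hy
  have hp := Geo.p_pos (G := G) s
  have h3 : c * G.p s ≤ c' * G.p s := mul_le_mul_of_nonneg_right h hp.le
  exact Geo.mem_PB.2 ⟨fun k hk => ⟨by linarith [(h1 k hk).1], by linarith [(h1 k hk).2]⟩, h2⟩

/-- lower corner of the box of the hook: distance `c * p` from the sides, height `d * τ` -/
noncomputable def hlo (G : Geo B) (c d : ℝ) (s : K.S) : V := fun k =>
  if k = K.nrm s then K.slo s k - d * B.τ s else K.slo s k + c * G.p s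

/-- upper corner of the box of the hook -/
noncomputable def hhi (G : Geo B) (c d : ℝ) (s : K.S) : V := fun k =>
  if k = K.nrm s then K.slo s k + d * B.τ s else K.shi s k - c * G.p s

/-- box of the hook -/
def HB (G : Geo B) (c d : ℝ) (s : K.S) : Set V := Icc (hlo G c d s) (hhi G c d s)

theorem mem_HB {c d : ℝ} {s : K.S} {y : V} : y ∈ HB G c d s ↔
    (∀ k, k ≠ K.nrm s → K.slo s k + c * G.p s ≤ y k ∧ y k ≤ K.shi s k - c * G.p s) ∧
    |y (K.nrm s) - K.slo s (K.nrm s)| ≤ d * B.τ s := by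
  constructor
  · intro h
    refine ⟨fun k hk => ?_, ?_⟩
    · have h1 := h.1 k
      have h2 := h.2 k
      simp only [hlo, hhi, if_neg hk] at h1 h2
      exact ⟨h1, h2⟩
    · have h1 := h.1 (K.nrm s)
      have h2 := h.2 (K.nrm s)
      simp only [hlo, hhi, if_true] at h1 h2
      rw [abs_le]
      constructor <;> linarith
  · rintro ⟨h1, h2⟩
    have h2' := abs_le.1 h2
    have key : ∀ k, hlo G c d s k ≤ y k ∧ y k ≤ hhi G c d s k := by
      intro k
      by_cases hk : k = K.nrm s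
      · subst hk
        simp only [hlo, hhi, if_true]
        constructor <;> linarith
      · simp only [hlo, hhi, if_neg hk]
        exact h1 k hk
    exact ⟨fun k => (key k).1, fun k => (key k).2⟩

theorem HB_one {c : ℝ} {s : K.S} : HB G c 1 s = G.PB c s := by
  ext y
  rw [mem_HB, Geo.mem_PB, one_mul]

theorem HB_mono {c c' d d' : ℝ} (hc : c ≤ c') (hd : d' ≤ d) (s : K.S) :
    HB G c' d' s ⊆ HB G c d s := by
  intro y hy
  obtain ⟨h1, h2⟩ := mem_HB.1 hy
  have hp := Geo.p_pos (G := G) s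
  have h3 : c * G.p s ≤ c' * G.p s := mul_le_mul_of_nonneg_right hc hp.le
  have h4 : d' * B.τ s ≤ d * B.τ s := mul_le_mul_of_nonneg_right hd (B.τ_pos s).le
  exact mem_HB.2 ⟨fun k hk => ⟨by linarith [(h1 k hk).1], by linarith [(h1 k hk).2]⟩,
    h2.trans h4⟩

theorem HB_PB {c c' d : ℝ} (hc : c ≤ c') (hd : d ≤ 1) (s : K.S) :
    HB G c' d s ⊆ G.PB c s := by
  rw [← HB_one]; exact HB_mono hc hd s

theorem HB_sub {c d : ℝ} (hc : 7 / 8 ≤ c) (hd : d ≤ 1) (s : K.S) : HB G c d s ⊆ Λ :=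
  (HB_PB le_rfl hd s).trans (Geo.PB_sub (by linarith) s)

/-- strictly smaller boxes are in the interior -/
theorem HB_interior {c c' d d' : ℝ} (hc : c < c') (hd : d' < d) (s : K.S) :
    HB G c' d' s ⊆ interior (HB G c d s) := by
  intro y hy
  have hp := Geo.p_pos (G := G) s
  have h3 : c * G.p s < c' * G.p s := mul_lt_mul_of_pos_right hc hp
  have h4 : d' * B.τ s < d * B.τ s := mul_lt_mul_of_pos_right hd (B.τ_pos s)
  obtain ⟨h1, h2⟩ := mem_HB.1 hy
  have h2' := abs_le.1 h2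
  refine mem_interior.2 ⟨{z | ∀ k, hlo G c d s k < z k ∧ z k < hhi G c d s k}, fun z hz =>
    ⟨fun k => (hz k).1.le, fun k => (hz k).2.le⟩, ?_, fun k => ?_⟩
  · have e : {z : V | ∀ k, hlo G c d s k < z k ∧ z k < hhi G c d s k} =
        ⋂ k, {z : V | hlo G c d s k < z k} ∩ {z : V | z k < hhi G c d s k} := by
      ext z; simp only [mem_ofPred_eq, mem_iInter, mem_inter_iff]
    rw [e]
    exact isOpen_iInter_of_finite fun k =>
      (isOpen_lt continuous_const (continuous_apply k)).inter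
        (isOpen_lt (continuous_apply k) continuous_const)
  · by_cases hk : k = K.nrm s
    · subst hk
      simp only [hlo, hhi, if_true]
      constructor <;> linarith
    · simp only [hlo, hhi, if_neg hk]
      have := h1 k hk
      constructor <;> linarith

/-- the box and the normal coordinate -/
theorem mem_HB_iff {c d : ℝ} (hd : d ≤ 1) {s : K.S} {y : V} :
    y ∈ HB G c d s ↔ y ∈ G.PB c s ∧ |y (K.nrm s) - K.slo s (K.nrm s)| ≤ d * B.τ s := by
  have h4 : d * B.τ s ≤ 1 * B.τ s := mul_le_mul_of_nonneg_right hd (B.τ_pos s).le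
  rw [mem_HB, Geo.mem_PB]
  exact ⟨fun ⟨h1, h2⟩ => ⟨⟨h1, by linarith⟩, h2⟩, fun ⟨⟨h1, _⟩, h2⟩ => ⟨h1, h2⟩⟩

/-- the box is a full set for the insertion maps -/
theorem fullSet_φ (hφ : Function.Injective φ) {β : Bool} (b : γ) {c d : ℝ} (hc : 7 / 8 ≤ c)
    (hc2 : c ≤ 2) (hd : d ≤ 1) : FullSet (fun b => L.bx β (φ b)) b (HB G c d (φ b)) where
  full := fun y hy => PLev.PB_full (HB_PB hc hd _ hy)
  inv := fun y => by
    have h1 : prodK (kQ (L.bx β (φ b))) y (K.nrm (φ b)) = y (K.nrm (φ b)) := by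
      show kQ (L.bx β (φ b)) (K.nrm (φ b)) _ = _
      rw [kQ_ne _ (show K.nrm (φ b) ≠ (L.bx β (φ b)).j from (tg_ne (φ b) β).symm)]
      rfl
    rw [mem_HB_iff hd, mem_HB_iff hd, PLev.prodQ_mem_PB hc2, h1]
  off := fun b' hb y hy hK => hb (hφ
    (PK_unique (PLev.mem_bxK.1 hK).1 (PB_sub_PK (by linarith) (φ b) (HB_PB le_rfl hd _ hy))))

/-- the insertion map preserves the boxes -/
theorem κ_mem_iff (hφ : Function.Injective φ) {κ₀ κ₁ : V → V}
    (h₀ : IsQ (fun b => L.bx false (φ b)) κ₀) (h₁ : IsQ (fun b => L.bx true (φ b)) κ₁) {b : γ}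
    {c d : ℝ} (hc : 7 / 8 ≤ c) (hc2 : c ≤ 2) (hd : d ≤ 1) {y : V} :
    κ₁ (κ₀ y) ∈ HB G c d (φ b) ↔ y ∈ HB G c d (φ b) :=
  ((fullSet_φ hφ b hc hc2 hd).mem_iff h₁).trans ((fullSet_φ hφ b hc hc2 hd).mem_iff h₀)

/-- **the zone of a plate** -/
theorem zone_φ (hφ : Function.Injective φ) {κ₀ κ₁ : V → V}
    (h₀ : IsQ (fun b => L.bx false (φ b)) κ₀) (h₁ : IsQ (fun b => L.bx true (φ b)) κ₁) {b : γ}
    {h : ConHomeo Ω Λ} {C : Set V} (hC : h.toFun '' C ⊆ G.PB (7 / 8) (φ b)) :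
    Zone (κ₁ ∘ κ₀) Λ h (L.kP (φ b)) C := by
  rw [← HB_one] at hC
  have H₀ := fullSet_φ (G := G) (L := L) hφ (β := false) b (c := 7 / 8) (d := 1) le_rfl
    (by norm_num) le_rfl
  have H₁ := fullSet_φ (G := G) (L := L) hφ (β := true) b (c := 7 / 8) (d := 1) le_rfl
    (by norm_num) le_rfl
  have hD : HB G (7 / 8) 1 (φ b) ⊆ Λ := HB_sub le_rfl le_rfl (φ b)
  refine ⟨fun y hy => ?_, fun y _ hy => ?_⟩
  · have h2 : y ∈ HB G (7 / 8) 1 (φ b) := by
      have h3 := hC hy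
      rw [HB_one] at h3 ⊢
      exact (PLev.prodK_mem_PB (by norm_num)).1 h3
    refine ⟨hD h2, ?_⟩
    show κ₁ (κ₀ y) = _
    rw [H₁.eq h₁ ((H₀.mem_iff h₀).2 h2), H₀.eq h₀ h2]
    exact L.prodK_P (φ b) false y
  · have h1 : κ₀ y ∈ HB G (7 / 8) 1 (φ b) := (H₁.mem_iff h₁).1 (hC hy)
    have h2 : y ∈ HB G (7 / 8) 1 (φ b) := (H₀.mem_iff h₀).1 h1
    show κ₁ (κ₀ y) = _
    rw [H₁.eq h₁ h1, H₀.eq h₀ h2]
    exact L.prodK_P (φ b) false y

/-- the image of the old map is in the box, if the image of the new map is -/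
theorem image_sub_of_pre (hφ : Function.Injective φ) {κ₀ κ₁ : V → V}
    (h₀ : IsQ (fun b => L.bx false (φ b)) κ₀) (h₁ : IsQ (fun b => L.bx true (φ b)) κ₁)
    (hs : SurjOn (κ₁ ∘ κ₀) Λ Λ) {b : γ} {h g : ConHomeo Ω Λ} {M : Set V} (hMΩ : M ⊆ Ω)
    (hg : g.toFun '' M = Pre (κ₁ ∘ κ₀) Λ h M) {c d : ℝ} (hc : 7 / 8 ≤ c) (hc2 : c ≤ 2)
    (hd : d ≤ 1) (hM : g.toFun '' M ⊆ HB G c d (φ b)) : h.toFun '' M ⊆ HB G c d (φ b) := by
  rintro _ ⟨x, hx, rfl⟩
  obtain ⟨y, hy, hyx⟩ := hs (h.mapsTo (hMΩ hx))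
  rw [← hyx]
  refine (κ_mem_iff hφ h₀ h₁ hc hc2 hd).2 (hM ?_)
  rw [hg]
  exact ⟨hy, by show κ₁ (κ₀ y) ∈ h.toFun '' M; rw [show κ₁ (κ₀ y) = _ from hyx]; exact ⟨x, hx, rfl⟩⟩

/-- the image of the new map is in the box, if the image of the old map is -/
theorem pre_sub_of_image (hφ : Function.Injective φ) {κ₀ κ₁ : V → V}
    (h₀ : IsQ (fun b => L.bx false (φ b)) κ₀) (h₁ : IsQ (fun b => L.bx true (φ b)) κ₁) {b : γ}
    {h g : ConHomeo Ω Λ} {M : Set V} (hg : g.toFun '' M = Pre (κ₁ ∘ κ₀) Λ h M) {c d : ℝ}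
    (hc : 7 / 8 ≤ c) (hc2 : c ≤ 2) (hd : d ≤ 1) (hM : h.toFun '' M ⊆ HB G c d (φ b)) :
    g.toFun '' M ⊆ HB G c d (φ b) := by
  rw [hg]
  rintro y ⟨-, hy⟩
  exact (κ_mem_iff hφ h₀ h₁ hc hc2 hd).1 (hM hy)

/-- indices of the bands of a plate -/
abbrev PI (L : PLev G) (s : K.S) : Type := Σ β : Bool, Fin (L.N s β)

/-- **the faces of the drawn cells are invariant in the flats of the levels**, for the map after
the insertion -/
theorem bandInv_φ (hφ : Function.Injective φ) {κ₀ κ₁ : V → V}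
    (h₀ : IsQ (fun b => L.bx false (φ b)) κ₀) (h₁ : IsQ (fun b => L.bx true (φ b)) κ₁)
    (hs : SurjOn (κ₁ ∘ κ₀) Λ Λ) {b : γ} {h g : ConHomeo Ω Λ} {M U : Set V} (hMΩ : M ⊆ Ω)
    (hU : U ⊆ Ω) (hg : g.toFun '' M = Pre (κ₁ ∘ κ₀) Λ h M) {c d : ℝ} (hc : 7 / 8 ≤ c)
    (hc2 : c ≤ 2) (hd : d ≤ 1) (hM : g.toFun '' M ⊆ HB G c d (φ b)) :
    BandInv (ι := PI L (φ b)) Sigma.fst (tg (φ b)) (fun i => L.a (φ b) i.1 i.2)
      (fun i => L.c (φ b) i.1) U g.toFun M := by
  have h2 := (image_sub_of_pre hφ h₀ h₁ hs hMΩ hg hc hc2 hd hM).trans (HB_PB hc hd _)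
  refine bandInv_of_zone (zone_φ hφ h₀ h₁ h2) (fun j => L.ins1P (φ b) j) Subset.rfl hMΩ hU hg ?_
  rintro ⟨β, k⟩
  refine ⟨?_, ?_, ?_⟩
  · rw [Finset.mem_coe]
    show L.a (φ b) β k ∈ L.lv (φ b) (tg (φ b) β)
    rw [PLev.lv_tg]
    exact (L.lvs (φ b) β).mem_L.2 ⟨k, k.2, rfl⟩
  · show L.loP (φ b) (tg (φ b) β) (L.a (φ b) β k) ≤ _
    unfold PLev.loP
    rw [bt_tg]
    exact le_rfl
  · show _ ≤ L.hiP (φ b) (tg (φ b) β) (L.a (φ b) β k)
    unfold PLev.hiP
    rw [bt_tg]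
    exact le_rfl

/-! ### the staircases -/

/-- the two staircases of a family of plates; the new map is `T true ∘ T false ∘ g`.  The fade
radii of the staircases may be smaller than those of the levels (`BxR`) -/
structure PSt (L : PLev G) (φ : γ → K.S) (F : Bool → BFam 3 γ Λ) (T : Bool → ConHomeo Λ Λ) :
    Prop where
  inj : Function.Injective φ
  B : ∀ β b, BxR ((F β).B b) (L.bx β (φ b))
  isS : ∀ β, (F β).IsS (T β)

theorem PSt.of_PS3 {S₀ : Set K.S} {F : Bool → BFam 3 S₀ Λ} {T : Bool → ConHomeo Λ Λ}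
    (P : PS3 L S₀ F T) : PSt L (Subtype.val : S₀ → K.S) F T :=
  ⟨Subtype.val_injective, P.B, P.isS⟩

variable {F : Bool → BFam 3 γ Λ} {T : Bool → ConHomeo Λ Λ}

/-- the factors of the composition of the staircases in the plate `b` -/
noncomputable def sgP (F : Bool → BFam 3 γ Λ) (b : γ) (l : Fin 3) (t : ℝ) : ℝ :=
  sg (F true) b l (sg (F false) b l t)

theorem PSt.prodOn_one (P : PSt L φ F T) (β : Bool) (b : γ) {c d : ℝ} (hc : 7 / 8 ≤ c)
    (hc2 : c ≤ 2) (hd : d ≤ 1) : ProdOn Λ (T β).toFun (sg (F β) b) (HB G c d (φ b)) := by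
  have hp := Geo.p_pos (G := G) (φ b)
  have hpa := Geo.p_a (G := G) (φ b)
  have hcp : c * G.p (φ b) ≤ 2 * G.p (φ b) := mul_le_mul_of_nonneg_right hc2 hp.le
  have hcp' : 7 / 8 * G.p (φ b) ≤ c * G.p (φ b) := mul_le_mul_of_nonneg_right hc hp.le
  have hdτ : d * B.τ (φ b) ≤ 1 * B.τ (φ b) := mul_le_mul_of_nonneg_right hd (B.τ_pos (φ b)).le
  have hB := P.B β b
  refine prodOn_of_isS (P.isS β) (HB_sub hc hd (φ b)) ?_ ?_ ?_
  · rw [hB.j, hB.al, hB.be]
    have hn := tg_ne (φ b) β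
    constructor
    · show hlo G c d (φ b) (tg (φ b) β) ≤ K.slo (φ b) (tg (φ b) β) + G.a (φ b)
      unfold hlo
      rw [if_neg hn]
      linarith
    · show K.shi (φ b) (tg (φ b) β) - G.a (φ b) ≤ hhi G c d (φ b) (tg (φ b) β)
      unfold hhi
      rw [if_neg hn]
      linarith
  · rw [hB.lo, hB.hi]
    intro i _
    show (if i = K.nrm (φ b) then K.slo (φ b) i - B.τ (φ b) else
        K.slo (φ b) i + 7 / 8 * G.p (φ b)) ≤ hlo G c d (φ b) i ∧ hhi G c d (φ b) i ≤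
      (if i = K.nrm (φ b) then K.slo (φ b) i + B.τ (φ b) else K.shi (φ b) i - 7 / 8 * G.p (φ b))
    unfold hlo hhi
    by_cases hi : i = K.nrm (φ b)
    · simp only [if_pos hi]
      constructor <;> linarith
    · simp only [if_neg hi]
      constructor <;> linarith
  · intro b' hb y hy hK
    exact hb (P.inj (PK_unique (PLev.mem_bxK.1 ((P.B β b').sub_K hK)).1
      (PB_sub_PK (by linarith) (φ b) (HB_PB le_rfl hd _ hy))))

/-- **the staircases in a plate** -/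
theorem PSt.prodOn (P : PSt L φ F T) (b : γ) {c d : ℝ} (hc : 7 / 8 ≤ c) (hc2 : c ≤ 2)
    (hd : d ≤ 1) :
    ProdOn Λ (fun y => (T true).toFun ((T false).toFun y)) (sgP F b) (HB G c d (φ b)) :=
  (P.prodOn_one true b hc hc2 hd).comp (P.prodOn_one false b hc hc2 hd) (T false).mapsTo

theorem PSt.sgP_tg (P : PSt L φ F T) (b : γ) (β : Bool) (t : ℝ) :
    sgP F b (tg (φ b) β) t = (F β).σ b t := by
  have e : ∀ β', ((F β').B b).j = tg (φ b) β' := fun β' => (P.B β' b).j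
  unfold sgP
  cases β
  · have h1 : sg (F false) b (tg (φ b) false) = (F false).σ b := by rw [← e, sg_self]
    have h2 : sg (F true) b (tg (φ b) false) = fun t => t :=
      sg_ne _ (by rw [e]; exact tg_ne_not (φ b) false)
    rw [h1, h2]
  · have h1 : sg (F true) b (tg (φ b) true) = (F true).σ b := by rw [← e, sg_self]
    have h2 : sg (F false) b (tg (φ b) true) = fun t => t :=
      sg_ne _ (by rw [e]; exact tg_ne_not (φ b) true)
    rw [h1, h2]

theorem PSt.sgP_nrm (P : PSt L φ F T) (b : γ) (t : ℝ) : sgP F b (K.nrm (φ b)) t = t := by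
  have e : ∀ β', ((F β').B b).j = tg (φ b) β' := fun β' => (P.B β' b).j
  have h : ∀ β', sg (F β') b (K.nrm (φ b)) = fun t => t := fun β' =>
    sg_ne _ (by rw [e]; exact (tg_ne (φ b) β').symm)
  unfold sgP
  rw [h, h]

/-- centre of a band of a plate -/
noncomputable def pcen (L : PLev G) (s : K.S) (i : PI L s) : ℝ :=
  bc (L.N s i.1) (K.slo s (tg s i.1) + G.a s) (K.shi s (tg s i.1) - G.a s) i.2

/-- half width of a band of a plate -/
noncomputable def pwid (L : PLev G) (e : Bool → ℝ) (s : K.S) (i : PI L s) : ℝ :=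
  bw (L.N s i.1) (K.slo s (tg s i.1) + G.a s) (K.shi s (tg s i.1) - G.a s) (e i.1)

/-- **the bands of a plate** -/
theorem bands_plate (L : PLev G) {e : Bool → ℝ} (s : K.S) (he : ∀ β, 0 < e β)
    (heo : ∀ β, 2 * e β < stp (L.N s β) (K.slo s (tg s β) + G.a s) (K.shi s (tg s β) - G.a s))
    {c d : ℝ} (hc2 : c ≤ 2) (hd0 : 0 < d) :
    Bands (ι := PI L s) Sigma.fst (tg s) (hlo G c d s) (hhi G c d s) (pcen L s)
      (pwid L e s) := by
  have hp := Geo.p_pos (G := G) s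
  have hpa := Geo.p_a (G := G) s
  have hτ : 0 < d * B.τ s := mul_pos hd0 (B.τ_pos s)
  have hcp : c * G.p s ≤ 2 * G.p s := mul_le_mul_of_nonneg_right hc2 hp.le
  have hplo : ∀ β, hlo G c d s (tg s β) = K.slo s (tg s β) + c * G.p s := fun β => by
    unfold hlo; rw [if_neg (tg_ne s β)]
  have hphi : ∀ β, hhi G c d s (tg s β) = K.shi s (tg s β) - c * G.p s := fun β => by
    unfold hhi; rw [if_neg (tg_ne s β)]
  have hab : ∀ β, K.slo s (tg s β) + G.a s < K.shi s (tg s β) - G.a s := fun β => by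
    have h1 := (L.lvs s β).first_le (L.lvs s β).pos
    have h2 := (L.lvs s β).le_last (L.lvs s β).pos
    have h3 := (L.lvs s β).c0
    linarith
  have hN : ∀ β, (L.N s β : ℝ) * stp (L.N s β) (K.slo s (tg s β) + G.a s)
      (K.shi s (tg s β) - G.a s) = (K.shi s (tg s β) - G.a s) - (K.slo s (tg s β) + G.a s) := by
    intro β
    have h1 : (L.N s β : ℝ) ≠ 0 := by
      have := (L.lvs s β).pos
      positivity
    unfold stp
    rw [mul_div_cancel₀ _ h1]
  refine ⟨fun l => ?_, (tg_ne_not s true), ?_, ?_⟩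
  · by_cases hl : l = K.nrm s
    · unfold hlo hhi
      rw [if_pos hl, if_pos hl]
      linarith
    · obtain ⟨β, rfl⟩ : ∃ β, l = tg s β := ⟨bt s l, (tg_bt s hl).symm⟩
      rw [hplo, hphi]
      have := hab β
      linarith
  · rintro ⟨β, k⟩
    have h1 := heo β
    have h2 := he β
    have h3 := hN β
    have h4 := hab β
    set st := stp (L.N s β) (K.slo s (tg s β) + G.a s) (K.shi s (tg s β) - G.a s) with hst
    have hst0 : 0 < st := by linarith
    have hk : ((k : ℕ) : ℝ) + 1 ≤ L.N s β := by exact_mod_cast k.2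
    have hk0 : (0:ℝ) ≤ ((k : ℕ) : ℝ) := Nat.cast_nonneg _
    have h5 : (((k : ℕ) : ℝ) + 1) * st ≤ (L.N s β : ℝ) * st :=
      mul_le_mul_of_nonneg_right hk hst0.le
    have h6 : 0 ≤ ((k : ℕ) : ℝ) * st := mul_nonneg hk0 hst0.le
    refine ⟨?_, ?_, ?_⟩
    · show 0 < st / 2 - e β
      linarith
    · show hlo G c d s (tg s β) < (K.slo s (tg s β) + G.a s + (((k : ℕ) : ℝ) + 1 / 2) * st) -
        (st / 2 - e β)
      rw [hplo]
      linarith
    · show (K.slo s (tg s β) + G.a s + (((k : ℕ) : ℝ) + 1 / 2) * st) + (st / 2 - e β) <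
        hhi G c d s (tg s β)
      rw [hphi]
      linarith
  · rintro ⟨β, k⟩ ⟨β', k'⟩ hne hs
    change β = β' at hs
    subst hs
    have hkk : (k : ℕ) ≠ k' := fun h => hne (by rw [Fin.ext h])
    have h1 := heo β
    have h2 := he β
    set st := stp (L.N s β) (K.slo s (tg s β) + G.a s) (K.shi s (tg s β) - G.a s) with hst
    have hst0 : 0 < st := by linarith
    have e1 : pcen L s ⟨β, k⟩ - pcen L s ⟨β, k'⟩ = (((k : ℕ) : ℝ) - ((k' : ℕ) : ℝ)) * st := by
      show (K.slo s (tg s β) + G.a s + (((k : ℕ) : ℝ) + 1 / 2) * st) -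
        (K.slo s (tg s β) + G.a s + (((k' : ℕ) : ℝ) + 1 / 2) * st) = _
      ring
    have e2 : pwid L e s ⟨β, k⟩ + pwid L e s ⟨β, k'⟩ = st - 2 * e β := by
      show (st / 2 - e β) + (st / 2 - e β) = _
      ring
    rw [e1, e2, abs_mul, abs_of_pos hst0]
    have h3 : (1:ℝ) ≤ |((k : ℕ) : ℝ) - ((k' : ℕ) : ℝ)| := by
      rcases lt_or_gt_of_ne hkk with h | h
      · have h' : ((k : ℕ) : ℝ) + 1 ≤ ((k' : ℕ) : ℝ) := by exact_mod_cast h
        rw [abs_sub_comm]
        exact le_trans (by linarith) (le_abs_self _)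
      · have h' : ((k' : ℕ) : ℝ) + 1 ≤ ((k : ℕ) : ℝ) := by exact_mod_cast h
        exact le_trans (by linarith) (le_abs_self _)
    have h4 : 1 * st ≤ |((k : ℕ) : ℝ) - ((k' : ℕ) : ℝ)| * st :=
      mul_le_mul_of_nonneg_right h3 hst0.le
    linarith

/-- **the faces of the drawn cells are invariant in the bands**, for the new map -/
theorem PSt.bandInv (P : PSt L φ F T) {κ₀ κ₁ : V → V}
    (h₀ : IsQ (fun b => L.bx false (φ b)) κ₀) (h₁ : IsQ (fun b => L.bx true (φ b)) κ₁)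
    (hs : SurjOn (κ₁ ∘ κ₀) Λ Λ) {b : γ} {h g f : ConHomeo Ω Λ}
    (hf : ∀ x ∈ Ω, f.toFun x = (T true).toFun ((T false).toFun (g.toFun x))) {M U : Set V}
    (hMΩ : M ⊆ Ω) (hU : U ⊆ Ω) {c d : ℝ} (hc : 7 / 8 ≤ c) (hc2 : c ≤ 2) (hd : d ≤ 1)
    (hUD : ∀ x ∈ U, f.toFun x ∈ HB G c d (φ b))
    (hg : g.toFun '' M = Pre (κ₁ ∘ κ₀) Λ h M) (hM : f.toFun '' M ⊆ HB G c d (φ b)) :
    BandInv (ι := PI L (φ b)) Sigma.fst (tg (φ b)) (pcen L (φ b))
      (pwid L (fun β => (F β).e b) (φ b)) U f.toFun M := by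
  have HP := P.prodOn b hc hc2 hd
  refine HP.bandInv hf hU hUD (fun i t ht => ?_)
    (bandInv_φ P.inj h₀ h₁ hs hMΩ hU hg hc hc2 hd ?_)
  · obtain ⟨β, k⟩ := i
    have e1 := P.sgP_tg b β t
    change |sgP F b (tg (φ b) β) t - pcen L (φ b) ⟨β, k⟩| ≤
      pwid L (fun β => (F β).e b) (φ b) ⟨β, k⟩ at ht
    rw [e1] at ht
    have hB := P.B β b
    have h2 := abs_σ_sub_le_iff (F β) (b := b) (k := k) (by rw [hB.N]; exact k.2) (t := t)
    rw [hB.N, hB.al, hB.be, hB.a, hB.c] at h2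
    exact h2.1 ht
  · rintro _ ⟨x, hx, rfl⟩
    refine (HP.mem _ (g.mapsTo (hMΩ hx))).1 ?_
    rw [← hf x (hMΩ hx)]
    exact hM ⟨x, hx, rfl⟩

variable {M : Mesh Ω}

/-- **the box of a plate** for the hook -/
noncomputable abbrev phook (M : Mesh Ω) (L : PLev G) (φ : γ → K.S) (F : Bool → BFam 3 γ Λ)
    (c d : ℝ) (Zb : γ → Set M.ι) (b : γ) : HBox :=
  mbox M (Zb b) (PI L (φ b)) Sigma.fst (tg (φ b)) (hlo G c d (φ b)) (hhi G c d (φ b))
    (pcen L (φ b)) (pwid L (fun β => (F β).e b) (φ b))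

theorem phook_P {c d : ℝ} {Zb : γ → Set M.ι} {b : γ} :
    (phook M L φ F c d Zb b).P = HB G c d (φ b) := rfl

/-- **[HOOK-IN]** the input of the hook for a plate: the cells `Zb b` are dyadic cubes with images
in the interior of the plate; the images of their faces under `g` are the preimages of the images
under `h` -/
noncomputable def PSt.phookIn (P : PSt L φ F T) {κ₀ κ₁ : V → V}
    (h₀ : IsQ (fun b => L.bx false (φ b)) κ₀) (h₁ : IsQ (fun b => L.bx true (φ b)) κ₁)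
    (hs : SurjOn (κ₁ ∘ κ₀) Λ Λ) {h g f : ConHomeo Ω Λ}
    (hf : ∀ x ∈ Ω, f.toFun x = (T true).toFun ((T false).toFun (g.toFun x))) {c d : ℝ}
    (hc : 7 / 8 ≤ c) (hc2 : c ≤ 2) (hd0 : 0 < d) (hd : d ≤ 1) {Zb : γ → Set M.ι} {w : V}
    (idx : M.ι → Idx) (hQ : ∀ b, ∀ i ∈ Zb b, M.Q i = dyc w (idx i).1 (idx i).2)
    (hint : ∀ b, ∀ i ∈ Zb b, f.toFun '' M.Q i ⊆ interior (HB G c d (φ b)))
    (hg : ∀ b, ∀ i ∈ Zb b, ∀ k, M.F k ⊆ M.Q i →
      g.toFun '' M.F k = Pre (κ₁ ∘ κ₀) Λ h (M.F k)) (b : γ) :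
    (phook M L φ F c d Zb b).In f :=
  mboxIn (v := w) (bands_plate L (φ b) (fun β => (F β).he b) (fun β => by
      have h1 := (F β).heo b
      rw [(P.B β b).N, (P.B β b).al, (P.B β b).be] at h1
      exact h1) hc2 hd0)
    (HB_sub hc hd (φ b)) idx (hQ b) (hint b) fun i hi k hk =>
      P.bandInv h₀ h₁ hs hf (hk.trans (M.sub i))
        (U_subset (X := phook M L φ F c d Zb b) (HB_sub hc hd (φ b)))
        hc hc2 hd (fun x hx => (mem_U_iff (X := phook M L φ F c d Zb b)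
          (HB_sub hc hd (φ b)) (U_subset (X := phook M L φ F c d Zb b)
            (HB_sub hc hd (φ b)) hx)).1 hx)
        (hg b i hi k hk) ((image_mono hk).trans ((hint b i hi).trans interior_subset))

theorem phook_fin (L : PLev G) (hφ : Function.Injective φ) {c d : ℝ} (hc : 7 / 8 ≤ c)
    (hd : d ≤ 1) {Zb : γ → Set M.ι} : ∀ z ∈ Λ, ∃ O ∈ 𝓝 z,
      {b | ((phook M L φ F c d Zb b).P ∩ O).Nonempty}.Finite := by
  intro z hz
  obtain ⟨U, hU, hfin⟩ := Geo.lf_PB G (c := c) (by linarith) z hz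
  exact ⟨U, hU, (hfin.preimage (f := φ) hφ.injOn).subset fun b ⟨y, hy, hyU⟩ =>
    ⟨y, HB_PB le_rfl hd _ hy, hyU⟩⟩

theorem phook_dis (L : PLev G) (hφ : Function.Injective φ) {c d : ℝ} (hc : 7 / 8 ≤ c)
    (hd : d ≤ 1) {Zb : γ → Set M.ι} : ∀ b b', b ≠ b' →
      Disjoint (interior (phook M L φ F c d Zb b).P) (phook M L φ F c d Zb b').P :=
  fun b b' hb => ((Geo.disjoint_PB (by linarith) fun e => hb (hφ e)).mono
    (HB_PB le_rfl hd _) (HB_PB le_rfl hd _)).mono_left interior_subset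

end plates

end P073.H919
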