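import Vale.Agent.P073.H880.RP4
import Vale.Agent.P073.H429.Stg3Off

/-!
# P073, block H919: **[INS3O]**, the insertion step of ROUND P for `K3C` with the clause `off`

`exists_stage3Fo`, `exists_stage3_Yo`: `exists_stage3F`, `exists_stage3_Y` of H142 over
`exists_stage3o` of H429.  `PEx.exists_ins3o`: `PEx.exists_ins3` of H880, and `h3 = h1` on the faces
and cells whose images under `h1` miss the supports of the processed squares.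
-/

open Set Metric Topology Filter
open scoped ENNReal

set_option linter.unusedSectionVars false

namespace P073.H880.RP

open _root_.P073 _root_.P073.Net _root_.P073.PA691 _root_.P073.H236 _root_.P073.H579
  _root_.P073.H345 _root_.P073.H880
open Vale.Agent.P073.St (V)
open Vale.Agent.P073.H471 Vale.Agent.P073.H267 Vale.Agent.P073.H267.Geo
open Vale.Agent.P073.H73 (Mesh)
open Vale.Agent.P073.H193 (Edges Cyc)
open Vale.Agent.P073.H304 (IsEdge)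
open Vale.Agent.P073.H155 (vv)
open Vale.Agent.P073.H341 (HtOk ROutZ)
open _root_.P073.H196 (ThP thP)
open _root_.P073.H155 (AxOn Band3 RelT)
open _root_.P073.H429 (Miss)

variable {Ω Λ : Set V} {v : V} {K : BoxCx Λ v} {S : Rad K} {W : Wid K S} {B : Boxes W}
  {G : Geo B} {M : Mesh Ω} {E : Edges M} {D : Dat K M} {h h1 h2 h3 : ConHomeo Ω Λ}
  {ι : Type} {F : ι → Set V} {L : PLev G}

/-- the output of the insertion is `h1` away from the supports -/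
structure OffM (G : Geo B) (D : Dat K M) (h1 h3 : ConHomeo Ω Λ) : Prop where
  face : ∀ k, Miss G D.S₀ h1 (M.F k) → EqOn h3.toFun h1.toFun (M.F k)
  cell : ∀ i, Miss G D.S₀ h1 (M.Q i) → EqOn h3.toFun h1.toFun (M.Q i)

/-- **ROUND P for `K3C`, the insertion step with good edge maps**, with the clause `off` -/
theorem exists_stage3Fo (hΩ : IsOpen Ω) {L : PLev G} (O : ROut3 G E D h1 h2 L.lv F)
    (hPE : ∀ s ∈ D.S₀, D.PE G s ⊆ PK G s)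
    {c : K.S → Bool → ℝ} {c0 : ∀ s β, 0 < c s β} {c1 : ∀ s β, c s β ≤ L.c s β}
    {κ₀ κ₁ : V → V} (i₀ : IsQ (fun s : D.S₀ => (thinL L c c0 c1).bx false s.1) κ₀)
    (i₁ : IsQ (fun s : D.S₀ => (thinL L c c0 c1).bx true s.1) κ₁)
    (hI : InsMap (κ₁ ∘ κ₀) Λ Λ) {Θ : ConHomeo Λ Λ} (hInv : InvIn G E D L h1)
    (hoff : ∀ k ∈ D.WF G h1, EqOn h2.toFun h1.toFun (M.F k))
    (hoffc : ∀ i ∈ D.Gc G h1, EqOn h2.toFun h1.toFun (M.Q i))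
    (hΘ : ∀ A, Inv L D.S₀ A → ∀ y ∈ Λ, (Θ.toFun y ∈ A ↔ y ∈ A))
    (hN : ∀ x ∈ E.verts, (Pre (κ₁ ∘ κ₀) Λ h2 {x}).Subsingleton)
    (hpass : ∀ k, k ∉ D.WF G h1 → k ∉ D.Peel G h1 → ¬ Miss G D.S₀ h1 (M.F k) →
      PassFace M E h2 (κ₁ ∘ κ₀) k)
    {La We mu : E.ε → ℝ} (hmu : ∀ e, mu e ∈ Ioc (0:ℝ) (1 / 4)) (hLa : ∀ e, laE E We e ≤ La e)
    (hWe : ∀ s e, EAct E (D.PkS G h1) s e → ∀ Y : Finset V,
      (∀ x ∈ Y, CrsPt (E.a e) (E.b e) h2.toFun (L.lv s) x) →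
        ∑ x ∈ Y, omX h2.toFun (L.lv s) ((thinL L c c0 c1).omP s) x ≤ We e)
    (hshared : ∀ s k, D.PkS G h1 s k → ∀ l ∈ D.WF G h1, ∀ e, E.seg e ⊆ M.F k →
      E.seg e ⊆ M.F l → ∃ s1 s2 s3 s4 : V → ℝ, EdgeNum (E.a e) (E.b e) h2.toFun ((thinL L c c0 c1).kP s) (L.lv s)
        ((thinL L c c0 c1).loP s) ((thinL L c c0 c1).hiP s) ((thinL L c c0 c1).omP s) (La e)
        (fun x => Θ.toFun (h1.toFun x)) s1 s2 s3 s4)
    (GF : M.κ → (V → V) → Prop)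
    (hface : PAct M E h2 (κ₁ ∘ κ₀) Λ (D.PkS G h1) (thinL L c c0 c1).kP L.lv
        (thinL L c c0 c1).loP (thinL L c c0 c1).hiP (thinL L c c0 c1).omP →
      ∀ s k, D.PkS G h1 s k →
      ∀ Φe : ∀ e, E.seg e ⊆ M.F k → ConHomeo (E.seg e) (Pre (κ₁ ∘ κ₀) Λ h2 (E.seg e)),
      (∀ e he, GEP E h2 (D.PkS G h1) (thinL L c c0 c1).kP L.lv (thinL L c c0 c1).loP
        (thinL L c c0 c1).hiP (thinL L c c0 c1).omP La mu e (Φe e he).toFun) →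
      (∀ e he e' he', EqOn (Φe e he).toFun (Φe e' he').toFun (E.seg e ∩ E.seg e')) →
      (∀ e he, ∀ x ∈ E.seg e, x ∈ E.verts → (κ₁ ∘ κ₀) ((Φe e he).toFun x) = h2.toFun x) →
      ∃ Φ : ConHomeo (M.F k) (Pre (κ₁ ∘ κ₀) Λ h2 (M.F k)), GF k Φ.toFun ∧
        ∀ e he, EqOn Φ.toFun (Φe e he).toFun (E.seg e)) :
    ∃ h3 : ConHomeo Ω Λ, Out3 G E D h1 h2 (κ₁ ∘ κ₀) Θ
      (GEP E h2 (D.PkS G h1) (thinL L c c0 c1).kP L.lv (thinL L c c0 c1).loP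
        (thinL L c c0 c1).hiP (thinL L c c0 c1).omP La mu) GF h3 ∧ OffM G D h1 h3 := by
  have P := O.pact3 (β := false) i₀ i₁
  refine Exists.elim (_root_.P073.H429.exists_stage3o hΩ hInv hoff hoffc
    (fun x hx h => _root_.P073.H429.ROut3.off_PK O hPE hx h)
    (fun k hk x hx => _root_.P073.H429.ROut3.peel_PK O hk hx) hI (fun A hA y _ => ?_) hΘ hN hpass
    (GEP E h2 (D.PkS G h1) (thinL L c c0 c1).kP L.lv (thinL L c c0 c1).loP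
        (thinL L c c0 c1).hiP (thinL L c c0 c1).omP La mu) GF ?_ ?_ ?_ ?_)
    fun h3 H3 => ⟨h3, H3.1, ⟨H3.2.1, H3.2.2⟩⟩
  · show κ₁ (κ₀ y) ∈ A ↔ y ∈ A
    exact (mem_iff_κ i₁ hA _).trans (mem_iff_κ i₀ hA _)
  · exact fun e f g hfg H => gep_congr hfg H
  · rintro k - l hl e - hel s ⟨k', hk', hek'⟩
    obtain ⟨s1, s2, s3, s4, h3⟩ := hshared s k' hk' l hl e hek' hel
    refine ⟨s1, s2, s3, s4, h3, fun hown => ?_⟩
    exact absurd hl (Dat.peel_not_WF (hown l hel))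
  · rintro k ⟨s, hs⟩ e he -
    exact P.hedge hmu hLa hWe s k hs e he
  · rintro k ⟨s, hs⟩
    exact hface P s k hs

/-- the same with the face maps `GFY`, sharp on the nearly monotone faces of `Y` -/
theorem exists_stage3_Yo
    (hΩ : IsOpen Ω) {L : PLev G} (O : ROut3 G E D h1 h2 L.lv F)
    (hPE : ∀ s ∈ D.S₀, D.PE G s ⊆ PK G s)
    {c : K.S → Bool → ℝ} {c0 : ∀ s β, 0 < c s β} {c1 : ∀ s β, c s β ≤ L.c s β}
    {κ₀ κ₁ : V → V} (i₀ : IsQ (fun s : D.S₀ => (thinL L c c0 c1).bx false s.1) κ₀)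
    (i₁ : IsQ (fun s : D.S₀ => (thinL L c c0 c1).bx true s.1) κ₁)
    (hI : InsMap (κ₁ ∘ κ₀) Λ Λ) {Θ : ConHomeo Λ Λ} (hInv : InvIn G E D L h1)
    (hoff : ∀ k ∈ D.WF G h1, EqOn h2.toFun h1.toFun (M.F k))
    (hoffc : ∀ i ∈ D.Gc G h1, EqOn h2.toFun h1.toFun (M.Q i))
    (hΘ : ∀ A, Inv L D.S₀ A → ∀ y ∈ Λ, (Θ.toFun y ∈ A ↔ y ∈ A))
    (hN : ∀ x ∈ E.verts, (Pre (κ₁ ∘ κ₀) Λ h2 {x}).Subsingleton)
    (hpass : ∀ k, k ∉ D.WF G h1 → k ∉ D.Peel G h1 → ¬ Miss G D.S₀ h1 (M.F k) →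
      PassFace M E h2 (κ₁ ∘ κ₀) k)
    {La We : E.ε → ℝ} (hLa : ∀ e, laE E We e ≤ La e) (hWe0 : ∀ e, 0 ≤ We e)
    (hWe : ∀ s e, EAct E (D.PkS G h1) s e → ∀ Y : Finset V,
      (∀ x ∈ Y, CrsPt (E.a e) (E.b e) h2.toFun (L.lv s) x) →
        ∑ x ∈ Y, omX h2.toFun (L.lv s) ((thinL L c c0 c1).omP s) x ≤ We e)
    (hshared : ∀ s k, D.PkS G h1 s k → ∀ l ∈ D.WF G h1, ∀ e, E.seg e ⊆ M.F k →
      E.seg e ⊆ M.F l → ∃ s1 s2 s3 s4 : V → ℝ, EdgeNum (E.a e) (E.b e) h2.toFun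
        ((thinL L c c0 c1).kP s) (L.lv s) ((thinL L c c0 c1).loP s) ((thinL L c c0 c1).hiP s)
        ((thinL L c c0 c1).omP s) (La e) (fun x => Θ.toFun (h1.toFun x)) s1 s2 s3 s4)
    (Cy : ∀ k, Cyc E k) {O' : M.κ → V} {r0 R : M.κ → ℝ}
    (hS : ∀ k, P073.H155.Star ((Cy k).n + 1) (vv (Cy k)) (O' k) (r0 k) (R k) (M.F k))
    (hIE : ∀ p q, IsEdge M (p, q) → ∃ e : E.ε, E.seg e = segment ℝ p q)
    {m Ks es βs ρs : ℝ} (hm0 : 0 < m) (hm1 : m < 1 / 4) (hKs : 0 < Ks) (hρs : ρs ≤ 1 / 2)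
    (hSF : FW31.SpecSharpFace m Ks es βs ρs) (Y : Set M.κ) :
    ∃ h3 : ConHomeo Ω Λ, Out3 G E D h1 h2 (κ₁ ∘ κ₀) Θ
      (GEP E h2 (D.PkS G h1) (thinL L c c0 c1).kP L.lv (thinL L c c0 c1).loP
        (thinL L c c0 c1).hiP (thinL L c c0 c1).omP La fun _ => m)
      (FW31.GFY E h2 (D.PkS G h1) L.lv (thinL L c c0 c1).loP (thinL L c c0 c1).hiP
        (thinL L c c0 c1).omP La We O' r0 R Y Ks es βs ρs) h3 ∧ OffM G D h1 h3 :=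
  exists_stage3Fo hΩ O hPE i₀ i₁ hI hInv hoff hoffc hΘ hN hpass (mu := fun _ => m)
    (fun _ => ⟨hm0, hm1.le⟩) hLa hWe hshared _
    fun P => FW31.hfaceY P Cy hS hIE hKs hρs hSF (fun _ _ _ _ => rfl) hLa hWe0 hWe

/-- **[GE-SH3]** for peeled faces: `ge_shared3` of H155, the peeled faces are active in ROUND T -/
theorem ge_shared3p {c : K.S → Bool → ℝ} {h0 : ∀ s β, 0 < c s β} {hc1 : ∀ s β, c s β ≤ L.c s β}
    {ω : TBx K → ℝ} {m : ℝ} {Act₀ : Set M.κ}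
    {O : M.κ → V} {LaT : E.ε → ℝ} {Lf : M.κ → E.ε → ℝ} {Lam1 : M.κ → ℝ}
    {sl : D.G₀ → Finset (ℝ × ℝ)} (HT : T3OutG G M E h h1 ω m D.G₀ Act₀ O LaT Lf Lam1 sl)
    (hG₀ : ∀ s ∈ D.S₀, ∀ l b, RelT s l b → b ∈ D.G₀)
    (hband : Band3 L D.S₀ sl)
    (hoff : ∀ l ∈ D.WF G h1, EqOn h2.toFun h1.toFun (M.F l))
    (hnear : ∀ s k, D.PkS G h1 s k → ∀ y ∈ M.F k, h1.toFun y ∈ G.PB (15 / 16) s ∧
      h2.toFun y ∈ G.PB (15 / 16) s ∧ |h2.toFun y (K.nrm s) - K.slo s (K.nrm s)| < B.τ s / 2)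
    (hvert : ∀ k ∈ D.WF G h1, ∀ x ∈ E.verts, x ∈ M.F k → Inv L D.S₀ {h1.toFun x})
    {Θ : V → V} (hΘ : ∀ s ∈ D.S₀, ∀ y ∈ G.PB (7 / 8) s, ∀ j,
      Θ y j = _root_.P073.H155.thP L c s j (y j))
    {Le : E.ε → ℝ} (hLe : ∀ e, LaT e ≤ Le e)
    (hPF : ∀ l ∈ D.PF, ∀ e, E.seg e ⊆ M.F l → AxOn h1.toFun (E.seg e) (Le e))
    {s : K.S} {k l : M.κ} (hk : D.PkS G h1 s k) (hkA : k ∈ Act₀) (hl : l ∈ D.WF G h1) {e : E.ε}
    (hek : E.seg e ⊆ M.F k) (hel : E.seg e ⊆ M.F l) {La : ℝ} (hLa0 : 0 ≤ La)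
    (hLa : ∀ β t, L.omP s (tg s β) t * Le e ≤ L.c s β * La) :
    ∃ s1 s2 s3 s4 : V → ℝ, EdgeNum (E.a e) (E.b e) h2.toFun ((thinL L c h0 hc1).kP s)
      ((thinL L c h0 hc1).lv s) ((thinL L c h0 hc1).loP s) ((thinL L c h0 hc1).hiP s)
      ((thinL L c h0 hc1).omP s) La (fun x => Θ (h1.toFun x)) s1 s2 s3 s4 := by
  have hs : s ∈ D.S₀ := hk.1
  have hseg : E.seg e = segment ℝ (E.a e) (E.b e) := rfl
  have hpb : ∀ x ∈ E.seg e, h1.toFun x ∈ G.PB (15 / 16) s := fun x hx => (hnear s k hk x (hek hx)).1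
  have heq : ∀ x ∈ E.seg e, h2.toFun x = h1.toFun x := fun x hx => hoff l hl (hel hx)
  have hf : ∀ y ∈ E.seg e, ∀ j, (fun x => Θ (h1.toFun x)) y j =
      _root_.P073.H155.thP L c s j (h1.toFun y j) :=
    fun y hy j => hΘ s hs _ (_root_.P073.H155.PB_anti (by norm_num) s (hpb y hy)) j
  suffices H : ∃ s1 s2 s3 s4 : V → ℝ, EdgeNum (E.a e) (E.b e) h1.toFun ((thinL L c h0 hc1).kP s)
      ((thinL L c h0 hc1).lv s) ((thinL L c h0 hc1).loP s) ((thinL L c h0 hc1).hiP s)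
      ((thinL L c h0 hc1).omP s) La (fun x => Θ (h1.toFun x)) s1 s2 s3 s4 by
    obtain ⟨s1, s2, s3, s4, H⟩ := H
    exact ⟨s1, s2, s3, s4, H.congr_h heq⟩
  rcases hl with hl' | hl'
  · have hno : ∀ x ∈ E.seg e, h1.toFun x ∉ G.PB 1 s := fun x hx hxs =>
      hl'.2 ⟨s, hs, hl'.1, x, hel hx, hxs⟩
    refine _root_.P073.H155.edgeNum_df HT hband hs (hG₀ s hs) ⟨k, hkA, hek⟩ (fun x hx => ⟨_root_.P073.H155.PB_anti
      (by norm_num) s (hpb x hx), ?_⟩) hno hf hLa0 fun β t => ?_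
    · have h5 := (hnear s k hk x (hek hx)).2.2
      rw [heq x hx] at h5
      linarith
    · have h5 := mul_le_mul_of_nonneg_left (hLe e) (L.omP_pos s (tg s β) t).le
      exact h5.trans (hLa β t)
  · have hMΩ : M.F k ⊆ Ω := Vale.Agent.P073.H193.mesh_sub M k
    have ma : E.a e ∈ E.seg e := left_mem_segment ℝ _ _
    have mb : E.b e ∈ E.seg e := right_mem_segment ℝ _ _
    exact _root_.P073.H155.edgeNum_pf hs (E.ne e) (h1.injOn.mono (hek.trans hMΩ)) (hPF l hl' e hel)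
      (PB_sub_PK (by norm_num) s (hpb _ ma)) (PB_sub_PK (by norm_num) s (hpb _ mb))
      (hvert l (Or.inr hl') _ (Or.inl ⟨e, rfl⟩) (hel ma))
      (hvert l (Or.inr hl') _ (Or.inr ⟨e, rfl⟩) (hel mb)) hf hLa0 hLa

/-- **the insertion step of ROUND P**, with the clause `off`; `cm`: any bound for the thin flats,
chosen after `h2` -/
theorem PEx.exists_ins3o (hΩ : IsOpen Ω) (hΛ : IsOpen Λ) (X : PEx G E D L F h1 h2)
    -- ROUND T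
    {ω : TBx K → ℝ} {mT : ℝ} {Act₀ : Set M.κ} {OT : M.κ → V} {LaT : E.ε → ℝ}
    {Lf : M.κ → E.ε → ℝ} {Lam1 : M.κ → ℝ} {sl : D.G₀ → Finset (ℝ × ℝ)}
    (HT : T3OutG G M E h h1 ω mT D.G₀ Act₀ OT LaT Lf Lam1 sl)
    (hpeel : ∀ k ∈ D.Peel G h1, k ∈ Act₀) (hrel : ∀ s ∈ D.S₀, ∀ l b, RelT s l b → b ∈ D.G₀)
    (hband : Band3 L D.S₀ sl) {Le : E.ε → ℝ} (hLe : ∀ e, LaT e ≤ Le e)
    (hPF : ∀ l ∈ D.PF, ∀ e, E.seg e ⊆ M.F l → AxOn h1.toFun (E.seg e) (Le e))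
    -- numbers
    {La We : E.ε → ℝ} (hLe0 : ∀ e, 0 ≤ Le e) (hLaE : ∀ e, laE E We e ≤ La e)
    (hLa16 : ∀ e, 16 * Le e ≤ La e) (hWe0 : ∀ e, 0 ≤ We e)
    (hom : ∀ s β t, L.omP s (tg s β) t ≤ 16 * L.c s β)
    (hWe : ∀ s e, EAct E (D.PkS G h1) s e → ∀ Y : Finset V,
      (∀ x ∈ Y, CrsPt (E.a e) (E.b e) h2.toFun (L.lv s) x) →
        ∑ x ∈ Y, omX h2.toFun (L.lv s) (L.omP s) x ≤ We e)
    -- faces
    (Cy : ∀ k, Cyc E k) {O' : M.κ → V} {r0 R : M.κ → ℝ}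
    (hS : ∀ k, P073.H155.Star ((Cy k).n + 1) (vv (Cy k)) (O' k) (r0 k) (R k) (M.F k))
    (hIE : ∀ p q, IsEdge M (p, q) → ∃ e : E.ε, E.seg e = segment ℝ p q)
    {m Ks es βs ρs : ℝ} (hm0 : 0 < m) (hm1 : m < 1 / 4) (hKs : 0 < Ks) (hρs : ρs ≤ 1 / 2)
    (hSF : FW31.SpecSharpFace m Ks es βs ρs) (Y : Set M.κ)
    {cm : K.S → Bool → ℝ} (hcm : ∀ s β, 0 < cm s β) :
    ∃ (c : K.S → Bool → ℝ) (c0 : ∀ s β, 0 < c s β) (c1 : ∀ s β, c s β ≤ L.c s β)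
      (κ : Bool → V → V) (Θ : Bool → ConHomeo Λ Λ) (h3 : ConHomeo Ω Λ),
      (∀ s β, c s β ≤ cm s β) ∧ PIns G E D L hΛ h1 h2 c c0 c1 κ Θ
        (GE3 G E D h1 h2 L c c0 c1 La m) (GF3 G E D h1 h2 L c c0 c1 La We O' r0 R Y Ks es βs ρs)
        h3 ∧ OffM G D h1 h3 := by
  have ht : ∀ s ∈ D.S₀, ∀ β, D.ht s β ≤ 3 / 2 * B.τ s := fun s hs β => by
    have h1 := X.ht.le s hs β
    have h2 := B.τ_pos s
    linarith
  have hPE : ∀ s ∈ D.S₀, D.PE G s ⊆ PK G s := fun s hs => D.PE_sub_PK (ht s hs)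
  obtain ⟨c, c0, c1, κ, hc, hκ, hi, hi2, hinv, hN, hP⟩ := X.ex.exists_ins hΛ ht X.fam hcm
  choose Θ hΘ using fun β => (thP L c c0 c1 hΛ D.S₀ β).exists_isH hΛ
  have hΘinv : ∀ A, Inv L D.S₀ A → ∀ y ∈ Λ,
      (((Θ false).trans (Θ true)).toFun y ∈ A ↔ y ∈ A) := fun A hA y _ =>
    (P073.H196.theta_mem_iff (hΘ true) hA _).trans (P073.H196.theta_mem_iff (hΘ false) hA y)
  have hLa0 : ∀ e, 0 ≤ La e := fun e => by
    have h1 := hLe0 e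
    have h2 := hLa16 e
    linarith
  refine Exists.elim (exists_stage3_Yo hΩ X.ex hPE (hκ false) (hκ true) hi2
    (Θ := (Θ false).trans (Θ true)) X.inv (fun k hk => X.offF hk) (fun i hi => X.offC hi) hΘinv
    hN (fun k _ _ _ => hP k) (La := La) (We := We) hLaE hWe0 hWe ?_ Cy hS hIE hm0 hm1 hKs hρs hSF
    Y)
    fun h3 H3 => ⟨c, c0, c1, κ, Θ, h3, hc, ⟨hκ, hΘ, hi, hi2, H3.1⟩, H3.2⟩
  intro s k hk l hl e hek hel
  refine ge_shared3p HT hrel hband (fun l hl => X.offF hl) X.ex.near X.inv.vert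
    (Θ := ((Θ false).trans (Θ true)).toFun) ?_ hLe hPF hk (hpeel k ⟨s, hk⟩) hl hek hel (hLa0 e) ?_
  · intro s hs y hy j
    exact P073.H196.theta2_full hΘ ⟨s, hs⟩ hy j
  · intro β t
    have h5 := mul_le_mul_of_nonneg_right (hom s β t) (hLe0 e)
    have h6 := mul_le_mul_of_nonneg_left (hLa16 e) (L.lvs s β).c0.le
    linarith

end P073.H880.RP
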