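import Vale.Agent.P073.H919.OscLev
import Vale.Agent.P073.H805.AccZ2

/-!
# P073, [K3-TOP], [OSC-TOP]: the faces and cells above the Z-wall

`high_face`: a point of the box of the hook on a face (cell) above the wall `|n| = τ / 4` at a side
which is not protected: its tangential position after the second staircases is near the position
before the exchange of a point of the same face (cell).
-/

open Set Metric Topology Filter
open scoped ENNReal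

set_option linter.unusedSectionVars false

namespace Vale.Agent.P073.H919.K3

open _root_.P073 _root_.P073.Net _root_.P073.PA691 _root_.P073.H236 _root_.P073.H579
open _root_.P073.H936 _root_.P073.H936.K3
open _root_.P073.H142
open _root_.P073.H345 (PK PB_sub_PK PK_sub_ss tg PLev PK_unique)
open _root_.P073.H880.RP
open _root_.P073.H919
open _root_.P073.H429
open Vale.Agent.P073.St (V)
open Vale.Agent.P073.H471 Vale.Agent.P073.H267
open Vale.Agent.P073.H267.K3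
open Vale.Agent.P073.H73 (Mesh)
open Vale.Agent.P073.H193 (Edges edges LAtC)
open Vale.Agent.P073.H926
open Vale.Agent.P073.H238.K3
open Vale.Agent.P073.H190.Tvp (wP)
open Vale.Agent.P073.H341 (Abv Mg)
open Vale.Agent.P073.H805 (lvs)

variable {c₀ n δ : ℝ} {j : ℕ} {Ω Λ : Set V} {v w : V} {ρ : V → ℝ} {M : Mesh Ω} {h : ConHomeo Ω Λ}
  {J₀ J : Set (ℕ × (Fin 3 → ℤ))} {P Z : Set M.ι} {K : BoxCx Λ w}
  {D : KIn3 c₀ n j δ v w ρ M h J₀ J P Z} {C : Cells ρ w K} {C₀ μT : ℝ}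
  {X : S1 D C C₀ μT} {Y₂ : S2 X} {Ys : Set M.κ} {sc : Sharp} {Y₃ : S3 Y₂ Ys sc}
  {Y₄ : S4 Y₃} {s : K.S} {k : M.κ}

/-- a point whose image under `h2` is in the box of the hook -/
theorem h1_mem_HB (Y₂ : S2 X) {z : V} (hz : z ∈ Ω)
    (hB : Y₂.h2.toFun z ∈ HB (D.G C) (29 / 32) (3 / 4) s) :
    X.h1.toFun z ∈ HB (D.G C) (29 / 32) (3 / 4) s := by
  by_cases hpe : ∃ s' ∈ (D.dat C).S₀, X.h1.toFun z ∈ interior ((D.dat C).PE (D.G C) s')
  · obtain ⟨s', hs', hi⟩ := hpe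
    have h1 : Y₂.h2.toFun z ∈ (D.dat C).PE (D.G C) s' :=
      (Y₂.ex.ex.box s' hs' z hz).2 (interior_subset hi)
    have e := PK_unique (HB_PK (pe_HB hs' h1)) (HB_PK hB)
    rw [← e]
    exact pe_HB hs' (interior_subset hi)
  · push Not at hpe
    rw [← Y₂.ex.ex.off z hz hpe]
    exact hB

/-- **the exchange keeps the labels above the Z-wall** -/
theorem lev_of_Abv (Y₂ : S2 X) (hs : s ∈ (D.dat C).S₀) {z : V} (hz : z ∈ Ω)
    (hB : X.h1.toFun z ∈ HB (D.G C) (29 / 32) (3 / 4) s) {β₀ : Bool}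
    (hsd : ¬ (D.dat C).sd s β₀) (hA : Abv K s β₀ ((D.B C).τ s / 4) (X.h1.toFun z)) (β : Bool)
    {t : ℝ} (ht : t ∈ Y₂.L.lv s (tg s β)) :
    Y₂.h2.toFun z (tg s β) < t ↔ X.h1.toFun z (tg s β) < t := by
  have e1 : lvs Y₂.L.lv s (tg s β) = Y₂.L.lv s (tg s β) := if_neg (_root_.P073.H345.tg_ne s β)
  refine (Y₂.ex.exZ.lev s hs z hz (fun hi => Or.inl ?_) (fun s' hs' hne hi => ?_) (tg s β) t
    (by rw [e1]; exact ht)).2.1
  · have h3 : (D.dat C).ht s β₀ = (D.B C).τ s / 2 := D.dat_ht_not C hsd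
    refine ⟨interior_subset hi, ?_⟩
    unfold Abv at hA
    cases β₀ with
    | true =>
      left
      rw [if_pos rfl] at hA
      exact ⟨hsd, by rw [h3]; linarith⟩
    | false =>
      right
      rw [if_neg (by simp)] at hA
      exact ⟨hsd, by rw [h3]; linarith⟩
  · exact hne (PK_unique (HB_PK (pe_HB hs' (interior_subset hi))) (HB_PK hB))

/-- **the points of the hook box on a set above the Z-wall** -/
theorem high_set (Y₄ : S4 Y₃) (hs : s ∈ (D.dat C).S₀) (hQ : ∀ β, Y₂.Q s β = ∅) {A : Set V}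
    (hA : A ⊆ Ω) (himg : Y₃.h3.toFun '' A = Pre (Y₃.κ true ∘ Y₃.κ false) Λ Y₂.h2 A) {β₀ : Bool}
    (hsd : ¬ (D.dat C).sd s β₀)
    (hhi : ∀ z ∈ A, Abv K s β₀ ((D.B C).τ s / 4) (X.h1.toFun z)) {x : V} (hx : x ∈ A)
    (hB : Y₃.h4.toFun x ∈ HB (D.G C) (29 / 32) (3 / 4) s) :
    ∃ z ∈ A, Y₂.h2.toFun z = Y₃.κ true (Y₃.κ false (Y₃.h3.toFun x)) ∧
      X.h1.toFun z ∈ HB (D.G C) (29 / 32) (3 / 4) s ∧
      ∀ β, |wP (D.G C) s β (Y₄.f5.toFun x (tg s β)) -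
        wP (D.G C) s β (X.h1.toFun z (tg s β))| ≤ 3 * Y₂.muP s := by
  have hB3 := (h3_of_HB Y₃ hs (hA hx) hB).1
  have hB1 : ∀ z ∈ A, Y₂.h2.toFun z = Y₃.κ true (Y₃.κ false (Y₃.h3.toFun x)) →
      X.h1.toFun z ∈ HB (D.G C) (29 / 32) (3 / 4) s := fun z hz hzx => by
    refine h1_mem_HB Y₂ (hA hz) ?_
    rw [hzx]
    exact (κ_mem_iff (L := Y₃.Lt) (φ := (Subtype.val : (D.dat C).S₀ → K.S)) (b := ⟨s, hs⟩)
      Subtype.val_injective (Y₃.ins.isQ false) (Y₃.ins.isQ true) (by norm_num) (by norm_num)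
      (by norm_num)).2 hB3
  obtain ⟨z, hz, hzx, H⟩ := high_pos Y₄ hs hQ hA himg hx hB
    (fun i => Y₄.accZ (s := ⟨s, hs⟩) hA himg hx hB hsd hhi i)
    (fun z hz hzx β t ht => lev_of_Abv Y₂ hs (hA hz) (hB1 z hz hzx) hsd (hhi z hz) β ht)
  exact ⟨z, hz, hzx, hB1 z hz hzx, H⟩

/-- **faces above the Z-wall** -/
theorem high_face (Y₄ : S4 Y₃) (hs : s ∈ (D.dat C).S₀) (hQ : ∀ β, Y₂.Q s β = ∅) {β₀ : Bool}
    (hsd : ¬ (D.dat C).sd s β₀)
    (hhi : ∀ z ∈ M.F k, Abv K s β₀ ((D.B C).τ s / 4) (X.h1.toFun z)) {x : V} (hx : x ∈ M.F k)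
    (hB : Y₃.h4.toFun x ∈ HB (D.G C) (29 / 32) (3 / 4) s) :
    ∃ z ∈ M.F k, Y₂.h2.toFun z = Y₃.κ true (Y₃.κ false (Y₃.h3.toFun x)) ∧
      X.h1.toFun z ∈ HB (D.G C) (29 / 32) (3 / 4) s ∧
      ∀ β, |wP (D.G C) s β (Y₄.f5.toFun x (tg s β)) -
        wP (D.G C) s β (X.h1.toFun z (tg s β))| ≤ 3 * Y₂.muP s :=
  high_set Y₄ hs hQ (Vale.Agent.P073.H193.mesh_sub M k) (Y₃.ins.out.img_face k) hsd hhi hx hB

end Vale.Agent.P073.H919.K3
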