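import Vale.Agent.P073.H919.SlotZone

/-!
# P073, block H919: [KAPALL], the slots of families of boxes (H236 `BX`, H345 `IsQ`)
-/

open Set Metric Topology Filter

set_option linter.unusedSectionVars false

namespace P073.H919

open P073 P073.H345 P073.H236 P073.H579
open Vale.Agent.P073.St (V)

variable {P γ : Type*} {Λ : Set (Fin 3 → ℝ)}

/-- the slots of families of boxes; the phase is the family -/
noncomputable def ofBX (B : P → γ → BX 3) : Slots 3 (Σ q : P × γ, Fin (B q.1 q.2).N) P where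
  i := fun j => (B j.1.1 j.1.2).j
  a := fun j => (B j.1.1 j.1.2).a j.2
  η := fun j => 2 * (B j.1.1 j.1.2).c
  μ := fun j => mu (B j.1.1 j.1.2)
  p := fun j => j.1.1
  pos := fun j => by have := (B j.1.1 j.1.2).lvs.c0; positivity
  thk := fun j => thk_mu _

/-- the supports -/
def ofBX_K (B : P → γ → BX 3) (j : Σ q : P × γ, Fin (B q.1 q.2).N) : Set (Fin 3 → ℝ) :=
  (B j.1.1 j.1.2).K

/-- at an active slot the point is strictly between the ends -/
theorem ofBX_act {B : P → γ → BX 3} {j : Σ q : P × γ, Fin (B q.1 q.2).N} {y : Fin 3 → ℝ}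
    (h : (ofBX B).Act j y) : y ∈ (B j.1.1 j.1.2).K ∧
      (B j.1.1 j.1.2).al < y (B j.1.1 j.1.2).j ∧ y (B j.1.1 j.1.2).j < (B j.1.1 j.1.2).be := by
  obtain ⟨h1, h2⟩ := h
  obtain ⟨q, k⟩ := j
  have h1' : |y (B q.1 q.2).j - (B q.1 q.2).a k| < 2 * (B q.1 q.2).c := h1
  obtain ⟨a1, a2⟩ := abs_lt.1 h1'
  have e1 := (B q.1 q.2).lvs.first_le k.2
  have e2 := (B q.1 q.2).lvs.le_last k.2
  have e3 : (B q.1 q.2).al < y (B q.1 q.2).j := by linarith
  have e4 : y (B q.1 q.2).j < (B q.1 q.2).be := by linarith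
  refine ⟨(mem_K _).2 ⟨⟨e3.le, e4.le⟩, ?_⟩, e3, e4⟩
  by_contra h3
  exact h2 (mu_zero _ h3)

theorem ofBX_dis {B : P → γ → BX 3} (H : ∀ β, Fam Λ (B β)) : (ofBX B).Dis := by
  intro j j' hne hp y hj hj'
  obtain ⟨⟨β, s⟩, k⟩ := j
  obtain ⟨⟨β', s'⟩, k'⟩ := j'
  change β = β' at hp
  subst hp
  obtain ⟨h1, h2, h3⟩ := ofBX_act hj
  obtain ⟨h1', -, -⟩ := ofBX_act hj'
  by_cases hs : s = s'
  · subst hs
    have hkk : (k : ℕ) ≠ k' := fun e => hne (by rw [Fin.ext e])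
    have a1 : |y (B β s).j - (B β s).a k| < 2 * (B β s).c := hj.1
    have a2 : |y (B β s).j - (B β s).a k'| < 2 * (B β s).c := hj'.1
    obtain ⟨c1, c2⟩ := abs_lt.1 a1
    obtain ⟨d1, d2⟩ := abs_lt.1 a2
    rcases lt_or_gt_of_ne hkk with h | h
    · have := (B β s).lvs.add_le h k'.2
      linarith
    · have := (B β s).lvs.add_le h k.2
      linarith
  · rcases (H β).dis s s' hs y h1 h1' with h | h
    · exact absurd h2 (not_lt.2 h)
    · exact absurd h3 (not_lt.2 h)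

theorem ofBX_lf [Finite P] [Nonempty P] {B : P → γ → BX 3} (H : ∀ β, Fam Λ (B β)) :
    (ofBX B).LF Λ (ofBX_K B) where
  op := (H (Classical.arbitrary P)).op
  cpt := fun j => (B j.1.1 j.1.2).isCompact_K
  sub := fun j => (H j.1.1).sub j.1.2
  act := fun j y h => (ofBX_act h).1
  lf := fun z hz => by
    choose U hU hfin using fun β => (H β).lf z hz
    refine ⟨⋂ β, U β, iInter_mem.2 hU, ?_⟩
    have h1 : (⋃ β : P, (fun s => ((β, s) : P × γ)) '' {s | ((B β s).K ∩ U β).Nonempty}).Finite :=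
      finite_iUnion fun β => (hfin β).image _
    refine (h1.biUnion fun q _ => finite_range
      fun k : Fin (B q.1 q.2).N => (⟨q, k⟩ : Σ q : P × γ, Fin (B q.1 q.2).N)).subset ?_
    rintro ⟨⟨β, s⟩, k⟩ ⟨y, hy, hyU⟩
    refine mem_iUnion₂.2 ⟨(β, s), mem_iUnion.2 ⟨β, s, ⟨y, hy, mem_iInter.1 hyU β⟩, rfl⟩, k, rfl⟩
  dis := ofBX_dis H

/-- **the map of one phase is the map `κ` of the family** -/
theorem ki_ofBX {B : P → γ → BX 3} (H : ∀ β, Fam Λ (B β)) {β : P} {κ : (Fin 3 → ℝ) → Fin 3 → ℝ}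
    (hκ : IsQ (B β) κ) : (ofBX B).ki β = κ := by
  ext1 y
  rcases (ofBX_dis H).ki_cases β y with ⟨⟨⟨β', s⟩, k⟩, hj, hact, h1⟩ | ⟨h1, h2⟩
  · change β' = β at hj
    subst hj
    rw [h1, hκ.on s y (ofBX_act hact).1]
    exact (Q_eq_kap (B β' s) k.2 hact.1.le).symm
  · rw [h2]
    by_cases h3 : ∃ s, y ∈ (B β s).K
    · obtain ⟨s, hs⟩ := h3
      rw [hκ.on s y hs]
      by_cases h4 : ∃ k < (B β s).N, |y (B β s).j - (B β s).a k| < 2 * (B β s).c
      · obtain ⟨k, hk, h5⟩ := h4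
        have h6 := h1 ⟨(β, s), ⟨k, hk⟩⟩ rfl
        have h7 : mu (B β s) y = 0 := by
          by_contra h8
          exact h6 ⟨h5, h8⟩
        rw [Q_eq_kap (B β s) hk h5.le, kap_eq_self_of_zero h7]
      · push Not at h4
        rw [Q_eq_self _ h4]
    · push Not at h3
      rw [hκ.off y h3]

/-- the composition of two families -/
theorem kL_ofBX {B : Bool → γ → BX 3} (H : ∀ β, Fam Λ (B β)) {κ : Bool → (Fin 3 → ℝ) → Fin 3 → ℝ}
    (hκ : ∀ β, IsQ (B β) (κ β)) (y : Fin 3 → ℝ) :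
    (ofBX B).kL [false, true] y = κ true (κ false y) := by
  rw [Slots.kL_cons, Slots.kL_cons, Slots.kL_nil, ki_ofBX H (hκ true), ki_ofBX H (hκ false)]

/-- cut off thickness -/
theorem thk_min {n : ℕ} {i : Fin n} {η : ℝ} {μ χ : (Fin n → ℝ) → ℝ} (h : Thk i η μ)
    (h0 : ∀ y, 0 ≤ χ y) (hcc : CC χ univ) (hi : ∀ y t, χ (Function.update y i t) = χ y) :
    Thk i η fun y => min (μ y) (χ y) where
  nonneg := fun y => le_min (h.nonneg y) (h0 y)
  le := fun y => (min_le_left _ _).trans (h.le y)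
  cc := h.cc.min hcc
  indep := fun y t => by rw [h.indep, hi]

/-- smaller thickness keeps `LF` -/
theorem Slots.LF.mod {n : ℕ} {J : Type*} {S : Slots n J P} {Λ : Set (Fin n → ℝ)}
    {K : J → Set (Fin n → ℝ)} (H : S.LF Λ K) {μ' : J → (Fin n → ℝ) → ℝ}
    {h' : ∀ j, Thk (S.i j) (S.η j) (μ' j)} (hle : ∀ j y, μ' j y ≤ S.μ j y) :
    (S.mod μ' h').LF Λ K := by
  have key : ∀ j y, (S.mod μ' h').Act j y → S.Act j y := by
    intro j y h
    refine ⟨h.1, fun h2 => h.2 (le_antisymm ?_ ((h' j).nonneg y))⟩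
    exact (hle j y).trans h2.le
  exact ⟨H.op, H.cpt, H.sub, fun j y h => H.act j y (key j y h), H.lf,
    fun j k hjk hp y h h2 => H.dis j k hjk hp y (key j y h) (key k y h2)⟩

/-- smaller thickness keeps `Loc` -/
theorem Slots.Loc.mod {n : ℕ} {J : Type*} {S : Slots n J P} {T : Set J} {c : ℝ}
    {z : Fin n → ℝ} (H : S.Loc T c z) {μ' : J → (Fin n → ℝ) → ℝ}
    {h' : ∀ j, Thk (S.i j) (S.η j) (μ' j)} (hle : ∀ j y, μ' j y ≤ S.μ j y) :
    (S.mod μ' h').Loc T c z where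
  off := fun j hj w hw h => H.off j hj w hw
    ⟨h.1, fun h2 => h.2 (le_antisymm ((hle j w).trans h2.le) ((h' j).nonneg w))⟩
  le := fun j hj w => (hle j w).trans (H.le j hj w)
  coh := H.coh

end P073.H919
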