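import Vale.Agent.P073.H919.Slots
import Vale.Agent.P073.H579.HFaceM
import Vale.Agent.P073.H919.InMesh

/-!
# P073, block H919: [KAPALL], the zone of the drawn faces

Where all slots are inactive or have full constant thickness `c`, the map `kL o` is the product map
`prodK k`; `k l` is the monotone map of the line with the flats `[a - c, a + c]`.  Two families with
the same levels and the same thickness near a set have the same fibres over the set.
-/

open Set Metric Topology Filter

set_option linter.unusedSectionVars false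

namespace P073.H919

open P073 P073.H345 P073.H236 P073.H579
open Vale.Agent.P073.St (V)

/-! ### the map of the line -/

section line

variable {J : Type*} (a η : J → ℝ) (c : ℝ)

/-- finitely many flats of half length `c` -/
noncomputable def kF (s : Finset J) (t : ℝ) : ℝ := t + ∑ j ∈ s, (ph (η j) c (t - a j) - (t - a j))

/-- the bands are disjoint -/
def Sep (s : Finset J) : Prop := ∀ j ∈ s, ∀ k ∈ s, j ≠ k → η j + η k ≤ |a j - a k|

variable {a η c} {s : Finset J}

theorem kF_of_mem (hη : ∀ j ∈ s, 0 < η j) (hs : Sep a η s) {j : J} (hj : j ∈ s) {t : ℝ}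
    (ht : |t - a j| ≤ η j) : kF a η c s t = a j + ph (η j) c (t - a j) := by
  unfold kF
  rw [Finset.sum_eq_single_of_mem j hj]
  · ring
  · intro k hk hkj
    have h1 := hs j hj k hk (Ne.symm hkj)
    have h2 : a j - a k = (t - a k) - (t - a j) := by ring
    have h3 := abs_sub (t - a k) (t - a j)
    rw [← h2] at h3
    rw [ph_of_abs_ge (hη k hk) (by linarith), sub_self]

theorem kF_off (hη : ∀ j ∈ s, 0 < η j) {t : ℝ} (ht : ∀ j ∈ s, η j ≤ |t - a j|) :
    kF a η c s t = t := by
  unfold kF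
  rw [Finset.sum_eq_zero, add_zero]
  intro k hk
  rw [ph_of_abs_ge (hη k hk) (ht k hk), sub_self]

theorem kF_cases (hη : ∀ j ∈ s, 0 < η j) (hs : Sep a η s) (t : ℝ) :
    (∃ j ∈ s, |t - a j| < η j ∧ kF a η c s t = a j + ph (η j) c (t - a j)) ∨
      ((∀ j ∈ s, η j ≤ |t - a j|) ∧ kF a η c s t = t) := by
  by_cases h : ∃ j ∈ s, |t - a j| < η j
  · obtain ⟨j, hj, h1⟩ := h
    exact Or.inl ⟨j, hj, h1, kF_of_mem hη hs hj h1.le⟩
  · push Not at h
    exact Or.inr ⟨h, kF_off hη h⟩

theorem abs_kF_sub_le (hη : ∀ j ∈ s, 0 < η j) (hs : Sep a η s) (hc : 0 ≤ c) (t : ℝ) :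
    |kF a η c s t - t| ≤ c := by
  rcases kF_cases (c := c) hη hs t with ⟨j, -, -, h1⟩ | ⟨-, h1⟩
  · rw [h1]
    have h2 : a j + ph (η j) c (t - a j) - t = ph (η j) c (t - a j) - (t - a j) := by ring
    rw [h2]
    exact abs_ph_sub_le hc
  · rw [h1, sub_self, abs_zero]; exact hc

/-- the bands are invariant -/
theorem abs_kF_lt_iff (hη : ∀ j ∈ s, 0 < η j) (hs : Sep a η s) {j : J} (hj : j ∈ s) (t : ℝ) :
    |kF a η c s t - a j| < η j ↔ |t - a j| < η j := by
  rcases kF_cases (c := c) hη hs t with ⟨k, hk, h1, h2⟩ | ⟨h1, h2⟩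
  · by_cases hjk : j = k
    · subst hjk
      rw [h2, add_sub_cancel_left, abs_ph_lt_iff (hη j hj)]
    · have h3 := hs j hj k hk hjk
      have h4 : |kF a η c s t - a k| < η k := by
        rw [h2, add_sub_cancel_left, abs_ph_lt_iff (hη k hk)]; exact h1
      have key : ∀ t, |t - a k| < η k → ¬ |t - a j| < η j := by
        intro t ht ht'
        have h5 : a j - a k = (t - a k) - (t - a j) := by ring
        have h6 := abs_sub (t - a k) (t - a j)
        rw [← h5] at h6
        linarith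
      exact ⟨fun h => absurd h (key _ h4), fun h => absurd h (key _ h1)⟩
  · rw [h2]

theorem kF_empty (t : ℝ) : kF a η c ∅ t = t := by simp [kF]

theorem kF_insert [DecidableEq J] {j : J} (hj : j ∉ s) (hη : ∀ k ∈ insert j s, 0 < η k)
    (hs : Sep a η (insert j s)) (t : ℝ) :
    kF a η c (insert j s) t = kF a η c s (a j + ph (η j) c (t - a j)) := by
  have hη' : ∀ k ∈ s, 0 < η k := fun k hk => hη k (Finset.mem_insert_of_mem hk)
  have hηj := hη j (Finset.mem_insert_self _ _)
  by_cases h : |t - a j| < η j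
  · rw [kF_of_mem hη hs (Finset.mem_insert_self _ _) h.le, kF_off hη']
    intro k hk
    have h1 := hs j (Finset.mem_insert_self _ _) k (Finset.mem_insert_of_mem hk)
      (fun e => hj (e ▸ hk))
    have h2 : |ph (η j) c (t - a j)| < η j := (abs_ph_lt_iff hηj).2 h
    have h3 : a j - a k = (a j + ph (η j) c (t - a j) - a k) - ph (η j) c (t - a j) := by ring
    have h4 := abs_sub (a j + ph (η j) c (t - a j) - a k) (ph (η j) c (t - a j))
    rw [← h3] at h4
    linarith
  · push Not at h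
    rw [ph_of_abs_ge hηj h, add_sub_cancel]
    unfold kF
    rw [Finset.sum_insert hj, ph_of_abs_ge hηj h, sub_self, zero_add]

/-- one flat -/
theorem ins1_one {a₀ η₀ : ℝ} (hc : 0 < c) (hη : c ≤ η₀ / 2) :
    Ins1 (fun t => a₀ + ph η₀ c (t - a₀)) {a₀} (fun t => t - c) (fun t => t + c) where
  mono := fun t t' h => by
    have := ph_mono (η := η₀) (m := c) (show t - a₀ ≤ t' - a₀ by linarith)
    show a₀ + _ ≤ a₀ + _
    linarith
  cont := by
    have hu : ConicalSet (univ : Set ℝ) := isOpen_univ.conicalSet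
    have h1 : CC (fun t : ℝ => ph η₀ c (t - a₀)) univ := CC.ph hu (CC.const c hu)
      (CC.sub ⟨continuousOn_id, conicalOn_id hu⟩ (CC.const a₀ hu))
    exact continuous_const.add (continuousOn_univ.1 h1.cont)
  con := by
    have hu : ConicalSet (univ : Set ℝ) := isOpen_univ.conicalSet
    have h1 : CC (fun t : ℝ => ph η₀ c (t - a₀)) univ := CC.ph hu (CC.const c hu)
      (CC.sub ⟨continuousOn_id, conicalOn_id hu⟩ (CC.const a₀ hu))
    exact ((CC.const a₀ hu).add h1).con
  surj := fun t => by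
    obtain ⟨r, hr⟩ := exists_ph_eq (η := η₀) (m := c) (by linarith) hc.le (t - a₀)
    exact ⟨a₀ + r, by show a₀ + ph η₀ c (a₀ + r - a₀) = t; rw [add_sub_cancel_left, hr]; ring⟩
  bdd := ⟨c, fun t => by
    have h1 : a₀ + ph η₀ c (t - a₀) - t = ph η₀ c (t - a₀) - (t - a₀) := by ring
    rw [h1]; exact abs_ph_sub_le hc.le⟩
  lt := fun _ _ => by linarith
  flat := fun b hb t => by
    rw [mem_singleton_iff] at hb
    subst hb
    have h1 := ph_zero_iff (η := η₀) (m := c) (r := t - b) hc.le hη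
    rw [abs_le] at h1
    constructor
    · intro h
      have := h1.1 (by linarith)
      constructor <;> linarith [this.1, this.2]
    · rintro ⟨h2, h3⟩
      have := h1.2 ⟨by linarith, by linarith⟩
      show b + ph η₀ c (t - b) = b
      rw [this, add_zero]
  inj := fun t t' h hne => by
    have h1 : ph η₀ c (t - a₀) = ph η₀ c (t' - a₀) := by
      have h2 : a₀ + ph η₀ c (t - a₀) = a₀ + ph η₀ c (t' - a₀) := h
      linarith
    have h3 : ph η₀ c (t - a₀) ≠ 0 := by
      intro h4
      apply hne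
      show a₀ + ph η₀ c (t - a₀) = a₀
      rw [h4, add_zero]
    have := ph_inj_off (by linarith) hc.le hη h1 h3
    linarith

theorem ins1_comp {k₁ k₂ : ℝ → ℝ} {L₁ L₂ : Set ℝ} {lo hi : ℝ → ℝ} (h1 : Ins1 k₁ L₁ lo hi)
    (h2 : Ins1 k₂ L₂ lo hi) (ha : ∀ b ∈ L₁, ∀ t, (k₂ t = b ↔ t = b))
    (hb : ∀ b ∈ L₂, ∀ t, (lo b ≤ k₁ t ∧ k₁ t ≤ hi b ↔ lo b ≤ t ∧ t ≤ hi b)) :
    Ins1 (fun t => k₂ (k₁ t)) (L₁ ∪ L₂) lo hi where
  mono := h2.mono.comp h1.mono
  cont := h2.cont.comp h1.cont
  con := h2.con.comp h1.con (mapsTo_univ _ _) h1.cont.continuousOn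
  surj := h2.surj.comp h1.surj
  bdd := by
    obtain ⟨M, hM⟩ := h1.bdd
    obtain ⟨M', hM'⟩ := h2.bdd
    refine ⟨M' + M, fun t => ?_⟩
    have e : k₂ (k₁ t) - t = (k₂ (k₁ t) - k₁ t) + (k₁ t - t) := by ring
    rw [e]
    exact (abs_add_le _ _).trans (add_le_add (hM' _) (hM _))
  lt := fun b hb => hb.elim (h1.lt b) (h2.lt b)
  flat := fun b hb' t => by
    rcases hb' with h | h
    · exact (ha b h _).trans (h1.flat b h t)
    · exact (h2.flat b h _).trans (hb b h t)
  inj := fun t t' he hne => by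
    rw [mem_union, not_or] at hne
    have h3 : k₁ t = k₁ t' := h2.inj _ _ he hne.2
    refine h1.inj _ _ h3 fun h4 => hne.1 ?_
    have h5 : k₂ (k₁ t) = k₁ t := (ha _ h4 _).2 rfl
    show k₂ (k₁ t) ∈ L₁
    rw [h5]; exact h4

/-- **the map of the line** -/
theorem ins1_kF [DecidableEq J] (hc : 0 < c) (hη : ∀ j ∈ s, c ≤ η j / 2) (hs : Sep a η s) :
    Ins1 (kF a η c s) ((s.image a : Finset ℝ) : Set ℝ) (fun t => t - c) (fun t => t + c) := by
  induction s using Finset.induction_on with
  | empty =>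
    have e : kF a η c ∅ = fun t => t := funext fun t => kF_empty t
    rw [e, Finset.image_empty, Finset.coe_empty]
    exact Ins1.id _ _
  | insert j s hj ih =>
    have hη0 : ∀ k ∈ insert j s, 0 < η k := fun k hk => by linarith [hη k hk]
    have hη' : ∀ k ∈ s, 0 < η k := fun k hk => hη0 k (Finset.mem_insert_of_mem hk)
    have hs' : Sep a η s := fun k hk l hl h =>
      hs k (Finset.mem_insert_of_mem hk) l (Finset.mem_insert_of_mem hl) h
    have h2 := ih (fun k hk => hη k (Finset.mem_insert_of_mem hk)) hs'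
    have h1 := ins1_one (a₀ := a j) hc (hη j (Finset.mem_insert_self _ _))
    have hηj := hη0 j (Finset.mem_insert_self _ _)
    have hjk : ∀ k ∈ s, η j + η k ≤ |a j - a k| := fun k hk =>
      hs j (Finset.mem_insert_self _ _) k (Finset.mem_insert_of_mem hk) fun e => hj (e ▸ hk)
    have h3 := ins1_comp h1 h2 (fun b hb t => by
      rw [mem_singleton_iff] at hb
      subst hb
      have hfix : ∀ k ∈ s, η k ≤ |a j - a k| := fun k hk => by linarith [hjk k hk]
      constructor
      · intro h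
        rcases kF_cases (c := c) hη' hs' t with ⟨k, hk, h4, -⟩ | ⟨-, h4⟩
        · exfalso
          have h5 := (abs_kF_lt_iff (c := c) hη' hs' hk t).2 h4
          rw [h] at h5
          linarith [hfix k hk]
        · rw [← h, h4]
      · rintro rfl
        exact kF_off hη' hfix) (fun b hb t => by
      rw [Finset.mem_coe, Finset.mem_image] at hb
      obtain ⟨k, hk, rfl⟩ := hb
      have hck := hη k (Finset.mem_insert_of_mem hk)
      have h4 := hjk k hk
      have key : ∀ t, |t - a j| < η j → ¬ |t - a k| ≤ c := by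
        intro t ht ht'
        have h5 : a j - a k = (t - a k) - (t - a j) := by ring
        have h6 := abs_sub (t - a k) (t - a j)
        rw [← h5] at h6
        have := hη' k hk
        linarith
      have e : ∀ t, (a k - c ≤ t ∧ t ≤ a k + c ↔ |t - a k| ≤ c) := by
        intro t
        rw [abs_le]
        constructor
        · rintro ⟨h5, h6⟩; constructor <;> linarith
        · rintro ⟨h5, h6⟩; constructor <;> linarith
      rw [e, e]
      by_cases h5 : |t - a j| < η j
      · have h6 : |a j + ph (η j) c (t - a j) - a j| < η j := by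
          rw [add_sub_cancel_left, abs_ph_lt_iff hηj]; exact h5
        exact ⟨fun h => absurd h (key _ h6), fun h => absurd h (key _ h5)⟩
      · push Not at h5
        rw [ph_of_abs_ge hηj h5, add_sub_cancel])
    have e1 : kF a η c (insert j s) = fun t => kF a η c s (a j + ph (η j) c (t - a j)) :=
      funext fun t => kF_insert hj hη0 hs t
    have e2 : (((insert j s).image a : Finset ℝ) : Set ℝ) =
        {a j} ∪ ((s.image a : Finset ℝ) : Set ℝ) := by
      rw [Finset.image_insert, Finset.coe_insert, insert_eq]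
    rw [e1, e2]
    exact h3

end line

/-! ### the zone -/

namespace Slots

variable {n : ℕ} {J P : Type*} {S : Slots n J P}

/-- the slots of the coordinate `l` -/
def co (S : Slots n J P) (T : Finset J) (l : Fin n) : Finset J :=
  T.filter fun j => S.i j = l

theorem mem_co {T : Finset J} {l : Fin n} {j : J} : j ∈ S.co T l ↔ j ∈ T ∧ S.i j = l :=
  Finset.mem_filter

/-- the product map -/
noncomputable def kz (S : Slots n J P) (c : ℝ) (T : Finset J) (l : Fin n) : ℝ → ℝ :=
  kF S.a S.η c (S.co T l)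

open Classical in
/-- the levels of the coordinate `l` -/
noncomputable def Lz (S : Slots n J P) (T : Finset J) (l : Fin n) : Finset ℝ :=
  (S.co T l).image S.a

/-- **full thickness**: near the set `A` only the slots of `T` are active, and these have the full
thickness `c` there. -/
structure Full (S : Slots n J P) (c : ℝ) (T : Finset J) (A : Set (Fin n → ℝ)) : Prop where
  c0 : 0 < c
  half : ∀ j ∈ T, c ≤ S.η j / 2
  sep : ∀ j ∈ T, ∀ k ∈ T, j ≠ k → S.i j = S.i k → S.η j + S.η k ≤ |S.a j - S.a k|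
  coh : ∀ j ∈ T, ∀ k ∈ T, S.i j = S.i k → S.p j = S.p k
  le : ∀ j ∈ T, ∀ y, S.μ j y ≤ c
  on : ∀ z ∈ A, ∀ j ∈ T, |z (S.i j) - S.a j| < S.η j → ∀ y, ‖y - z‖ ≤ c → S.μ j y = c
  off : ∀ z ∈ A, ∀ j, j ∉ T → ∀ y, ‖y - z‖ ≤ c → ¬ S.Act j y

namespace Full

variable {c : ℝ} {T : Finset J} {A : Set (Fin n → ℝ)}

theorem mono (H : S.Full c T A) {A' : Set (Fin n → ℝ)} (h : A' ⊆ A) : S.Full c T A' :=
  ⟨H.c0, H.half, H.sep, H.coh, H.le, fun z hz => H.on z (h hz), fun z hz => H.off z (h hz)⟩

theorem sepc (H : S.Full c T A) (l : Fin n) : Sep S.a S.η (S.co T l) := fun j hj k hk hjk =>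
  H.sep j (mem_co.1 hj).1 k (mem_co.1 hk).1 hjk ((mem_co.1 hj).2.trans (mem_co.1 hk).2.symm)

theorem ins1 (H : S.Full c T A) (l : Fin n) :
    Ins1 (S.kz c T l) (S.Lz T l : Set ℝ) (fun t => t - c) (fun t => t + c) := by
  classical
  have h := ins1_kF H.c0 (fun j hj => H.half j (mem_co.1 hj).1) (H.sepc l)
  unfold Lz kz
  convert h

theorem loc (H : S.Full c T A) {z : Fin n → ℝ} (hz : z ∈ A) : S.Loc (T : Set J) c z where
  off := fun j hj => H.off z hz j hj
  le := fun j hj => H.le j hj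
  coh := fun j hj k hk => H.coh j hj k hk

theorem abs_kz_sub_le (H : S.Full c T A) (l : Fin n) (t : ℝ) : |S.kz c T l t - t| ≤ c :=
  abs_kF_sub_le (fun j _ => S.pos j) (H.sepc l) H.c0.le t

theorem kz_id {l : Fin n} (h : ∀ k ∈ T, S.i k ≠ l) (t : ℝ) : S.kz c T l t = t :=
  kF_off (fun j _ => S.pos j) fun j hj => absurd (mem_co.1 hj).2 (h j (mem_co.1 hj).1)

/-- the main step -/
theorem ki_eq (H : S.Full c T A) (hS : S.Dis) {z w : Fin n → ℝ} (hz : z ∈ A) (hw : ‖w - z‖ ≤ c)
    {β : P} {l : Fin n} (hβ : ∀ k ∈ T, S.i k = l → S.p k = β)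
    (h : z l = S.ki β w l ∨ z l = S.kz c T l (w l)) : S.ki β w l = S.kz c T l (w l) := by
  have hη : ∀ j ∈ S.co T l, 0 < S.η j := fun j _ => S.pos j
  have hsep := H.sepc l
  -- the slot which contains the point
  have key : ∀ j ∈ S.co T l, |w l - S.a j| < S.η j → |z l - S.a j| < S.η j →
      S.Act j w ∧ S.ki β w l = S.kz c T l (w l) := by
    intro j hj h1 h2
    obtain ⟨hjT, hjl⟩ := mem_co.1 hj
    have hjβ := hβ j hjT hjl
    subst hjl
    subst hjβ
    have h3 : S.μ j w = c := H.on z hz j hjT h2 w hw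
    have h4 : S.Act j w := ⟨h1, by rw [h3]; exact H.c0.ne'⟩
    refine ⟨h4, ?_⟩
    rw [hS.ki_act h4, kp_self, h3]
    exact (kF_of_mem hη hsep hj h1.le).symm
  rcases h with h | h
  · rcases hS.ki_cases β w with ⟨j, hj, hact, h1⟩ | ⟨h1, h2⟩
    · have hjT : j ∈ T := by
        by_contra h2
        exact H.off z hz j h2 w hw hact
      by_cases hjl : S.i j = l
      · subst hjl
        refine (key j (mem_co.2 ⟨hjT, rfl⟩) hact.1 ?_).2
        rw [h, h1, abs_kp_lt_iff]
        exact hact.1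
      · have h3 : S.ki β w l = w l := by rw [h1, S.kp_ne (Ne.symm hjl)]
        rcases kF_cases (c := c) hη hsep (w l) with ⟨k, hk, h4, -⟩ | ⟨-, h4⟩
        · exact (key k hk h4 (by rw [h, h3]; exact h4)).2
        · rw [h3]; exact h4.symm
    · rcases kF_cases (c := c) hη hsep (w l) with ⟨j, hj, h3, -⟩ | ⟨-, h4⟩
      · refine (key j hj h3 ?_).2
        rw [h, h2]; exact h3
      · rw [h2]; exact h4.symm
  · rcases kF_cases (c := c) hη hsep (w l) with ⟨j, hj, h3, -⟩ | ⟨h3, h4⟩
    · refine (key j hj h3 ?_).2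
      rw [h]
      exact (abs_kF_lt_iff hη hsep hj (w l)).2 h3
    · rcases hS.ki_cases β w with ⟨j, hj, hact, h1⟩ | ⟨-, h2⟩
      · have hjT : j ∈ T := by
          by_contra h2
          exact H.off z hz j h2 w hw hact
        by_cases hjl : S.i j = l
        · exfalso
          have := h3 j (mem_co.2 ⟨hjT, hjl⟩)
          rw [← hjl] at this
          exact absurd hact.1 (not_lt.2 this)
        · rw [h1, S.kp_ne (Ne.symm hjl)]; exact h4.symm
      · rw [h2]; exact h4.symm

/-- **(z1)** -/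
theorem kL_of_kz (H : S.Full c T A) (hS : S.Dis) {o : List P} (ho : o.Nodup)
    (hall : ∀ j ∈ T, S.p j ∈ o) {y : Fin n → ℝ} (hy : prodK (S.kz c T) y ∈ A) :
    S.kL o y = prodK (S.kz c T) y := by
  set z := prodK (S.kz c T) y with hz
  have hzl : ∀ l, z l = S.kz c T l (y l) := fun l => rfl
  have key : ∀ (o : List P), o.Nodup → ∀ w : Fin n → ℝ,
      (∀ l, (∃ k ∈ T, S.i k = l ∧ S.p k ∈ o) → w l = y l) →
      (∀ l, (∀ k ∈ T, S.i k = l → S.p k ∉ o) → w l = z l) → S.kL o w = z := by
    intro o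
    induction o with
    | nil =>
      intro _ w _ hw
      exact funext fun m => hw m fun _ _ _ => List.not_mem_nil
    | cons β o ih =>
      intro ho w h1 h2
      obtain ⟨hlo, ho'⟩ := List.nodup_cons.1 ho
      rw [kL_cons]
      have hcase : ∀ m, w m = y m ∨ w m = z m := by
        intro m
        by_cases hm : ∃ k ∈ T, S.i k = m ∧ S.p k ∈ β :: o
        · exact Or.inl (h1 m hm)
        · push Not at hm
          exact Or.inr (h2 m hm)
      have hwz : ‖w - z‖ ≤ c := by
        refine (pi_norm_le_iff_of_nonneg H.c0.le).2 fun m => ?_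
        rw [Pi.sub_apply, Real.norm_eq_abs]
        rcases hcase m with h | h
        · rw [h, hzl, abs_sub_comm]
          exact H.abs_kz_sub_le m _
        · rw [h, sub_self, abs_zero]; exact H.c0.le
      have hne : ∀ l, (∀ k ∈ T, S.i k = l → S.p k ≠ β) → S.ki β w l = w l := by
        intro l hl
        refine hS.ki_ne fun j hj hact hjl => ?_
        have hjT : j ∈ T := by
          by_contra h
          exact H.off z hy j h w hwz hact
        exact hl j hjT hjl hj
      refine ih ho' _ (fun l hl => ?_) fun l hl => ?_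
      · obtain ⟨k, hk, hkl, hko⟩ := hl
        rw [hne l fun k' hk' hk'l e => hlo (by
          rw [← e, H.coh k' hk' k hk (hk'l.trans hkl.symm)]; exact hko)]
        exact h1 l ⟨k, hk, hkl, List.mem_cons_of_mem _ hko⟩
      · by_cases hl2 : ∃ k ∈ T, S.i k = l ∧ S.p k = β
        · obtain ⟨k, hk, hkl, hkβ⟩ := hl2
          have hwl : w l = y l := h1 l ⟨k, hk, hkl, by rw [hkβ]; exact List.mem_cons_self⟩
          rw [H.ki_eq hS hy hwz (fun k' hk' hk'l => by
            rw [← hkβ]; exact H.coh k' hk' k hk (hk'l.trans hkl.symm))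
            (Or.inr (by rw [hwl, hzl])), hzl, hwl]
        · push Not at hl2
          rw [hne l hl2]
          exact h2 l fun k hk hkl hko => by
            rcases List.mem_cons.1 hko with h | h
            · exact hl2 k hk hkl h
            · exact hl k hk hkl h
  refine key o ho y (fun _ _ => rfl) fun l hl => ?_
  rw [hzl, kz_id fun k hk hkl => hl k hk hkl (hall k hk)]

/-- **(z2)** -/
theorem kL_eq_kz (H : S.Full c T A) (hS : S.Dis) {o : List P} (ho : o.Nodup)
    (hall : ∀ j ∈ T, S.p j ∈ o) {y : Fin n → ℝ} (hy : S.kL o y ∈ A) :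
    S.kL o y = prodK (S.kz c T) y := by
  set z := S.kL o y with hz
  have hloc := H.loc hy
  have key : ∀ (o : List P), o.Nodup → ∀ w : Fin n → ℝ, S.kL o w = z →
      ∀ l, (∀ k ∈ T, S.i k = l → S.p k ∈ o) → z l = S.kz c T l (w l) := by
    intro o
    induction o with
    | nil =>
      intro _ w h1 l hl
      rw [kz_id fun k hk hkl => List.not_mem_nil (hl k hk hkl), ← h1, kL_nil]
    | cons β o ih =>
      intro ho w h1 l hl
      obtain ⟨hlo, ho'⟩ := List.nodup_cons.1 ho
      have hwz : ‖w - z‖ ≤ c := hS.kL_near ho H.c0.le hloc h1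
      rw [kL_cons] at h1
      obtain ⟨-, h3⟩ := hS.kL_near' ho' H.c0.le hloc h1
      by_cases hl2 : ∃ k ∈ T, S.i k = l ∧ S.p k = β
      · obtain ⟨k, hk, hkl, hkβ⟩ := hl2
        have hall' : ∀ k' ∈ T, S.i k' = l → S.p k' = β := fun k' hk' hk'l => by
          rw [← hkβ]; exact H.coh k' hk' k hk (hk'l.trans hkl.symm)
        have h4 : S.ki β w l = z l := h3 l fun k' hk' hk'l hko => hlo (by
          rw [← hall' k' hk' hk'l]; exact hko)
        rw [← h4]
        exact H.ki_eq hS hy hwz hall' (Or.inl h4.symm)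
      · push Not at hl2
        have h4 := ih ho' _ h1 l fun k hk hkl =>
          (List.mem_cons.1 (hl k hk hkl)).resolve_left (hl2 k hk hkl)
        have h5 : S.ki β w l = w l := by
          refine hS.ki_ne fun j hj hact hjl => ?_
          have hjT : j ∈ T := by
            by_contra h
            exact H.off z hy j h w hwz hact
          exact hl2 j hjT hjl hj
        rwa [h5] at h4
  exact funext fun l => key o ho y rfl l fun k hk _ => hall k hk

end Full

/-- **[KAPALL], the zone**: near the image of `C` all slots are inactive or have full constant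
thickness; then 579's `Zone` holds. -/
theorem Full.zone {S : Slots 3 J P} {Λ : Set V} {K : J → Set V} (H : LF S Λ K) {Ω C : Set V}
    (h : ConHomeo Ω Λ) (hC : C ⊆ Ω) {c : ℝ} {T : Finset J} (F : S.Full c T (h.toFun '' C))
    {o : List P} (ho : o.Nodup) (hall : ∀ j ∈ T, S.p j ∈ o) :
    Zone (S.kL o) Λ h (S.kz c T) C where
  z1 := fun y hy => by
    have h1 := F.kL_of_kz H.dis ho hall hy
    refine ⟨(H.mem_Λ (o := o)).1 ?_, h1⟩
    rw [h1]
    obtain ⟨x, hx, hxy⟩ := hy
    rw [← hxy]
    exact h.mapsTo (hC hx)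
  z2 := fun y _ hy => F.kL_eq_kz H.dis ho hall hy

/-! ### change of the thickness -/

/-- the same slots with another thickness -/
def mod (S : Slots n J P) (μ' : J → (Fin n → ℝ) → ℝ) (h : ∀ j, Thk (S.i j) (S.η j) (μ' j)) :
    Slots n J P where
  i := S.i
  a := S.a
  η := S.η
  μ := μ'
  p := S.p
  pos := S.pos
  thk := h

/-- the two maps have the same fibres over the points of `A` -/
def Agree (f g : (Fin n → ℝ) → Fin n → ℝ) (A : Set (Fin n → ℝ)) : Prop :=
  ∀ z ∈ A, ∀ y, f y = z ↔ g y = z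

theorem kL_eq_of_mod (hS : S.Dis) {μ' : J → (Fin n → ℝ) → ℝ}
    {h' : ∀ j, Thk (S.i j) (S.η j) (μ' j)} (hS' : (S.mod μ' h').Dis) {o : List P}
    (ho : o.Nodup) {c : ℝ} (hc : 0 ≤ c) {T : Set J} {z : Fin n → ℝ} (hz : S.Loc T c z)
    (hz' : (S.mod μ' h').Loc T c z)
    (hμ : ∀ j ∈ T, |z (S.i j) - S.a j| < S.η j → ∀ y, ‖y - z‖ ≤ c → S.μ j y = μ' j y)
    {w : Fin n → ℝ} (hw : S.kL o w = z) : (S.mod μ' h').kL o w = z := by
  induction o generalizing w with
  | nil => exact hw
  | cons β o ih =>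
    obtain ⟨hlo, ho'⟩ := List.nodup_cons.1 ho
    have hwz : ‖w - z‖ ≤ c := hS.kL_near ho hc hz hw
    rw [kL_cons] at hw ⊢
    have h1 := ih ho' hw
    obtain ⟨hwz', h3⟩ := hS.kL_near' ho' hc hz hw
    have h4 : (S.mod μ' h').ki β w = S.ki β w := by
      rcases hS.ki_cases β w with ⟨j, hj, hact, h5⟩ | ⟨h5, h6⟩
      · have hjT : j ∈ T := by
          by_contra h
          exact hz.off j h w hwz hact
        have h7 : S.ki β w (S.i j) = z (S.i j) := h3 _ fun k hk hki hko => hlo (by
          rw [← hj, hz.coh j hjT k hk hki.symm]; exact hko)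
        have h8 : |z (S.i j) - S.a j| < S.η j := by
          rw [← h7, h5, abs_kp_lt_iff]; exact hact.1
        have h9 : S.μ j w = μ' j w := hμ j hjT h8 w hwz
        have h10 : (S.mod μ' h').Act j w := ⟨hact.1, by
          show μ' j w ≠ 0
          rw [← h9]; exact hact.2⟩
        have h11 : (S.mod μ' h').kp j w = S.kp j w := by
          show Function.update w (S.i j) (S.a j + ph (S.η j) (μ' j w) (w (S.i j) - S.a j)) =
            Function.update w (S.i j) (S.a j + ph (S.η j) (S.μ j w) (w (S.i j) - S.a j))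
          rw [h9]
        have h12 := hS'.ki_act h10
        have h13 : (S.mod μ' h').p j = β := hj
        rw [h13] at h12
        rw [h12, h11, h5]
      · rw [h6]
        refine ki_off _ fun j hj hact => ?_
        have hjT : j ∈ T := by
          by_contra h
          exact hz'.off j h w hwz hact
        have h7 : w (S.i j) = z (S.i j) := by
          rw [← h6]
          exact h3 _ fun k hk hki hko => hlo (by
            have hjβ : S.p j = β := hj
            rw [← hjβ, hz.coh j hjT k hk hki.symm]; exact hko)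
        have hact1 : |w (S.i j) - S.a j| < S.η j := hact.1
        have h9 : S.μ j w = μ' j w := hμ j hjT (by rw [← h7]; exact hact1) w hwz
        exact h5 j hj ⟨hact1, by rw [h9]; exact hact.2⟩
    rw [h4]; exact h1

/-- **[AGREE]**: near the points of `A` the two thicknesses are equal -/
theorem agree_mod (hS : S.Dis) {μ' : J → (Fin n → ℝ) → ℝ}
    {h' : ∀ j, Thk (S.i j) (S.η j) (μ' j)} (hS' : (S.mod μ' h').Dis) {o : List P}
    (ho : o.Nodup) {A : Set (Fin n → ℝ)}
    (hA : ∀ z ∈ A, ∃ (c : ℝ) (T : Set J), 0 ≤ c ∧ S.Loc T c z ∧ (S.mod μ' h').Loc T c z ∧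
      ∀ j ∈ T, |z (S.i j) - S.a j| < S.η j → ∀ y, ‖y - z‖ ≤ c → S.μ j y = μ' j y) :
    Agree (S.kL o) ((S.mod μ' h').kL o) A := by
  intro z hz y
  obtain ⟨c, T, hc, h1, h2, h3⟩ := hA z hz
  constructor
  · intro h
    exact kL_eq_of_mod hS hS' ho hc h1 h2 h3 h
  · intro h
    exact kL_eq_of_mod (S := S.mod μ' h') (μ' := S.μ) (h' := S.thk) hS' hS ho hc h2 h1
      (fun j hj h4 y hy => (h3 j hj h4 y hy).symm) h

theorem Agree.eq {f g : (Fin n → ℝ) → Fin n → ℝ} {A : Set (Fin n → ℝ)} (H : Agree f g A)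
    {y : Fin n → ℝ} (hy : f y ∈ A) : g y = f y := (H _ hy y).1 rfl

theorem Agree.symm {f g : (Fin n → ℝ) → Fin n → ℝ} {A : Set (Fin n → ℝ)} (H : Agree f g A) :
    Agree g f A := fun z hz y => (H z hz y).symm

theorem Agree.mem_iff {f g : (Fin n → ℝ) → Fin n → ℝ} {A B : Set (Fin n → ℝ)}
    (H : Agree f g A) (hB : B ⊆ A) {y : Fin n → ℝ} : f y ∈ B ↔ g y ∈ B :=
  ⟨fun h => by rw [H.eq (hB h)]; exact h, fun h => by rw [H.symm.eq (hB h)]; exact h⟩

theorem Agree.pre_eq {f g : V → V} {E : Type*} [NormedAddCommGroup E] [NormedSpace ℝ E]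
    {Ω X : Set E} {Λ Λ' : Set V} {h : ConHomeo Ω Λ} (H : Agree f g (h.toFun '' X)) :
    Pre f Λ' h X = Pre g Λ' h X := by
  ext y
  exact and_congr_right fun _ => H.mem_iff Subset.rfl

theorem Agree.zone {f g : V → V} {Ω C : Set V} {Λ Λ' : Set V} {h : ConHomeo Ω Λ}
    {k : Fin 3 → ℝ → ℝ} (H : Agree f g (h.toFun '' C)) (Z : Zone f Λ' h k C) :
    Zone g Λ' h k C where
  z1 := fun y hy => by
    obtain ⟨h1, h2⟩ := Z.z1 y hy
    exact ⟨h1, by rw [H.eq (by rw [h2]; exact hy), h2]⟩
  z2 := fun y hy1 hy2 => by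
    have h1 := H.symm.eq hy2
    rw [← h1]
    exact Z.z2 y hy1 (by rw [h1]; exact hy2)

end Slots

/-! ### band invariance -/

open P073.H936.K3 P073.H880 in
/-- **the drawn faces are band invariant**, for bands inside of the flats -/
theorem bandInv_of_zone {Ω Λ Λ' : Set V} {κ : V → V} {h : ConHomeo Ω Λ} {k : Fin 3 → ℝ → ℝ}
    {C : Set V} (Z : Zone κ Λ' h k C) {L : Fin 3 → Set ℝ} {lo hi : Fin 3 → ℝ → ℝ}
    (hI : ∀ j, Ins1 (k j) (L j) (lo j) (hi j)) {g : ConHomeo Ω Λ'} {M U : Set V} (hMC : M ⊆ C)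
    (hCΩ : C ⊆ Ω) (hU : U ⊆ Ω) (hg : g.toFun '' M = Pre κ Λ' h M) {ι : Type*} {side : ι → Bool}
    {ax : Bool → Fin 3} {c w : ι → ℝ}
    (hc : ∀ i, c i ∈ L (ax (side i)) ∧ lo (ax (side i)) (c i) ≤ c i - w i ∧
      c i + w i ≤ hi (ax (side i)) (c i)) :
    BandInv side ax c w U g.toFun M := by
  intro i x hx x' hx' h1 h2 h3 hxM
  obtain ⟨hL, hlo, hhi⟩ := hc i
  have hflat : ∀ t, |t - c i| ≤ w i → k (ax (side i)) t = c i := by
    intro t ht
    obtain ⟨a1, a2⟩ := abs_le.1 ht
    exact ((hI _).flat _ hL t).2 ⟨by linarith, by linarith⟩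
  have h4 : g.toFun x ∈ Pre κ Λ' h M := by rw [← hg]; exact mem_image_of_mem _ hxM
  have h5 : κ (g.toFun x) = prodK k (g.toFun x) := Z.eq hMC h4
  have h6 : prodK k (g.toFun x') = prodK k (g.toFun x) := by
    ext l
    by_cases hl : l = ax (side i)
    · subst hl
      show k _ (g.toFun x' _) = k _ (g.toFun x _)
      rw [hflat _ h1, hflat _ h2]
    · show k l (g.toFun x' l) = k l (g.toFun x l)
      rw [h3 l hl]
  have h7 : prodK k (g.toFun x') ∈ h.toFun '' M := by
    rw [h6, ← h5]; exact h4.2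
  obtain ⟨h8, h9⟩ := Z.z1 _ (image_mono hMC h7)
  have h10 : g.toFun x' ∈ g.toFun '' M := by
    rw [hg]
    refine ⟨h8, ?_⟩
    show κ (g.toFun x') ∈ h.toFun '' M
    rw [h9]; exact h7
  obtain ⟨x'', hx'', he⟩ := h10
  rwa [← g.injOn (hCΩ (hMC hx'')) (hU hx') he]

end P073.H919
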