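import Vale.Agent.P073.H345.QT

/-!
# P073, block H919: [KAPALL], the insertion map of a locally finite family of slots

A slot is a level `y (i j) = a j` with a band of variable thickness `μ j` (H345 `kap`) and a phase
`p j`.  The map `ki β` applies all slots of the phase `β` at once, and `kL o` applies the phases of
the list `o` one after the other.
-/

open Set Metric Topology Filter

set_option linter.unusedSectionVars false

namespace P073.H919

open P073 P073.H345 P073.H236

/-! ### the one-dimensional map -/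

theorem ph_mono {η m : ℝ} : Monotone (ph η m) := by
  intro r s h
  unfold ph
  have h1 : min (max r 0) (max 0 (max (r - m) (2 * r - η))) ≤
      min (max s 0) (max 0 (max (s - m) (2 * s - η))) :=
    min_le_min (max_le_max h le_rfl)
      (max_le_max le_rfl (max_le_max (by linarith) (by linarith)))
  have h2 : min (max (-s) 0) (max 0 (max (-s - m) (2 * (-s) - η))) ≤
      min (max (-r) 0) (max 0 (max (-r - m) (2 * (-r) - η))) :=
    min_le_min (max_le_max (by linarith) le_rfl)
      (max_le_max le_rfl (max_le_max (by linarith) (by linarith)))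
  linarith

theorem abs_ph_sub_le {η m r : ℝ} (h0 : 0 ≤ m) : |ph η m r - r| ≤ m := by
  have key : ∀ r, 0 ≤ r → |ph η m r - r| ≤ m := by
    intro r hr
    have h1 := ph_le (η := η) (m := m) hr
    have h2 : r - m ≤ ph η m r := by
      rw [ph_of_nonneg hr]
      exact le_min (by linarith) ((le_max_left _ _).trans (le_max_right _ _))
    rw [abs_le]
    constructor <;> linarith
  rcases le_total 0 r with h | h
  · exact key r h
  · have := key (-r) (by linarith)
    rw [ph_neg] at this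
    rw [abs_le] at this ⊢
    constructor <;> linarith [this.1, this.2]

theorem abs_ph_lt_iff {η m r : ℝ} (hη : 0 < η) : |ph η m r| < η ↔ |r| < η := by
  constructor
  · intro h
    by_contra h1
    push Not at h1
    rw [ph_of_abs_ge hη h1] at h
    linarith
  · intro h
    exact abs_ph_le.trans_lt h

theorem ph_inj_off {η m r s : ℝ} (hη : 0 < η) (h0 : 0 ≤ m) (hm : m ≤ η / 2)
    (h : ph η m r = ph η m s) (hne : ph η m r ≠ 0) : r = s := by
  by_cases h1 : |r| < η
  · have h2 : |s| < η := (abs_ph_lt_iff hη).1 (h ▸ (abs_ph_lt_iff hη).2 h1)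
    have key : ∀ r, |r| < η → 0 < ph η m r → min (ph η m r + m) ((ph η m r + η) / 2) = r := by
      intro r hr hp
      have h3 : m < r := by
        by_contra h4
        push Not at h4
        rcases le_total (-m) r with h5 | h5
        · rw [(ph_zero_iff h0 hm).2 (abs_le.2 ⟨h5, h4⟩)] at hp
          exact lt_irrefl _ hp
        · have := ph_nonneg (η := η) (m := m) (r := -r) (by linarith)
          rw [ph_neg] at this
          linarith
      exact branch_ph h0 hm h3 (abs_lt.1 hr).2.le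
    rcases lt_or_gt_of_ne hne with h3 | h3
    · have e1 := key (-r) (by rwa [abs_neg]) (by rw [ph_neg]; linarith)
      have e2 := key (-s) (by rwa [abs_neg]) (by rw [ph_neg]; linarith)
      rw [ph_neg] at e1 e2
      rw [← h] at e2
      linarith
    · have e1 := key r h1 h3
      have e2 := key s h2 (h ▸ h3)
      rw [← h] at e2
      linarith
  · push Not at h1
    have h2 : η ≤ |s| := by
      by_contra h3
      push Not at h3
      have := (abs_ph_lt_iff (m := m) hη).2 h3
      rw [← h, ph_of_abs_ge hη h1] at this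
      linarith
    rw [ph_of_abs_ge hη h1, ph_of_abs_ge hη h2] at h
    exact h

theorem exists_ph_eq {η m : ℝ} (hη : 0 < η) (h0 : 0 ≤ m) (t : ℝ) : ∃ r, ph η m r = t := by
  have key : ∀ t, 0 ≤ t → ∃ r, ph η m r = t := by
    intro t ht
    rcases ht.eq_or_lt with h | h
    · exact ⟨0, by rw [← h, ph_of_nonneg le_rfl]; exact min_eq_left (le_max_left _ _)⟩
    rcases le_total t η with h1 | h1
    · exact ⟨_, ph_branch h0 h h1⟩
    · exact ⟨t, ph_of_ge hη h1⟩
  rcases le_total 0 t with h | h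
  · exact key t h
  · obtain ⟨r, hr⟩ := key (-t) (by linarith)
    exact ⟨-r, by rw [ph_neg, hr, neg_neg]⟩

/-! ### families of slots -/

/-- a family of slots: slot `j` inserts a band of thickness `μ j` at the level `a j` of the
coordinate `i j`; `p j` is its phase (the order of the composition) -/
structure Slots (n : ℕ) (J P : Type*) where
  i : J → Fin n
  a : J → ℝ
  η : J → ℝ
  μ : J → (Fin n → ℝ) → ℝ
  p : J → P
  pos : ∀ j, 0 < η j
  thk : ∀ j, Thk (i j) (η j) (μ j)

namespace Slots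

variable {n : ℕ} {J P : Type*} (S : Slots n J P)

/-- the slot `j` is active at `y` -/
def Act (j : J) (y : Fin n → ℝ) : Prop := |y (S.i j) - S.a j| < S.η j ∧ S.μ j y ≠ 0

/-- the map of one slot -/
noncomputable def kp (j : J) : (Fin n → ℝ) → Fin n → ℝ := H345.kap (S.i j) (S.a j) (S.η j) (S.μ j)

theorem kp_off {j : J} {y : Fin n → ℝ} (h : ¬ S.Act j y) : S.kp j y = y := by
  unfold Act at h
  rw [not_and_or, not_lt, not_not] at h
  rcases h with h | h
  · exact kap_eq_self_of_far (S.pos j) h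
  · exact kap_eq_self_of_zero h

theorem kp_ne {j : J} {l : Fin n} (h : l ≠ S.i j) (y : Fin n → ℝ) : S.kp j y l = y l :=
  kap_ne h _ _ _ _

theorem kp_self (j : J) (y : Fin n → ℝ) :
    S.kp j y (S.i j) = S.a j + ph (S.η j) (S.μ j y) (y (S.i j) - S.a j) := kap_self _ _ _ _ _

theorem mu_kp (j : J) (y : Fin n → ℝ) : S.μ j (S.kp j y) = S.μ j y := mu_kap (S.thk j) y

theorem abs_kp_lt_iff (j : J) (y : Fin n → ℝ) :
    |S.kp j y (S.i j) - S.a j| < S.η j ↔ |y (S.i j) - S.a j| < S.η j := by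
  rw [kp_self, add_sub_cancel_left, abs_ph_lt_iff (S.pos j)]

theorem act_kp {j : J} {y : Fin n → ℝ} : S.Act j (S.kp j y) ↔ S.Act j y := by
  unfold Act
  rw [abs_kp_lt_iff, mu_kp]

theorem abs_kp_sub_le (j : J) (y : Fin n → ℝ) (l : Fin n) : |S.kp j y l - y l| ≤ S.μ j y := by
  by_cases h : l = S.i j
  · subst h
    rw [kp_self]
    have h1 : S.a j + ph (S.η j) (S.μ j y) (y (S.i j) - S.a j) - y (S.i j) =
      ph (S.η j) (S.μ j y) (y (S.i j) - S.a j) - (y (S.i j) - S.a j) := by ring
    rw [h1]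
    exact abs_ph_sub_le ((S.thk j).nonneg y)
  · rw [S.kp_ne h, sub_self, abs_zero]
    exact (S.thk j).nonneg y

theorem kp_cc (j : J) : CC (S.kp j) univ := by
  have hu : ConicalSet (univ : Set (Fin n → ℝ)) := isOpen_univ.conicalSet
  have hid : CC (fun y : Fin n → ℝ => y) univ := ⟨continuousOn_id, conicalOn_id hu⟩
  refine CC.pi hu fun l => ?_
  by_cases h : l = S.i j
  · subst h
    refine ((CC.const (S.a j) hu).add (CC.ph (η := S.η j) hu (S.thk j).cc
      ((hid.apply (S.i j)).sub (CC.const (S.a j) hu)))).congr fun y _ => ?_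
    exact S.kp_self j y
  · exact (hid.apply l).congr fun y _ => S.kp_ne h y

theorem continuous_kp (j : J) : Continuous (S.kp j) := continuousOn_univ.1 (S.kp_cc j).cont

/-- the map of a slot is onto -/
theorem exists_kp_eq (j : J) (w : Fin n → ℝ) : ∃ y, S.kp j y = w := by
  obtain ⟨r, hr⟩ := exists_ph_eq (S.pos j) ((S.thk j).nonneg w) (w (S.i j) - S.a j)
  refine ⟨Function.update w (S.i j) (S.a j + r), ?_⟩
  unfold kp H345.kap
  rw [(S.thk j).indep, Function.update_self, add_sub_cancel_left, hr, add_sub_cancel,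
    Function.update_idem, Function.update_eq_self]

/-- the fibres over points which are not on the level -/
theorem kp_inj_off {j : J} {y y' w : Fin n → ℝ} (hy : S.kp j y = w) (hy' : S.kp j y' = w)
    (hw : w (S.i j) ≠ S.a j) : y = y' := by
  have h1 : S.μ j y = S.μ j w := by rw [← hy, mu_kp]
  have h2 : S.μ j y' = S.μ j w := by rw [← hy', mu_kp]
  have e1 : ph (S.η j) (S.μ j w) (y (S.i j) - S.a j) = w (S.i j) - S.a j := by
    have := congrFun hy (S.i j)
    rw [kp_self, h1] at this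
    linarith
  have e2 : ph (S.η j) (S.μ j w) (y' (S.i j) - S.a j) = w (S.i j) - S.a j := by
    have := congrFun hy' (S.i j)
    rw [kp_self, h2] at this
    linarith
  have h3 := ph_inj_off (S.pos j) ((S.thk j).nonneg w) ((S.thk j).le w) (e1.trans e2.symm)
    (by rw [e1]; exact sub_ne_zero.2 hw)
  ext l
  by_cases hl : l = S.i j
  · subst hl; linarith
  · have e3 := congrFun hy l
    have e4 := congrFun hy' l
    rw [S.kp_ne hl] at e3 e4
    rw [e3, e4]

/-- the sets where the slots are active are open -/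
theorem isOpen_act (j : J) : IsOpen {y | S.Act j y} := by
  have h1 : Continuous (S.μ j) := continuousOn_univ.1 (S.thk j).cc.cont
  have h2 : {y | S.Act j y} = {y | |y (S.i j) - S.a j| < S.η j} ∩ {y | S.μ j y ≠ 0} := rfl
  rw [h2]
  exact (isOpen_lt (by fun_prop) continuous_const).inter (isOpen_ne_fun h1 continuous_const)

theorem supp_kp (j : J) : Supp (S.kp j) (closure {y | S.Act j y}) where
  cont := S.continuous_kp j
  con := (S.kp_cc j).con
  id := fun y hy => S.kp_off fun h => hy (subset_closure h)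
  maps := MapsTo.closure (fun _ hy => S.act_kp.2 hy) (S.continuous_kp j)
  surj := fun w hw => by
    by_cases h : S.Act j w
    · obtain ⟨y, hy⟩ := S.exists_kp_eq j w
      exact ⟨y, subset_closure (S.act_kp.1 (by rw [hy]; exact h)), hy⟩
    · exact ⟨w, hw, S.kp_off h⟩

/-- slots of the same phase are not active at the same time -/
def Dis : Prop := ∀ j k, j ≠ k → S.p j = S.p k → ∀ y, S.Act j y → ¬ S.Act k y

open Classical in
/-- all slots of the phase `β` -/
noncomputable def ki (β : P) (y : Fin n → ℝ) : Fin n → ℝ :=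
  if h : ∃ j, S.p j = β ∧ S.Act j y then S.kp h.choose y else y

theorem ki_off {β : P} {y : Fin n → ℝ} (h : ∀ j, S.p j = β → ¬ S.Act j y) : S.ki β y = y := by
  unfold ki
  rw [dif_neg]
  rintro ⟨j, h1, h2⟩
  exact h j h1 h2

variable {S}

theorem Dis.ki_act (hS : S.Dis) {j : J} {y : Fin n → ℝ} (h : S.Act j y) :
    S.ki (S.p j) y = S.kp j y := by
  have H : ∃ k, S.p k = S.p j ∧ S.Act k y := ⟨j, rfl, h⟩
  have h1 : H.choose = j := by
    by_contra h2
    exact hS _ _ h2 H.choose_spec.1 y H.choose_spec.2 h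
  unfold ki
  rw [dif_pos H, h1]

/-- the two cases -/
theorem Dis.ki_cases (hS : S.Dis) (β : P) (y : Fin n → ℝ) :
    (∃ j, S.p j = β ∧ S.Act j y ∧ S.ki β y = S.kp j y) ∨
      ((∀ j, S.p j = β → ¬ S.Act j y) ∧ S.ki β y = y) := by
  by_cases h : ∃ j, S.p j = β ∧ S.Act j y
  · obtain ⟨j, rfl, hj⟩ := h
    exact Or.inl ⟨j, rfl, hj, hS.ki_act hj⟩
  · push Not at h
    exact Or.inr ⟨h, S.ki_off h⟩

/-- a coordinate which is not moved -/
theorem Dis.ki_ne (hS : S.Dis) {β : P} {l : Fin n} {y : Fin n → ℝ}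
    (h : ∀ j, S.p j = β → S.Act j y → S.i j ≠ l) : S.ki β y l = y l := by
  rcases hS.ki_cases β y with ⟨j, h0, h1, h2⟩ | ⟨-, h1⟩
  · rw [h2, S.kp_ne (h j h0 h1).symm]
  · rw [h1]

/-- activity of the slots of the phase is preserved -/
theorem Dis.act_ki (hS : S.Dis) {j : J} {y : Fin n → ℝ} :
    S.Act j (S.ki (S.p j) y) ↔ S.Act j y := by
  constructor
  · intro h
    rcases hS.ki_cases (S.p j) y with ⟨k, h1, h2, h3⟩ | ⟨-, h3⟩
    · rw [h3] at h
      by_cases hjk : k = j
      · rwa [hjk] at h2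
      · exact absurd h (hS _ _ hjk h1 _ (S.act_kp.2 h2))
    · rwa [h3] at h
  · intro h
    rw [hS.ki_act h, act_kp]
    exact h

theorem Dis.ki_inj_off (hS : S.Dis) {β : P} {y y' w : Fin n → ℝ} (hy : S.ki β y = w)
    (hy' : S.ki β y' = w) (hw : ∀ j, S.p j = β → S.Act j w → w (S.i j) ≠ S.a j) : y = y' := by
  by_cases h : ∃ j, S.p j = β ∧ S.Act j w
  · obtain ⟨j, rfl, hj⟩ := h
    have h1 : S.Act j y := hS.act_ki.1 (by rw [hy]; exact hj)
    have h2 : S.Act j y' := hS.act_ki.1 (by rw [hy']; exact hj)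
    rw [hS.ki_act h1] at hy
    rw [hS.ki_act h2] at hy'
    exact S.kp_inj_off hy hy' (hw j rfl hj)
  · push Not at h
    have key : ∀ y, S.ki β y = w → y = w := by
      intro y hy
      rcases hS.ki_cases β y with ⟨j, h1, h2, h3⟩ | ⟨-, h3⟩
      · exfalso
        apply h j h1
        rw [← hy, h3, act_kp]
        exact h2
      · rw [← hy, h3]
    rw [key y hy, key y' hy']

variable (S)

/-- all slots: the phases of the list one after the other, the head first -/
noncomputable def kL : List P → (Fin n → ℝ) → Fin n → ℝ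
  | [], y => y
  | β :: o, y => kL o (S.ki β y)

@[simp] theorem kL_nil (y : Fin n → ℝ) : S.kL [] y = y := rfl

@[simp] theorem kL_cons (β : P) (o : List P) (y : Fin n → ℝ) :
    S.kL (β :: o) y = S.kL o (S.ki β y) := rfl

variable {S}

/-- no active slot -/
theorem kL_off {o : List P} {y : Fin n → ℝ} (h : ∀ j, S.p j ∈ o → ¬ S.Act j y) :
    S.kL o y = y := by
  induction o with
  | nil => rfl
  | cons β o ih =>
    rw [kL_cons, S.ki_off fun j hj => h j (by rw [hj]; exact List.mem_cons_self)]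
    exact ih fun j hj => h j (List.mem_cons_of_mem _ hj)

/-- only one slot is active -/
theorem Dis.kL_one (hS : S.Dis) {o : List P} (ho : o.Nodup) {j : J} {y : Fin n → ℝ}
    (hj : S.p j ∈ o)
    (h : ∀ k, k ≠ j → S.p k ∈ o → ¬ S.Act k y ∧ ¬ S.Act k (S.kp j y)) :
    S.kL o y = S.kp j y := by
  induction o with
  | nil => exact absurd hj List.not_mem_nil
  | cons β o ih =>
    obtain ⟨hlo, ho'⟩ := List.nodup_cons.1 ho
    rw [kL_cons]
    by_cases hl : S.p j = β
    · subst hl
      have h1 : S.ki (S.p j) y = S.kp j y := by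
        by_cases h2 : S.Act j y
        · exact hS.ki_act h2
        · rw [S.kp_off h2]
          refine S.ki_off fun k hk => ?_
          by_cases hkj : k = j
          · rw [hkj]; exact h2
          · exact (h k hkj (by rw [hk]; exact List.mem_cons_self)).1
      rw [h1]
      refine kL_off fun k hk => ?_
      have hkj : k ≠ j := fun e => hlo (e ▸ hk)
      exact (h k hkj (List.mem_cons_of_mem _ hk)).2
    · have h1 : S.ki β y = y := by
        refine S.ki_off fun k hk => ?_
        have hkj : k ≠ j := fun e => hl (e ▸ hk)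
        exact (h k hkj (by rw [hk]; exact List.mem_cons_self)).1
      rw [h1]
      exact ih ho' ((List.mem_cons.1 hj).resolve_left hl) fun k hk hko =>
        h k hk (List.mem_cons_of_mem _ hko)

/-- a set which is invariant under the active slots -/
theorem Dis.kL_mem_iff (hS : S.Dis) {o : List P} {A : Set (Fin n → ℝ)}
    (hA : ∀ j y, S.p j ∈ o → S.Act j y → (S.kp j y ∈ A ↔ y ∈ A)) (y : Fin n → ℝ) :
    S.kL o y ∈ A ↔ y ∈ A := by
  induction o generalizing y with
  | nil => rfl
  | cons β o ih =>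
    rw [kL_cons, ih fun j y hj => hA j y (List.mem_cons_of_mem _ hj)]
    rcases hS.ki_cases β y with ⟨j, rfl, h2, h3⟩ | ⟨-, h3⟩
    · rw [h3]; exact hA j y List.mem_cons_self h2
    · rw [h3]

/-! ### fibres -/

/-- near `z` only the slots of `T` are active, they have thickness at most `c`, and every coordinate
is moved in one phase only -/
structure Loc (S : Slots n J P) (T : Set J) (c : ℝ) (z : Fin n → ℝ) : Prop where
  off : ∀ j, j ∉ T → ∀ w, ‖w - z‖ ≤ c → ¬ S.Act j w
  le : ∀ j ∈ T, ∀ w, S.μ j w ≤ c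
  coh : ∀ j ∈ T, ∀ k ∈ T, S.i j = S.i k → S.p j = S.p k

/-- the points of the fibre are near -/
theorem Dis.kL_near' (hS : S.Dis) {o : List P} (ho : o.Nodup) {c : ℝ} (hc : 0 ≤ c) {T : Set J}
    {y z : Fin n → ℝ} (hz : S.Loc T c z) (hy : S.kL o y = z) :
    ‖y - z‖ ≤ c ∧ ∀ l, (∀ k ∈ T, S.i k = l → S.p k ∉ o) → y l = z l := by
  induction o generalizing y with
  | nil =>
    rw [kL_nil] at hy
    subst hy
    rw [sub_self, norm_zero]
    exact ⟨hc, fun _ _ => rfl⟩
  | cons β o ih =>
    obtain ⟨hlo, ho'⟩ := List.nodup_cons.1 ho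
    rw [kL_cons] at hy
    obtain ⟨h1, h2⟩ := ih ho' hy
    rcases hS.ki_cases β y with ⟨j, h3, h4, h5⟩ | ⟨-, h5⟩
    · have h6 : S.Act j (S.ki β y) := by rw [h5, act_kp]; exact h4
      have hjT : j ∈ T := by
        by_contra h
        exact hz.off j h _ h1 h6
      have h7 : S.ki β y (S.i j) = z (S.i j) := h2 _ fun k hk hki hko =>
        hlo (by rw [← h3, hz.coh j hjT k hk hki.symm]; exact hko)
      have h8 : ∀ m, m ≠ S.i j → S.ki β y m = y m := fun m hm => by rw [h5, S.kp_ne hm]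
      refine ⟨(pi_norm_le_iff_of_nonneg hc).2 fun m => ?_, fun l hl => ?_⟩
      · rw [Pi.sub_apply, Real.norm_eq_abs]
        by_cases hm : m = S.i j
        · rw [hm, ← h7, h5, abs_sub_comm]
          exact (S.abs_kp_sub_le j y (S.i j)).trans (hz.le j hjT y)
        · have h9 := (pi_norm_le_iff_of_nonneg hc).1 h1 m
          rw [Pi.sub_apply, Real.norm_eq_abs, h8 m hm] at h9
          exact h9
      · have hlj : l ≠ S.i j := fun e =>
          hl j hjT e.symm (by rw [h3]; exact List.mem_cons_self)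
        rw [← h8 l hlj]
        exact h2 l fun k hk hki hko => hl k hk hki (List.mem_cons_of_mem _ hko)
    · rw [h5] at h1 h2
      exact ⟨h1, fun l hl => h2 l fun k hk hki hko => hl k hk hki (List.mem_cons_of_mem _ hko)⟩

theorem Dis.kL_near (hS : S.Dis) {o : List P} (ho : o.Nodup) {c : ℝ} (hc : 0 ≤ c) {T : Set J}
    {y z : Fin n → ℝ} (hz : S.Loc T c z) (hy : S.kL o y = z) : ‖y - z‖ ≤ c :=
  (hS.kL_near' ho hc hz hy).1

/-- the fibre over a point without active slots is trivial -/
theorem Dis.kL_fib_off (hS : S.Dis) {o : List P} {y z : Fin n → ℝ}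
    (hz : ∀ j, S.p j ∈ o → ¬ S.Act j z) (hy : S.kL o y = z) : y = z := by
  induction o generalizing y with
  | nil => exact hy
  | cons β o ih =>
    rw [kL_cons] at hy
    have h1 := ih (fun j hj => hz j (List.mem_cons_of_mem _ hj)) hy
    rcases hS.ki_cases β y with ⟨j, h3, h4, h5⟩ | ⟨-, h5⟩
    · exfalso
      apply hz j (by rw [h3]; exact List.mem_cons_self)
      rw [← h1, h5, act_kp]
      exact h4
    · rw [← h1, h5]

/-- **the fibre over a point which is not on a level is a point** -/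
theorem Dis.kL_inj_off (hS : S.Dis) {o : List P} (ho : o.Nodup) {c : ℝ} (hc : 0 ≤ c) {T : Set J}
    {y y' z : Fin n → ℝ} (hz : S.Loc T c z) (hne : ∀ j ∈ T, z (S.i j) ≠ S.a j)
    (hy : S.kL o y = z) (hy' : S.kL o y' = z) : y = y' := by
  induction o generalizing y y' with
  | nil => rw [← kL_nil (S := S) y, ← kL_nil (S := S) y', hy, hy']
  | cons β o ih =>
    obtain ⟨hlo, ho'⟩ := List.nodup_cons.1 ho
    rw [kL_cons] at hy hy'
    have h1 : S.ki β y = S.ki β y' := ih ho' hy hy'
    refine hS.ki_inj_off (w := S.ki β y) rfl h1.symm fun j hj hact => ?_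
    obtain ⟨h3, h4⟩ := hS.kL_near' ho' hc hz hy
    have hjT : j ∈ T := by
      by_contra h
      exact hz.off j h _ h3 hact
    rw [h4 (S.i j) fun k hk hki hko => hlo (by rw [← hj, hz.coh j hjT k hk hki.symm]; exact hko)]
    exact hne j hjT

/-! ### the insertion map -/

/-- a locally finite family of slots in `Λ` -/
structure LF (S : Slots n J P) (Λ : Set (Fin n → ℝ)) (K : J → Set (Fin n → ℝ)) : Prop where
  op : IsOpen Λ
  cpt : ∀ j, IsCompact (K j)
  sub : ∀ j, K j ⊆ Λ
  act : ∀ j y, S.Act j y → y ∈ K j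
  lf : ∀ z ∈ Λ, ∃ U ∈ 𝓝 z, {j | (K j ∩ U).Nonempty}.Finite
  dis : S.Dis

variable {Λ : Set (Fin n → ℝ)} {K : J → Set (Fin n → ℝ)}

theorem LF.closure_sub (H : LF S Λ K) (j : J) : closure {y | S.Act j y} ⊆ K j :=
  closure_minimal (H.act j) (H.cpt j).isClosed

theorem insMap_id (hΛ : IsOpen Λ) : H579.InsMap (fun y : Fin n → ℝ => y) Λ Λ where
  isOpen := hΛ
  cont := continuousOn_id
  maps := fun _ h => h
  surj := fun y h => ⟨y, h, rfl⟩
  proper := fun C hC hsub => by
    have h1 : Λ ∩ (fun y => y) ⁻¹' C = C := inter_eq_right.2 hsub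
    rw [h1]; exact hC

theorem insMap_comp {Λ₁ Λ₂ Λ₃ : Set (Fin n → ℝ)} {f g : (Fin n → ℝ) → Fin n → ℝ}
    (hg : H579.InsMap g Λ₂ Λ₃) (hf : H579.InsMap f Λ₁ Λ₂) :
    H579.InsMap (fun y => g (f y)) Λ₁ Λ₃ where
  isOpen := hf.isOpen
  cont := hg.cont.comp hf.cont hf.maps
  maps := hg.maps.comp hf.maps
  surj := hg.surj.comp hf.surj
  proper := fun C hC hsub => by
    have h1 : Λ₁ ∩ (fun y => g (f y)) ⁻¹' C = Λ₁ ∩ f ⁻¹' (Λ₂ ∩ g ⁻¹' C) := by
      ext y
      constructor
      · rintro ⟨h1, h2⟩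
        exact ⟨h1, hf.maps h1, h2⟩
      · rintro ⟨h1, -, h2⟩
        exact ⟨h1, h2⟩
    rw [h1]
    exact hf.proper _ (hg.proper C hC hsub) inter_subset_left

theorem LF.insMap_ki (H : LF S Λ K) (β : P) :
    H579.InsMap (S.ki β) Λ Λ ∧ ConicalOn (S.ki β) Λ := by
  obtain ⟨κ, h1, h2, h3, h4, -⟩ := exists_glue_maps (ι := {j // S.p j = β}) H.op
    (fun j => S.kp j.1) (fun j => closure {y | S.Act j.1 y}) (fun j => S.supp_kp j.1)
    (fun j => (H.cpt j.1).of_isClosed_subset isClosed_closure (H.closure_sub j.1))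
    (fun j => (H.closure_sub j.1).trans (H.sub j.1))
    (fun z hz => by
      obtain ⟨U, hU, hfin⟩ := H.lf z hz
      refine ⟨U, hU, (hfin.preimage (f := fun j : {j // S.p j = β} => j.1)
        Subtype.val_injective.injOn).subset ?_⟩
      rintro j ⟨y, hy, hyU⟩
      exact ⟨y, H.closure_sub j.1 hy, hyU⟩)
    (fun j k hjk x hx hx' => S.kp_off fun hact => by
      obtain ⟨y, hy1, hy2⟩ := mem_closure_iff.1 hx' _ (S.isOpen_act j.1) hact
      exact H.dis j.1 k.1 (fun e => hjk (Subtype.ext e)) (j.2.trans k.2.symm) y hy1 hy2)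
  have h5 : S.ki β = κ := by
    ext1 y
    rcases H.dis.ki_cases β y with ⟨j, hj, hact, h6⟩ | ⟨h6, h7⟩
    · rw [h6, h1 ⟨j, hj⟩ y (subset_closure hact)]
    · rw [h7]
      by_cases h8 : ∃ j : {j // S.p j = β}, y ∈ closure {y | S.Act j.1 y}
      · obtain ⟨j, hj⟩ := h8
        rw [h1 j y hj, S.kp_off (h6 j.1 j.2)]
      · push Not at h8
        rw [h2 y h8]
  rw [h5]
  exact ⟨h3, h4⟩

/-- **[KAPALL]**: the composition of all slots is an insertion map -/
theorem LF.insMap (H : LF S Λ K) (o : List P) :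
    H579.InsMap (S.kL o) Λ Λ ∧ ConicalOn (S.kL o) Λ := by
  induction o with
  | nil => exact ⟨insMap_id H.op, conicalOn_id H.op.conicalSet⟩
  | cons β o ih =>
    obtain ⟨h1, h2⟩ := ih
    obtain ⟨h3, h4⟩ := H.insMap_ki β
    have e : S.kL (β :: o) = fun y => S.kL o (S.ki β y) := rfl
    rw [e]
    exact ⟨insMap_comp h1 h3, h2.comp h4 h3.maps h3.cont⟩

/-- only the points of `Λ` go to `Λ` -/
theorem LF.mem_Λ (H : LF S Λ K) {o : List P} {y : Fin n → ℝ} : S.kL o y ∈ Λ ↔ y ∈ Λ :=
  H.dis.kL_mem_iff (fun j y _ hact =>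
    ⟨fun _ => H.sub j (H.act j y hact), fun _ => H.sub j (H.act j _ (S.act_kp.2 hact))⟩) y

/-- a compact subset of `Λ` meets only finitely many supports -/
theorem LF.finite (H : LF S Λ K) {C : Set (Fin n → ℝ)} (hC : IsCompact C) (hsub : C ⊆ Λ) :
    {j | (K j ∩ C).Nonempty}.Finite := by
  choose! U hU hfin using H.lf
  obtain ⟨t, ht, hcov⟩ := hC.elim_nhds_subcover U fun z hz => hU z (hsub hz)
  refine (Set.Finite.biUnion t.finite_toSet fun z hz => hfin z (hsub (ht z hz))).subset ?_
  rintro j ⟨y, hy, hyC⟩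
  obtain ⟨z, hz, hyz⟩ := mem_iUnion₂.1 (hcov hyC)
  exact mem_iUnion₂.2 ⟨z, hz, y, hy, hyz⟩

section three

variable {Λ : Set (Fin 3 → ℝ)} {S : Slots 3 J P} {K : J → Set (Fin 3 → ℝ)}
  {E : Type*} [NormedAddCommGroup E] [NormedSpace ℝ E] {Ω X : Set E}

/-- the preimages without the condition `Λ` -/
theorem LF.pre_eq (H : LF S Λ K) (h : ConHomeo Ω Λ) (hX : X ⊆ Ω) (o : List P) :
    H579.Pre (S.kL o) Λ h X = S.kL o ⁻¹' (h.toFun '' X) := by
  ext y
  refine ⟨fun h1 => h1.2, fun h1 => ⟨(H.mem_Λ (o := o)).1 ?_, h1⟩⟩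
  obtain ⟨x, hx, hxy⟩ := h1
  rw [← hxy]
  exact h.mapsTo (hX hx)

/-- nothing happens off the slots -/
theorem LF.pre_eq_off (H : LF S Λ K) (h : ConHomeo Ω Λ) (hX : X ⊆ Ω) (o : List P)
    (hoff : ∀ x ∈ X, ∀ j, ¬ S.Act j (h.toFun x)) :
    H579.Pre (S.kL o) Λ h X = h.toFun '' X := by
  rw [H.pre_eq h hX]
  ext y
  constructor
  · rintro ⟨x, hx, hxy⟩
    rw [H.dis.kL_fib_off (z := h.toFun x) (fun j _ => hoff x hx j) hxy.symm]
    exact ⟨x, hx, rfl⟩
  · rintro ⟨x, hx, rfl⟩
    rw [mem_preimage, kL_off fun j _ => hoff x hx j]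
    exact ⟨x, hx, rfl⟩

/-- the fibres over the vertices -/
theorem LF.pre_subsingleton (H : LF S Λ K) (h : ConHomeo Ω Λ) {o : List P} (ho : o.Nodup)
    {c : ℝ} (hc : 0 ≤ c) {T : Set J} {x : E} (hz : S.Loc T c (h.toFun x))
    (hne : ∀ j ∈ T, h.toFun x (S.i j) ≠ S.a j) :
    (H579.Pre (S.kL o) Λ h {x}).Subsingleton := by
  rintro y ⟨-, x1, hx1, hy⟩ y' ⟨-, x2, hx2, hy'⟩
  rw [mem_singleton_iff] at hx1 hx2
  subst hx1 hx2
  exact H.dis.kL_inj_off ho hc hz hne hy.symm hy'.symm

end three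

end Slots

end P073.H919
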